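import Crest.Agent.N336.Eng.G2

/-!
# Row 336, CORE: the single-letter gain lemma `gg : GStmt` (helper96)
-/

set_option autoImplicit false
set_option linter.unusedSectionVars false

open Matrix Finset
open scoped ComplexOrder MatrixOrder Matrix.Norms.L2Operator InnerProductSpace

namespace Crest.Agent.N336.Eng

open Crest.Agent.N336.Q

namespace G

variable {ι : Type} [Fintype ι] [DecidableEq ι] {d : ι → Type}
  [∀ x, Fintype (d x)] [∀ x, DecidableEq (d x)] [∀ x, Nonempty (d x)]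

lemma rq_unitary {P : Finset ι} {U : Q.Op d} (sU : Supp Pᶜ U) (hU : Uᴴ * U = 1)
    (χ : Vec (Cfg d)) (ε : ℝ) : rq (ap U χ) P ε = rq χ P ε := by
  rw [rq, rq, pj_ap, mg, mg, red_conj_unitary (by rwa [rg_sb]) hU]

theorem main {P y Y : Finset ι} {ω ω' : Q.Op d} {χ : Vec (Cfg d)} {l s ε κ : ℝ}
    (hPy : Disjoint P y) (hPY : Disjoint P Y) (hyY : Disjoint y Y) (hω : ω.PosDef)
    (hω' : ω'.PosDef) (htr : ω.trace = 1) (htr' : ω'.trace = 1) (h1 : 1 ≤ l)
    (hl : Real.log (dim d y) ≤ l) (hs : 0 < s) (hχ : ‖χ‖ = 1) (hε : 0 < ε)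
    (hε1 : ε * dim d univ ≤ 1) (hs1 : 32 * s * (l + 1) ≤ 1) (hκ0 : 0 ≤ κ) (hκ1 : κ ^ 2 ≤ 1)
    (hκ : s * (l + 1) ≤ κ ^ 4) :
    ‖ap (pw (mg (P ∪ y) ω) s * pw (rq χ P ε) (-s) * pw (mg (Y ∪ y) ω') s * pw (rq χ Y ε) (-s))
        χ‖ ^ 2 ≤
      Real.exp (-(2 * s * eta χ P y Y) + (480 * s ^ 2 * (l + 1) ^ 2 + 273 * s * l * κ)) := by
  have pσ := mg_posDef (P ∪ y) hω
  have pσ' := mg_posDef (Y ∪ y) hω'
  have pr := rq_posDef χ P hε
  have pr' := rq_posDef χ Y hε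
  let a : ℂ → ℂ := fun w => (2 * s : ℝ) * w
  let b : ℂ → ℂ := fun w => (2 * s : ℝ) * (1 - w)
  let V : ℂ → Q.Op d := fun w => cpw (mg (Y ∪ y) ω') (b w) * cpw (rq χ Y ε) (-b w)
  let F : ℂ → Vec (Cfg d) := fun w =>
    ap (cpw (mg (P ∪ y) ω) (a w) * cpw (rq χ P ε) (-a w)) (ap (V w) χ)
  have hF : SB F :=
    ((SB.cpw_of _ (2 * s) 0 fun w => by simp [a]).mul
      (SB.cpw_of _ (-(2 * s)) 0 fun w => by simp [a])).ap
      (((SB.cpw_of _ (-(2 * s)) (2 * s) fun w => by simp only [b]; push_cast; ring).mul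
        (SB.cpw_of _ (2 * s) (-(2 * s)) fun w => by simp only [b]; push_cast; ring)).ap_const χ)
  have are : ∀ w, (a w).re = 2 * s * w.re := fun w => Complex.re_ofReal_mul _ _
  have bre : ∀ w, (b w).re = 2 * s * (1 - w.re) := fun w => by
    simp only [b, Complex.re_ofReal_mul, Complex.sub_re, Complex.one_re]
  have bim : ∀ w, |(b w).im| ≤ 2 * s * |w.im| := fun w => by
    simp only [b, Complex.im_ofReal_mul, Complex.sub_im, Complex.one_im, zero_sub, abs_mul, abs_neg,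
      abs_of_pos hs, abs_two, le_refl]
  have hv : ap (pw (mg (P ∪ y) ω) s * pw (rq χ P ε) (-s) * pw (mg (Y ∪ y) ω') s *
      pw (rq χ Y ε) (-s)) χ = F ((1 / 2 : ℝ) : ℂ) := by
    have ea : a ((1 / 2 : ℝ) : ℂ) = s := by simp only [a]; push_cast; ring
    have eb : b ((1 / 2 : ℝ) : ℂ) = s := by simp only [b]; push_cast; ring
    simp only [F, V, ea, eb]
    rw [← ap_mul, ← Complex.ofReal_neg, cpw_ofReal pσ, cpw_ofReal pσ', cpw_ofReal pr,
      cpw_ofReal pr', Matrix.mul_assoc (_ * _)]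
  have L0 : ∀ w : ℂ, w.re = 0 → ‖F w‖ = ‖ap (V w) χ‖ := fun w hw => by
    have : (a w).re = 0 := by rw [are, hw, mul_zero]
    simp only [F]
    rw [ap_mul, norm_ap_cpw_im _ this, norm_ap_cpw_im _ (by simp [this])]
  have L1 : ∀ w : ℂ, w.re = 1 → ‖ap (V w) χ‖ = 1 ∧ ‖F w‖ ≤ Real.exp
      (-(2 * s * (SV (ap (V w) χ) (P ∪ y) - SV (ap (V w) χ) P)) + 240 * s ^ 2 * (l + 1) ^ 2) := by
    intro w hw
    have h2 : (b w).re = 0 := by rw [bre, hw, sub_self, mul_zero]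
    have h3 : (a w).re = 2 * s := by rw [are, hw, mul_one]
    have hU : (V w)ᴴ * V w = 1 := by
      simp only [V]
      rw [conjTranspose_mul, Matrix.mul_assoc, ← Matrix.mul_assoc (cpw _ _)ᴴ (cpw _ _) (cpw _ _),
        cpw_unitary _ h2, Matrix.one_mul, cpw_unitary _ (by simp [h2])]
    have sU : Supp Pᶜ (V w) :=
      ((supp_cpw (supp_mg _ _) pσ'.1 _).mul
        ((supp_cpw (supp_rq _ _ _) pr'.1 _).mono subset_union_left)).mono
        (le_compl_iff_disjoint_left.2 (disjoint_union_right.2 ⟨hPY, hPy⟩))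
    have h4 : ‖ap (V w) χ‖ = 1 := by rw [norm_ap_unitary hU, hχ]
    have h5 := rl hPy hω htr h4 h1 hl hε hε1 (z := a w) (by rw [h3]; positivity)
      (by rw [h3]; linarith)
    rw [rq_unitary sU hU, h3] at h5
    exact ⟨h4, h5.trans (le_of_eq (by congr 1; ring))⟩
  have hP := abs_le.1 (abs_H_le hPy hχ hl)
  have hY := abs_le.1 (abs_H_le hyY.symm hχ hl)
  have p1 : 0 ≤ s ^ 2 * (l + 1) ^ 2 := by positivity
  have p2 : 0 ≤ s * l * κ := by positivity
  rw [hv]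
  rcases dich hyY.symm hω' htr' hχ h1 hl hε hε1 hs hs1 hκ1 hκ with h | h
  · refine (fin_damp hF (A := -(116 * s * (l + 1))) (B := 2 * s * l + 240 * s ^ 2 * (l + 1) ^ 2)
      (lam := 128 * s * (l + 1)) (by positivity) (fun w hw => ?_) fun w hw => ?_).trans
      (Real.exp_le_exp.2 ?_)
    · rw [L0 w hw]
      exact h _ _ (by rw [bre, hw]; ring) (bim w)
    · obtain ⟨h2, h3⟩ := L1 w hw
      refine h3.trans (Real.exp_le_exp.2 ?_)
      have h4 := abs_le.1 (abs_H_le hPy h2 hl)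
      have h5 : 0 ≤ 128 * s * (l + 1) * w.im ^ 2 := by positivity
      nlinarith
    · unfold eta
      nlinarith
  · refine (fin_damp hF (A := -(2 * s * (SV χ (Y ∪ y) - SV χ Y)) + 240 * s ^ 2 * (l + 1) ^ 2)
      (B := -(2 * s * (SV χ (P ∪ y) - SV χ P)) + 240 * s ^ 2 * (l + 1) ^ 2 + 234 * s * l * κ)
      (lam := 78 * s * l * κ) (by positivity) (fun w hw => ?_) fun w hw => ?_).trans
      (Real.exp_le_exp.2 (le_of_eq ?_))
    · have h3 : (b w).re = 2 * s := by rw [bre, hw]; ring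
      have h5 := rl hyY.symm hω' htr' hχ h1 hl hε hε1 (z := b w) (by rw [h3]; positivity)
        (by rw [h3]; linarith)
      rw [L0 w hw]
      refine h5.trans (Real.exp_le_exp.2 ?_)
      have h6 : 0 ≤ 78 * s * l * κ * w.im ^ 2 := by positivity
      rw [h3]
      linarith
    · obtain ⟨h2, h3⟩ := L1 w hw
      refine h3.trans (Real.exp_le_exp.2 ?_)
      have h4 := afw_vec hPy hχ h2 h1 hl (by positivity)
        (h _ _ (by rw [bre, hw]; ring) (bim w))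
      have h5 := mul_le_mul_of_nonneg_left h4 hs.le
      rw [← sq_abs w.im]
      nlinarith [mul_nonneg p2 (sq_nonneg (|w.im| - 1))]
    · unfold eta
      ring

end G

/-- the single-letter gain lemma -/
theorem gg : GStmt := by
  refine ⟨4, 3000, by norm_num, by norm_num, ?_⟩
  intro ι _ _ d _ _ _ P y Y ω ω' χ l s ε hPy hPY hyY hω hω' htr htr' h1 hl hs hC hχ hε hε1
  obtain ⟨q, hq0, hq⟩ : ∃ q : ℝ, 0 < q ∧ q ^ 4 = s :=
    ⟨s ^ ((1 : ℝ) / (4 : ℕ)), Real.rpow_pos_of_pos hs _, by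
      rw [one_div]; exact Real.rpow_inv_natCast_pow hs.le (by norm_num)⟩
  have h5 : s ^ (1 + (1 : ℝ) / (4 : ℕ)) = q ^ 5 := by
    rw [← hq, ← Real.rpow_natCast, ← Real.rpow_mul hq0.le, ← Real.rpow_natCast]
    norm_num
  have hm : l + 1 ≤ 2 * l := by linarith
  have l0 : 0 ≤ l := by linarith
  have l4 : l ≤ l ^ 4 := le_self_pow₀ h1 (by norm_num)
  have l24 : l ^ 2 ≤ l ^ 4 := pow_le_pow_right₀ h1 (by norm_num)
  have k4 : (q * (l + 1)) ^ 4 ≤ 1 := by
    calc _ ≤ (q * (2 * l)) ^ 4 := by gcongr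
      _ = 16 * l ^ 4 * s := by rw [← hq]; ring
      _ ≤ 3000 * l ^ 4 * s := by gcongr; norm_num
      _ ≤ 1 := hC
  have k1 : q * (l + 1) ≤ 1 := (pow_le_one_iff_of_nonneg (by positivity) (by norm_num)).1 k4
  have q1 : q ≤ 1 := by nlinarith
  refine (G.main (κ := q * (l + 1)) hPy hPY hyY hω hω' htr htr' h1 hl hs hχ hε hε1 ?_
    (by positivity) (pow_le_one₀ (by positivity) k1) ?_).trans (Real.exp_le_exp.2 ?_)
  · have : l * s ≤ l ^ 4 * s := by gcongr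
    nlinarith
  · rw [mul_pow, hq]
    gcongr
    exact le_self_pow₀ (by linarith) (by norm_num)
  · rw [h5, ← hq]
    have e1 : (q ^ 4) ^ 2 * (l + 1) ^ 2 ≤ 4 * (q ^ 5 * l ^ 4) := by
      calc _ ≤ (q ^ 4) ^ 2 * (2 * l) ^ 2 := by gcongr
        _ = 4 * (q ^ 8 * l ^ 2) := by ring
        _ ≤ _ := by gcongr 4 * (?_ * ?_); exact pow_le_pow_of_le_one hq0.le q1 (by norm_num)
    have e2 : q ^ 4 * l * (q * (l + 1)) ≤ 2 * (q ^ 5 * l ^ 4) := by
      calc _ ≤ q ^ 4 * l * (q * (2 * l)) := by gcongr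
        _ = 2 * (q ^ 5 * l ^ 2) := by ring
        _ ≤ _ := by gcongr
    have e3 : 0 ≤ q ^ 5 * l ^ 4 := by positivity
    nlinarith

end Crest.Agent.N336.Eng
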