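import Crest.Agent.N336.Eng.KC

/-!
# Row 336, engine: lemma (K) (helper66)
-/

set_option autoImplicit false
set_option linter.unusedSectionVars false

open Matrix Finset Complex
open scoped ComplexOrder MatrixOrder Matrix.Norms.L2Operator InnerProductSpace ComplexConjugate

namespace Crest.Agent.N336.Eng

open Crest.Agent.N336.Q

namespace K

section
variable {n : Type} [Fintype n] [DecidableEq n]

/-- the symbol at a complex parameter -/
noncomputable def sy (R S h : Matrix n n ℂ) (χ : Vec n) (z : ℂ) : ℂ :=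
  ⟪χ, ap (cpw R z * cpw S (-z) * h * cpw S z * cpw R (-z)) χ⟫_ℂ

variable {R S h : Matrix n n ℂ} {χ : Vec n}

lemma sb_sy : SB (sy R S h χ) :=
  ((((((SB.cpw R).mul (SB.cpw_neg S)).mul_const h).mul (SB.cpw S)).mul
    (SB.cpw_neg R)).ap_const χ).inner χ

lemma sy_zero : sy R S h χ 0 = ⟪χ, ap h χ⟫_ℂ := by simp [sy]

lemma sy_im {z : ℂ} (hz : z.re = 0) : sy R S h χ z =
    ⟪ap (cpw S z * cpw R (-z)) χ, ap h (ap (cpw S z * cpw R (-z)) χ)⟫_ℂ := by
  have : conj z = -z := by apply Complex.ext <;> simp [hz]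
  rw [inner_ap_left, ← ap_mul, ← ap_mul, conjTranspose_mul, cpw_conjTranspose, cpw_conjTranspose,
    map_neg, this, neg_neg, sy]
  simp only [Matrix.mul_assoc]

lemma norm_im {z : ℂ} (hz : z.re = 0) : ‖ap (cpw S z * cpw R (-z)) χ‖ = ‖χ‖ := by
  rw [ap_mul, norm_ap_cpw_im _ hz, norm_ap_cpw_im _ (by simpa using hz)]

lemma norm_sy_neg (hh : h.IsHermitian) (z : ℂ) : ‖sy R S h χ (-conj z)‖ = ‖sy R S h χ z‖ := by
  rw [sy, sy, norm_inner_symm, inner_ap_left]
  simp only [conjTranspose_mul, cpw_conjTranspose, hh.eq, map_neg, conj_conj, neg_neg,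
    Matrix.mul_assoc]

end

variable {ι : Type} [Fintype ι] [DecidableEq ι] {d : ι → Type} [∀ x, Fintype (d x)]
  [∀ x, DecidableEq (d x)] [∀ x, Nonempty (d x)] {χ : Vec (Cfg d)} {P Z B : Finset ι}
  {ε ε' : ℝ}

/-- the symbol on the line `Re = 1/2` -/
lemma sy_half (hd : Disjoint P Z) (hB : B ⊆ P ∪ Z) {h : Q.Op d} (hh : Supp B h) (hχ : ‖χ‖ = 1)
    (hε : 0 < ε) (hε' : 0 < ε') (h1 : ε * dim d P ≤ 1) (h2 : ε' * dim d Z ≤ 1) {z : ℂ}
    (hz : z.re = 1 / 2) : ‖sy (rq χ Z ε') (rq χ P ε) h χ z‖ ≤ dim d B ^ 2 * (‖h‖ * 2) := by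
  obtain ⟨K, _, c, a, b, hK, hab, e⟩ := hh.decomp P
  have pP := rq_pd (χ := χ) (X := P) hε
  have pZ := rq_pd (χ := χ) (X := Z) hε'
  have sP := fun w => supp_cpw (rq_supp (χ := χ) (X := P) (ε := ε)) pP.1 w
  have sZ := fun w => supp_cpw (rq_supp (χ := χ) (X := Z) (ε := ε')) pZ.1 w
  rw [sy]
  conv_lhs => rw [e]
  simp only [Matrix.mul_sum, Matrix.sum_mul, Matrix.mul_smul, Matrix.smul_mul, ap_sum, ap_smul,
    inner_sum, inner_smul_right]
  refine (norm_sum_le _ _).trans ((Finset.sum_le_card_nsmul _ _ (‖h‖ * 2) fun k _ => ?_).trans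
    (by rw [card_univ, hK, nsmul_eq_mul]; push_cast; rfl))
  obtain ⟨hc, ha, hb, ha1, hb1⟩ := hab k
  replace ha := ha.mono inter_subset_right
  replace hb : Supp Z (b k) := hb.mono fun x hx =>
    (mem_union.1 (hB (mem_sdiff.1 hx).1)).resolve_left (mem_sdiff.1 hx).2
  rw [norm_mul]
  refine mul_le_mul hc ?_ (norm_nonneg _) (norm_nonneg _)
  have k1 := conj_le ha.conjTranspose (by rwa [l2_opNorm_conjTranspose]) hχ hε h1
    (w := conj z) (by simpa using hz)
  have k2 := conj_le hb hb1 hχ hε' h2 hz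
  have k3 : cpw (rq χ Z ε') z * cpw (rq χ P ε) (-z) * (a k * b k) * cpw (rq χ P ε) z *
      cpw (rq χ Z ε') (-z) = (cpw (rq χ P ε) (conj z) * (a k)ᴴ * cpw (rq χ P ε) (-conj z))ᴴ *
        (cpw (rq χ Z ε') z * b k * cpw (rq χ Z ε') (-z)) := by
    simp only [conjTranspose_mul, cpw_conjTranspose, map_neg, conj_conj,
      conjTranspose_conjTranspose]
    rw [← Matrix.mul_assoc (_ * (a k * _)), ← Matrix.mul_assoc (_ * (a k * _)),
      (((sP _).mul (ha.mul (sP _))).commute (sZ z) hd).eq]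
    simp only [Matrix.mul_assoc]
    rw [← Matrix.mul_assoc (b k), ← ((sP _).commute hb hd).eq, Matrix.mul_assoc]
  rw [k3, ap_mul, ← inner_ap_left]
  refine (norm_inner_le_norm (𝕜 := ℂ) _ _).trans ?_
  nlinarith [sq_nonneg (‖ap (cpw (rq χ P ε) (conj z) * (a k)ᴴ * cpw (rq χ P ε) (-conj z)) χ‖ -
    ‖ap (cpw (rq χ Z ε') z * b k * cpw (rq χ Z ε') (-z)) χ‖)]

end K

open K in
/-- lemma (K) -/
theorem kk : KStmt := by
  refine ⟨16, 65536, by norm_num, by norm_num, ?_⟩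
  intro ι _ _ d _ _ _ P y Y B h χ J l s ε ε' h1 h2 h3 _ hB hh hp hJ hl hlB hs hCs hχ hε' h4 h5
  have hD := dim_pos_real (d := d) univ
  have hε : 0 < ε := (mul_pos hε' hD).trans_le h4
  have hη := eta_nonneg (χ := χ) h1 h2 h3
  have hyl : Real.log (dim d y) ≤ l := by
    refine le_trans (Real.log_le_log (dim_pos_real _) ?_) hlB
    rw [← union_sdiff_of_subset ‹y ⊆ B›, dim_union disjoint_sdiff, Nat.cast_mul]
    exact le_mul_of_one_le_right (Nat.cast_nonneg _) (by exact_mod_cast dim_pos _)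
  set e := eta χ P y Y + 2 * ε * dim d univ with he
  have he0 : 0 < e := by positivity
  rcases ((norm_nonneg _).trans hJ).eq_or_lt with rfl | hJ0
  · obtain rfl := norm_le_zero_iff.1 hJ
    simp [sym, qf]
  have pP := rq_pd (χ := χ) (X := P) hε
  have pZ := rq_pd (χ := χ) (X := Y ∪ y) hε'
  have hq : ((qf χ h : ℝ) : ℂ) = sy (rq χ (Y ∪ y) ε') (rq χ P ε) h χ 0 := by
    rw [sy_zero]
    apply Complex.ext <;> simp [im_inner_ap hp.1]
  have hsy : sym χ P (Y ∪ y) s ε ε' h = sy (rq χ (Y ∪ y) ε') (rq χ P ε) h χ s := by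
    rw [sym, sy, ← ofReal_neg, cpw_ofReal pP, cpw_ofReal pP, cpw_ofReal pZ, cpw_ofReal pZ]
  have him : ∀ z : ℂ, z.re = 0 → ‖sy (rq χ (Y ∪ y) ε') (rq χ P ε) h χ z‖ ≤ J := fun z hz => by
    rw [sy_im hz]
    refine (norm_inner_ap_le _ _ _).trans ?_
    rwa [norm_im hz, hχ, mul_one, mul_one]
  have hl16 : l ^ 2 ≤ l ^ 16 := pow_le_pow_right₀ hl (by norm_num)
  have hstrip : ∀ z : ℂ, 0 ≤ z.re → z.re ≤ 3 * (1 / (32 * l)) →
      ‖sy (rq χ (Y ∪ y) ε') (rq χ P ε) h χ z‖ ≤ 2 * J := fun z ha hb => by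
    rw [mul_one_div, le_div_iff₀ (by positivity)] at hb
    refine (three_exp sb_sy (a := 0) (b := 1 / 2) (m₀ := Real.log J) (m₁ := Real.log J + 3 * l)
      one_half_pos ha (by nlinarith) (fun w hw => by rw [Real.exp_log hJ0]; exact him w hw)
      fun w hw => ?_).trans ?_
    · refine (sy_half (disjoint_union_right.2 ⟨h2, h1⟩)
        (hB.trans (union_subset_union_right subset_union_right)) hh hχ hε hε'
        ((mul_le_mul_of_nonneg_left (dim_le _) hε.le).trans h5)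
        ((mul_le_mul_of_nonneg_left (dim_le _) hε'.le).trans (h4.trans
          ((le_mul_of_one_le_right hε.le (by exact_mod_cast dim_pos _)).trans h5))) hw).trans ?_
      have a1 : (dim d B : ℝ) ≤ Real.exp l := (Real.log_le_iff_le_exp (dim_pos_real _)).1 hlB
      have a2 : 2 ≤ Real.exp l := by linarith [Real.add_one_le_exp l]
      rw [Real.exp_add, Real.exp_log hJ0, show 3 * l = (3 : ℕ) * l by norm_num, Real.exp_nat_mul]
      calc _ ≤ Real.exp l ^ 2 * (J * Real.exp l) := by gcongr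
        _ = _ := by ring
    · rw [← Real.exp_log (show 0 < 2 * J by positivity), Real.exp_le_exp,
        Real.log_mul two_ne_zero hJ0.ne', sub_zero, sub_zero, div_div_eq_mul_div, div_one]
      nlinarith [Real.log_two_gt_d9]
  have key := fin (sb_sy (R := rq χ (Y ∪ y) ε') (S := rq χ P ε) (h := h) (χ := χ)).diff hJ0 he0
    (σ := 1 / (32 * l)) (him 0 rfl)
    (fun t => by
      rw [sy_im (by simp)]
      exact ⟨im_inner_ap hp.1 _, re_inner_ap_nonneg hp _⟩)
    (fun t ht => by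
      obtain ⟨u, su, hu, hle⟩ := flow h1 h2 h3 hχ hε' h4 h5 hl hyl ht
      have hc : Commute h u := hh.commute su (disjoint_compl_right.mono_left hB)
      have a1 : ∀ v : Vec (Cfg d), ⟪v, ap h v⟫_ℂ = ⟪ap u v, ap h (ap u v)⟫_ℂ := fun v => by
        rw [inner_ap_left, ← ap_mul, ← ap_mul, Matrix.mul_assoc, hc.eq, ← Matrix.mul_assoc, hu,
          Matrix.one_mul]
      rw [sy_im (by simp), sy_zero, a1]
      refine (norm_inner_sub_le hχ
        (by rw [norm_ap_unitary hu, norm_im (by simp), hχ])).trans ?_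
      calc _ ≤ 2 * J * (5 / 2 * e ^ (1 / 8 : ℝ)) := by gcongr
        _ = _ := by ring)
    (fun z hz => by
      rcases le_total 0 z.re with a | a
      · exact hstrip z a (le_of_abs_le hz)
      · rw [← norm_sy_neg hp.1]
        exact hstrip _ (by simpa using a) (by simpa using neg_le_of_abs_le hz |> neg_le.1))
    (s := s) (by
      rw [abs_of_pos hs, lt_div_iff₀ (by positivity)]
      nlinarith [mul_pos hs (zero_lt_one.trans_le hl), mul_le_mul_of_nonneg_left
        (le_self_pow₀ hl (show 16 ≠ 0 by norm_num)) hs.le])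
  rw [← hq, ← hsy, ofReal_re] at key
  refine key.trans ?_
  have a1 : 16 * (4 * J * e ^ (1 / 16 : ℝ)) / (1 / (32 * l)) ^ 2 * s ^ 2 ≤
      65536 * J * s ^ 2 * l ^ 16 * e ^ ((1 : ℝ) / (16 : ℕ)) := by
    rw [Nat.cast_ofNat]
    calc _ = 65536 * J * s ^ 2 * l ^ 2 * e ^ (1 / 16 : ℝ) := by field_simp; norm_num
      _ ≤ _ := by gcongr
  have a2 : 0 ≤ qf χ h := re_inner_ap_nonneg hp χ
  gcongr

end Crest.Agent.N336.Eng
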