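import Crest.Agent.N336.Eng.Gain

/-!
# Row 336, engine: `eng : EngStmt` (helper88)
-/

set_option autoImplicit false
set_option linter.unusedSectionVars false

open Matrix Finset
open scoped ComplexOrder MatrixOrder Matrix.Norms.L2Operator InnerProductSpace

namespace Crest.Agent.N336.Eng.En

open Crest.Agent.N336.Q

variable {n : Type} [Fintype n] [DecidableEq n] {Cf X : Type} [Fintype X] [Nonempty X]
  {mv : Cf → X → Cf} {A : Cf → Matrix n n ℂ} (c₀ : Cf) (T : ℕ) (Ω : Vec n)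

lemma ff_pos (hΩ : Ω ≠ 0) (t : ℕ) (σ : ℝ) : 0 < ff mv A c₀ T Ω t σ :=
  qf_pos (pw_posDef (MM_posDef mv A c₀ T t σ) _) hΩ

/-- the gain pigeonhole -/
lemma exists_time (hA : ∀ c, (A c).PosDef) (hm : ∀ c x, QL (A (mv c x)) (A c))
    {Alo : Matrix n n ℂ} (hlo : Alo.PosDef) {S : ℕ} {τ Bud η : ℝ} (hΩ : Ω ≠ 0)
    (hl : ∀ l : List X, l.length ≤ T + 1 + S → QL Alo (A (l.foldl mv c₀)))
    (hS : 1 ≤ S) (hτ : 0 < τ) (hτ' : τ ≤ 1 / 4) (hη : 0 < η)
    (hB : Real.log (qf Ω (pw (A c₀) (1 / 2))) - Real.log (qf Ω (pw Alo (1 / 2))) ≤ Bud) :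
    ∃ t < S, ∃ σ, τ ≤ σ ∧ σ ≤ 2 * τ ∧
      ll mv A c₀ T Ω t σ (gn mv A σ) ≤ (Bud / (S * τ) + η) * ff mv A c₀ T Ω t σ := by
  have hr : ∀ t, 0 ≤ ex mv c₀ (T + 1) t (rm mv A) := fun t =>
    ex_nonneg mv c₀ _ t fun c => Finset.sum_nonneg fun _ _ => sq_nonneg _
  have hf := ff_pos (mv := mv) (A := A) c₀ T Ω hΩ
  obtain ⟨t, ht, σ, h1, h2, h3⟩ := pigeon (fun t σ => Real.log (ff mv A c₀ T Ω t σ))
    (fun t σ => ll mv A c₀ T Ω t σ (gn mv A σ) / ff mv A c₀ T Ω t σ) (T := S) (τ := τ)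
    (Z := ∑ t ∈ range S, ex mv c₀ (T + 1) t (rm mv A)) (Bud := Bud) (η := η) hS hτ
    (Finset.sum_nonneg fun t _ => hr t) hη
    (fun t ht σ ε _ hε _ => by
      have k1 := ff_step c₀ T Ω hA hm t σ hε
      have k2 := Real.log_le_sub_one_of_pos (div_pos (hf t (σ + ε)) (hf t σ))
      rw [Real.log_div (hf t _).ne' (hf t _).ne'] at k2
      have k3 : ex mv c₀ (T + 1) t (rm mv A) ≤ ∑ t ∈ range S, ex mv c₀ (T + 1) t (rm mv A) :=
        Finset.single_le_sum (f := fun t => ex mv c₀ (T + 1) t (rm mv A)) (fun t _ => hr t)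
          (Finset.mem_range.2 ht)
      have k4 : ff mv A c₀ T Ω t (σ + ε) / ff mv A c₀ T Ω t σ ≤
          1 - ε * (ll mv A c₀ T Ω t σ (gn mv A σ) / ff mv A c₀ T Ω t σ) +
            ε ^ 2 * ex mv c₀ (T + 1) t (rm mv A) / 2 := by
        rw [div_le_iff₀ (hf t σ)]
        refine k1.trans (le_of_eq ?_)
        have := (hf t σ).ne'
        field_simp
      have k5 := mul_le_mul_of_nonneg_left k3 (sq_nonneg ε)
      have k6 := mul_nonneg (sq_nonneg ε) (hr t)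
      linarith)
    (fun t => Real.log_le_log (hf _ _) (ff_chain c₀ T Ω hA hm t hτ.le (by linarith)))
    (by
      have k1 : ff mv A c₀ T Ω 0 τ ≤ qf Ω (pw (A c₀) (1 / 2)) :=
        root_mono (hA c₀) (MM_posDef mv A c₀ T 0 τ) (MM_le c₀ T hA hm 0 hτ.le) Ω
      have k2 : qf Ω (pw Alo (1 / 2)) ≤ ff mv A c₀ T Ω (S - 1) (2 * τ) :=
        root_mono (MM_posDef mv A c₀ T _ _) hlo
          (le_MM c₀ T hA hm hlo _ (by linarith) fun l h => hl l (by omega)) Ω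
      have k3 := Real.log_le_log (hf _ _) k1
      have k4 := Real.log_le_log (qf_pos (pw_posDef hlo _) hΩ) k2
      linarith)
  exact ⟨t, ht, σ, h1, h2, (div_le_iff₀ (hf t σ)).1 h3⟩

variable (mv A)

/-- left defect of a node -/
noncomputable def EA (σ : ℝ) (E : Cf → Matrix n n ℂ) (c : Cf) : Matrix n n ℂ :=
  (nf mv A c).L (nf mv A c) (KA σ) (E c)

/-- right defect of a node -/
noncomputable def EB (σ : ℝ) (E : Cf → Matrix n n ℂ) (c : Cf) : Matrix n n ℂ :=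
  (nf mv A c).L (nf mv A c) (KB σ) (mnP (fun x => A (mv c x)) fun x => E (mv c x))

variable {mv A} {σ : ℝ}

lemma MM_dom (hσ : σ ∈ Set.Ioo (0 : ℝ) 1) {A' E : Cf → Matrix n n ℂ} {q : Cf → ℝ}
    (g : Matrix n n ℂ) (hA : ∀ c, (A c).PosDef) (hA' : ∀ c, (A' c).PosDef)
    (hd : ∀ c, Dom (g * A c - A' c * g) (q c • A' c) (E c)) (t : ℕ) :
    Dom (g * MM mv A c₀ T t σ - MM mv A' c₀ T t σ * g)
      (((1 - σ) * ex mv c₀ (T + 1) t q + σ * ex mv c₀ (T + 1) (t + 1) q) • MM mv A' c₀ T t σ)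
      (TP mv c₀ T (nd mv A σ) t fun c => EA mv A σ E c + EB mv A σ E c) := by
  rw [← ex_avg, ← ex_lin]
  refine Tp_dom mv c₀ T g (nd_posDef mv A σ) (nd_posDef mv A' σ) (fun c => ?_) t
  refine (nf mv A c).dom_node (nf mv A' c) hσ g ?_ ?_
  · rw [nf_a hA, nf_a hA']; exact hd c
  · rw [nf_b hA, nf_b hA']
    exact mn_dom g (fun _ => hA _) (fun _ => hA' _) fun x => hd (mv c x)

lemma EA_nonneg (hσ : σ ∈ Set.Ioo (0 : ℝ) 1) {E : Cf → Matrix n n ℂ} (h : ∀ c, QL 0 (E c))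
    (c : Cf) : QL 0 (EA mv A σ E c) := by
  have := (nf mv A c).LA_mono hσ (h c)
  rwa [map_zero] at this

lemma EB_nonneg (hσ : σ ∈ Set.Ioo (0 : ℝ) 1) {E : Cf → Matrix n n ℂ} (h : ∀ c, QL 0 (E c))
    (c : Cf) : QL 0 (EB mv A σ E c) := by
  have h1 := mnP_mono (fun x => A (mv c x)) (E := 0) fun x => h (mv c x)
  have := (nf mv A c).LB_mono hσ h1
  rwa [map_zero, map_zero] at this

lemma ll_EA (hσ : σ ∈ Set.Ioo (0 : ℝ) 1) (hA : ∀ c, (A c).PosDef) {E : Cf → Matrix n n ℂ}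
    {r : Cf → ℝ} (h : ∀ c, QL (E c) (r c • A c)) (t : ℕ) :
    ll mv A c₀ T Ω t σ (EA mv A σ E) ≤
      (1 - σ) * ex mv c₀ (T + 1) t r * (ff mv A c₀ T Ω t σ / 2) := by
  rw [mul_assoc, ← ll_norm, ← ll_smul]
  refine ll_mono mv A c₀ T Ω t σ fun c => ?_
  have h1 := (nf mv A c).LA_mono hσ (h c)
  have h2 := (nf mv A c).LA_a hσ
  rw [nf_a hA] at h2
  rwa [map_smul, h2, smul_comm] at h1

lemma ll_EB (hσ : σ ∈ Set.Ioo (0 : ℝ) 1) (hA : ∀ c, (A c).PosDef) {E : Cf → Matrix n n ℂ}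
    {r : Cf → ℝ} (h : ∀ c, QL (E c) (r c • A c)) (t : ℕ) :
    ll mv A c₀ T Ω t σ (EB mv A σ E) ≤
      σ * ex mv c₀ (T + 1) (t + 1) r * (ff mv A c₀ T Ω t σ / 2) := by
  rw [mul_assoc, ← ex_avg, ← ll_norm, ← ll_smul]
  refine ll_mono mv A c₀ T Ω t σ fun c => ?_
  have h0 := mnP_mono (fun x => A (mv c x)) fun x => h (mv c x)
  rw [mnP_norm (fun x => hA (mv c x)) fun x => r (mv c x)] at h0
  have h1 := (nf mv A c).LB_mono hσ h0
  have h2 := (nf mv A c).LB_b hσ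
  rw [nf_b hA, ch] at h2
  rwa [map_smul, h2, smul_comm] at h1

lemma ll_gain (hσ : σ ∈ Set.Ioo (0 : ℝ) 1) (hA : ∀ c, (A c).PosDef) {κ : Type*} (s : Finset κ)
    {E : κ → Cf → Matrix n n ℂ} {ξ : Cf → ℝ} {β : ℝ}
    (h : ∀ c, QL (∑ k ∈ s, E k c) (pw (A c) (1 / 2) *
      (ξ c • (1 : Matrix n n ℂ) - β • lg (rel (A c) (ch mv A c))) * pw (A c) (1 / 2))) (t : ℕ) :
    ∑ k ∈ s, ll mv A c₀ T Ω t σ (EA mv A σ (E k)) ≤
      (1 - σ) * (ex mv c₀ (T + 1) t ξ * (ff mv A c₀ T Ω t σ / 2) +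
        β * ll mv A c₀ T Ω t σ (gn mv A σ)) := by
  rw [← ll_sum, ← ll_norm, ← ll_smul, ← ll_add, ← ll_smul]
  refine ll_mono mv A c₀ T Ω t σ fun c => ?_
  have h1 := (nf mv A c).LA_mono hσ (h c)
  have e1 := fr0_D (hA c) (ch_posDef (mv := mv) hA c) Real.log
  have e2 : pw (A c) (1 / 2) * (ξ c • (1 : Matrix n n ℂ) - β • lg (rel (A c) (ch mv A c))) *
      pw (A c) (1 / 2) = (nf mv A c).D fun i => ξ c * 1 + β * -Real.log ((nf mv A c).x i) := by
    rw [Fr.D_add, Fr.D_smul, Matrix.mul_sub, Matrix.sub_mul, Matrix.mul_smul, Matrix.smul_mul,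
      Matrix.mul_smul, Matrix.smul_mul, Matrix.mul_one, pw_mul (hA c), add_halves, pw_one (hA c).1,
      ← e1, sub_eq_add_neg, ← neg_smul, ← Fr.D_smul]
    congr 1
    · congr 1; exact (nf_a (mv := mv) hA c).symm
    · congr 1; funext i; simp only [nf]; ring
  rw [e2, Fr.LA_D _ hσ, map_sum] at h1
  have e3 : ((nf mv A c).D fun i => (nf mv A c).x i ^ σ *
      (ξ c * 1 + β * -Real.log ((nf mv A c).x i))) = ξ c • nd mv A σ c + β • gn mv A σ c := by
    rw [nd, gn, Fr.m, ← Fr.D_smul, ← Fr.D_smul, ← Fr.D_add]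
    congr 1; funext i; ring
  rwa [e3] at h1

lemma conj_half {A B B' : Matrix n n ℂ} (h : B ≤ B') :
    QL (pw A (1 / 2) * B * pw A (1 / 2)) (pw A (1 / 2) * B' * pw A (1 / 2)) := by
  have := (QL.of_le h).conj (pw A (1 / 2))
  rwa [pw_herm] at this

open Classical in
theorem eng : EngStmt := by
  refine ⟨1 + 2 * c14 ^ 2, by positivity, ?_⟩
  intro n _ _ Cf X V _ _ _ mv c₀ A g At B cr act ξ p Ω Alo E₀ β βc ξb pb τ Bud ζ T₀ S hA hm hlo hl
    hΩ hH hnc hcr hG hT₀ hS hτ hτ' hβ hβc hξb hpb hζ hp hpa hξ hBud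
  obtain ⟨T, rfl⟩ : ∃ T, T₀ = T + 1 := ⟨T₀ - 1, by omega⟩
  set C : ℝ := 1 + 2 * c14 ^ 2 with hC
  have hC0 : 0 < C := by positivity
  have hΩ0 : Ω ≠ 0 := by rintro rfl; simp at hΩ
  have hm' : ∀ c x, QL (A (mv c x)) (A c) := fun c x => QL.of_le (hm c x)
  have hη : 0 < ζ / (C * pb * β + 1) := by positivity
  obtain ⟨t, ht, σ, hσ1, hσ2, hγ⟩ := exists_time c₀ T Ω hA hm' hlo hΩ0
    (fun l h => QL.of_le (hl l h)) hS hτ hτ' hη hBud
  have hσ : σ ∈ Set.Ioo (0 : ℝ) 1 := ⟨by linarith, by linarith⟩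
  have hM := MM_posDef mv A c₀ T t σ
  refine ⟨MM mv A c₀ T t σ, hM, ?_, ?_, ?_⟩
  · exact (le_MM c₀ T hA hm' hlo t hσ.2.le fun l h => QL.of_le (hl l (by omega))).le hlo.1 hM.1
  · exact (MM_le c₀ T hA hm' t hσ.1.le).le hM.1 (hA c₀).1
  set A' : V → Cf → Matrix n n ℂ := fun v c => if cr c v then At c v else A c with hA'
  set E : V → Cf → Matrix n n ℂ :=
    fun v c => if cr c v then pw (A c) (1 / 2) * B c v * pw (A c) (1 / 2) else 0 with hE
  set q : V → Cf → ℝ := fun v c => if cr c v then 1 else 0 with hq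
  have hA'p : ∀ v c, (A' v c).PosDef := fun v c => by
    by_cases h : cr c v
    · simp only [hA', if_pos h]; exact (hcr c v h).1
    · simp only [hA', if_neg h]; exact hA c
  have hd : ∀ v c, Dom (g v * A c - A' v c * g v) (q v c • A' v c) (E v c) := fun v c => by
    by_cases h : cr c v
    · simp only [hA', hE, hq, if_pos h, one_smul]
      exact dom_of_le (hcr c v h).1 (QL.of_le (hcr c v h).2.2.2)
    · simp only [hA', hE, hq, if_neg h, zero_smul, hnc c v h, sub_self]; exact Dom.zero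
  have hE0 : ∀ v c, QL 0 (E v c) := fun v c => (hd v c).right
  have hE1 : ∀ v c, QL (E v c) ((βc * q v c) • A c) := fun v c => by
    by_cases h : cr c v
    · simp only [hE, hq, if_pos h, mul_one]
      have := conj_half (A := A c) (hcr c v h).2.2.1
      rwa [Matrix.mul_smul, Matrix.smul_mul, Matrix.mul_one, pw_mul (hA c), add_halves,
        pw_one (hA c).1] at this
    · simp only [hE, hq, if_neg h, mul_zero, zero_smul]; exact QL.refl _
  have hq0 : ∀ v s, 0 ≤ ex mv c₀ (T + 1) s (q v) := fun v s =>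
    ex_nonneg mv c₀ _ s fun c => by simp only [hq]; split_ifs <;> norm_num
  have hq1 : ∀ v, ex mv c₀ (T + 1) t (q v) ≤ p v := fun v => hp v t ht.le
  have hq2 : ∀ v, ex mv c₀ (T + 1) (t + 1) (q v) ≤ p v := fun v => hp v (t + 1) ht
  have hp0 : ∀ v, 0 ≤ p v := fun v => (hq0 v t).trans (hq1 v)
  have hexs : ∀ v s, ex mv c₀ (T + 1) s (fun c => βc * q v c) = βc * ex mv c₀ (T + 1) s (q v) := by
    intro v s
    have := ex_lin mv c₀ (T + 1) s βc 0 (q v) (q v)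
    simpa using this
  have h1 := energy_le hM (g := g) (Mt := fun v => MM mv (A' v) c₀ T t σ)
    (fun v => MM_posDef mv _ c₀ T t σ)
    (fun v => add_nonneg (mul_nonneg (by linarith [hσ.2]) (hq0 v t)) (mul_nonneg hσ.1.le (hq0 v _)))
    (fun v => MM_dom c₀ T hσ (g v) hA (hA'p v) (hd v) t) hH
  rw [qf_root hM]
  change _ ≤ 4 * E₀ * ff mv A c₀ T Ω t σ + C * ∑ v, _ * ll mv A c₀ T Ω t σ _ at h1
  change _ ≤ _ * ff mv A c₀ T Ω t σ
  simp only [ll_add] at h1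
  have hf := ff_pos (mv := mv) (A := A) c₀ T Ω hΩ0 t σ
  set f := ff mv A c₀ T Ω t σ with hfd
  set a : V → ℝ := fun v => ll mv A c₀ T Ω t σ (EA mv A σ (E v)) with ha
  set b : V → ℝ := fun v => ll mv A c₀ T Ω t σ (EB mv A σ (E v)) with hb
  have a0 : ∀ v, 0 ≤ a v := fun v => ll_nonneg mv A c₀ T Ω t σ (EA_nonneg hσ (hE0 v))
  have b0 : ∀ v, 0 ≤ b v := fun v => ll_nonneg mv A c₀ T Ω t σ (EB_nonneg hσ (hE0 v))
  have a1 : ∀ v, a v ≤ βc * p v * f := fun v => by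
    have k1 := ll_EA (mv := mv) c₀ T Ω hσ hA (hE1 v) t
    rw [hexs, ← hfd] at k1
    have k2 := mul_le_mul_of_nonneg_left (hq1 v) hβc
    have k3 := mul_nonneg hβc (hq0 v t)
    have k4 : (1 - σ) * (βc * ex mv c₀ (T + 1) t (q v)) ≤ 2 * (βc * p v) := by nlinarith [hσ.1]
    have := mul_le_mul_of_nonneg_right k4 (show 0 ≤ f / 2 by linarith)
    change a v ≤ _ at k1
    linarith
  have b1 : ∀ v, b v ≤ βc * τ * p v * f := fun v => by
    have k1 := ll_EB (mv := mv) c₀ T Ω hσ hA (hE1 v) t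
    rw [hexs, ← hfd] at k1
    have k2 := mul_le_mul_of_nonneg_left (hq2 v) hβc
    have k3 := mul_nonneg hβc (hq0 v (t + 1))
    have k4 : σ * (βc * ex mv c₀ (T + 1) (t + 1) (q v)) ≤ 2 * τ * (βc * p v) :=
      mul_le_mul hσ2 k2 k3 (by linarith)
    have := mul_le_mul_of_nonneg_right k4 (show 0 ≤ f / 2 by linarith)
    change b v ≤ _ at k1
    linarith
  have a2 : ∑ v ∈ univ.filter act, a v ≤ (ξb + β * (Bud / (S * τ) + ζ / (C * pb * β + 1))) * f := by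
    have k1 := ll_gain (mv := mv) c₀ T Ω hσ hA (univ.filter act) (E := E) (ξ := ξ) (β := β)
      (fun c => by
        have k := conj_half (A := A c) (hG c (ch mv A c) (ch_posDef hA c)
          ((ch_le hA hm' c).le (ch_posDef hA c).1 (hA c).1)
          fun w hw => mn_geo (fun x => hA (mv c x)) hw)
        rw [Finset.mul_sum, Finset.sum_mul, ← Finset.filter_filter, Finset.sum_filter] at k
        exact k) t
    rw [← hfd] at k1
    have k2 := ll_nonneg mv A c₀ T Ω t σ (gn_nonneg hA hm' σ)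
    have k3 := mul_le_mul_of_nonneg_left hγ hβ
    have k4 := mul_le_mul_of_nonneg_right (hξ t ht) (show 0 ≤ f / 2 by linarith)
    have k5 := mul_nonneg hβ k2
    have k6 := mul_nonneg hξb hf.le
    have k7 : (1 - σ) * (ex mv c₀ (T + 1) t ξ * (f / 2) + β * ll mv A c₀ T Ω t σ (gn mv A σ)) ≤
        (1 - σ) * (ξb * (f / 2) + β * ll mv A c₀ T Ω t σ (gn mv A σ)) :=
      mul_le_mul_of_nonneg_left (by linarith) (by linarith [hσ.2])
    have k8 := mul_nonneg hσ.1.le (show 0 ≤ ξb * (f / 2) + β * ll mv A c₀ T Ω t σ (gn mv A σ) by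
      linarith)
    change ∑ v ∈ univ.filter act, a v ≤ _ at k1
    linarith
  have s1 : ∑ v, ((1 - σ) * ex mv c₀ (T + 1) t (q v) + σ * ex mv c₀ (T + 1) (t + 1) (q v)) *
      (a v + b v) ≤ pb * ∑ v ∈ univ.filter act, a v +
        βc * (τ * ∑ v, p v ^ 2 + ∑ v ∈ univ.filter (fun v => ¬ act v), p v ^ 2) * f := by
    have k1 : ∀ v, ((1 - σ) * ex mv c₀ (T + 1) t (q v) + σ * ex mv c₀ (T + 1) (t + 1) (q v)) *
        (a v + b v) ≤ (if act v then pb * a v else 0) +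
          (βc * τ * f * p v ^ 2 + if ¬ act v then βc * f * p v ^ 2 else 0) := fun v => by
      have k2 : (1 - σ) * ex mv c₀ (T + 1) t (q v) + σ * ex mv c₀ (T + 1) (t + 1) (q v) ≤ p v := by
        nlinarith [hq1 v, hq2 v, hσ.1, hσ.2]
      have k3 := mul_le_mul_of_nonneg_right k2 (add_nonneg (a0 v) (b0 v))
      have k4 := mul_le_mul_of_nonneg_left (b1 v) (hp0 v)
      by_cases h : act v
      · have := mul_le_mul_of_nonneg_right (hpa v h) (a0 v)
        simp only [h, if_true, not_true, if_false]; linarith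
      · have := mul_le_mul_of_nonneg_left (a1 v) (hp0 v)
        simp only [h, if_true, not_false_eq_true, if_false]; linarith
    refine (Finset.sum_le_sum fun v _ => k1 v).trans (le_of_eq ?_)
    rw [Finset.sum_add_distrib, Finset.sum_add_distrib, ← Finset.sum_filter, ← Finset.sum_filter,
      ← Finset.mul_sum, ← Finset.mul_sum, ← Finset.mul_sum]
    ring
  have s2 := mul_le_mul_of_nonneg_left a2 hpb
  have s3 : C * pb * β * (ζ / (C * pb * β + 1)) ≤ ζ := by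
    rw [mul_div_assoc', div_le_iff₀ (by positivity)]; nlinarith
  have s4 := mul_le_mul_of_nonneg_right s3 hf.le
  have s5 := mul_le_mul_of_nonneg_left (s1.trans (add_le_add_left s2 _)) hC0.le
  refine h1.trans ?_
  change _ + C * ∑ v, _ * (a v + b v) ≤ _
  rw [mul_div_assoc]
  linarith

end Crest.Agent.N336.Eng.En
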