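import Crest.Agent.N336.Eng.Defs

/-!
# Row 336, CORE: complex powers of positive definite matrices (helper21)

* `cpw A z`, algebra of `cpw`, `pw`, `lg`, inverses, commuting products
* operator monotonicity (`lg_mono`, `pw_mono`, `inv_anti`), contractions
-/

set_option autoImplicit false
set_option linter.unusedSectionVars false

open Matrix Finset
open scoped ComplexOrder MatrixOrder Matrix.Norms.L2Operator InnerProductSpace

namespace Crest.Agent.N336.Eng

open Crest.Agent.N336.Q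

section alg

variable {n : Type} [Fintype n] [DecidableEq n] {A B : Matrix n n ℂ}

/-- complex power (of a positive definite matrix) -/
noncomputable def cpw (A : Matrix n n ℂ) (z : ℂ) : Matrix n n ℂ :=
  fc (fun x => Complex.exp (z * Real.log x)) A

lemma cpw_add (A : Matrix n n ℂ) (z w : ℂ) : cpw A (z + w) = cpw A z * cpw A w := by
  simp only [cpw, fc_mul, add_mul, Complex.exp_add]

lemma cpw_mul_cpw (A : Matrix n n ℂ) (z w : ℂ) : cpw A z * cpw A w = cpw A (z + w) :=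
  (cpw_add A z w).symm

@[simp] lemma cpw_zero (A : Matrix n n ℂ) : cpw A 0 = 1 := by
  simp only [cpw, zero_mul, Complex.exp_zero, fc_one]

lemma cpw_mul_neg (A : Matrix n n ℂ) (z : ℂ) : cpw A z * cpw A (-z) = 1 := by
  rw [cpw_mul_cpw, add_neg_cancel, cpw_zero]

lemma cpw_neg_mul (A : Matrix n n ℂ) (z : ℂ) : cpw A (-z) * cpw A z = 1 := by
  rw [cpw_mul_cpw, neg_add_cancel, cpw_zero]

lemma cpw_conjTranspose (A : Matrix n n ℂ) (z : ℂ) :
    (cpw A z)ᴴ = cpw A ((starRingEnd ℂ) z) := by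
  rw [cpw, cpw, fc_conjTranspose]
  congr 1; funext x
  rw [Complex.star_def, ← Complex.exp_conj, map_mul, Complex.conj_ofReal]

lemma cpw_commute (A : Matrix n n ℂ) (z w : ℂ) : Commute (cpw A z) (cpw A w) := fc_commute _ _ _

lemma cpw_ofReal (hA : A.PosDef) (s : ℝ) : cpw A s = pw A s :=
  fc_congr fun i => by
    beta_reduce
    rw [Real.rpow_def_of_pos (ev_pos hA i), Complex.ofReal_exp, mul_comm, Complex.ofReal_mul]

lemma pw_add (hA : A.PosDef) (s t : ℝ) : pw A (s + t) = pw A s * pw A t := by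
  rw [← cpw_ofReal hA, ← cpw_ofReal hA, ← cpw_ofReal hA, Complex.ofReal_add, cpw_add]

lemma pw_mul_pw (hA : A.PosDef) (s t : ℝ) : pw A s * pw A t = pw A (s + t) :=
  (pw_add hA s t).symm

lemma pw_zero (A : Matrix n n ℂ) : pw A 0 = 1 := by simp [pw, fr, fc_one]

lemma pw_one (hA : A.IsHermitian) : pw A 1 = A := by simpa [pw, fr] using fc_id hA

lemma pw_mul_neg (hA : A.PosDef) (s : ℝ) : pw A s * pw A (-s) = 1 := by
  rw [pw_mul_pw hA, add_neg_cancel, pw_zero]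

lemma pw_neg_mul (hA : A.PosDef) (s : ℝ) : pw A (-s) * pw A s = 1 := by
  rw [pw_mul_pw hA, neg_add_cancel, pw_zero]

lemma pw_neg_one (hA : A.PosDef) : pw A (-1) = A⁻¹ := by
  have := pw_neg_mul hA 1
  rw [pw_one hA.1] at this
  exact (Matrix.inv_eq_left_inv this).symm

lemma inv_eq_fr (hA : A.PosDef) : A⁻¹ = fr (fun x => x⁻¹) A := by
  rw [← pw_neg_one hA]; exact fc_congr fun i => by simp only [Real.rpow_neg_one]

lemma cpw_one (hA : A.PosDef) : cpw A 1 = A := by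
  rw [← Complex.ofReal_one, cpw_ofReal hA, pw_one hA.1]

lemma cpw_neg_one (hA : A.PosDef) : cpw A (-1) = A⁻¹ := by
  rw [← pw_neg_one hA, ← cpw_ofReal hA]; simp

lemma pw_isHermitian (A : Matrix n n ℂ) (s : ℝ) : (pw A s).IsHermitian := fr_isHermitian _ _

lemma pw_conjTranspose (A : Matrix n n ℂ) (s : ℝ) : (pw A s)ᴴ = pw A s := (pw_isHermitian A s).eq

lemma fr_posDef {g : ℝ → ℝ} (h : ∀ i, 0 < g (ev A i)) : (fr g A).PosDef := by
  have h1 : fr (fun x => (g x)⁻¹) A * fr g A = 1 := by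
    rw [fc_mul, ← fc_one A]
    exact fc_congr fun i => by
      rw [← Complex.ofReal_mul, inv_mul_cancel₀ (h i).ne', Complex.ofReal_one]
  exact (fr_posSemidef fun i => (h i).le).posDef_iff_isUnit.2
    (IsUnit.of_mul_eq_one_right _ h1)

lemma pw_posDef (hA : A.PosDef) (s : ℝ) : (pw A s).PosDef :=
  fr_posDef fun i => Real.rpow_pos_of_pos (ev_pos hA i) s

lemma cpw_pw (hA : A.PosDef) (s : ℝ) (z : ℂ) : cpw (pw A s) z = cpw A (z * s) := by
  rw [cpw, fc_fr]
  exact fc_congr fun i => by rw [Real.log_rpow (ev_pos hA i), Complex.ofReal_mul, mul_assoc]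

lemma pw_pw (hA : A.PosDef) (s t : ℝ) : pw (pw A s) t = pw A (t * s) := by
  rw [← cpw_ofReal (pw_posDef hA s), cpw_pw hA, ← Complex.ofReal_mul, cpw_ofReal hA]

lemma cpw_inv (hA : A.PosDef) (z : ℂ) : cpw A⁻¹ z = cpw A (-z) := by
  rw [← pw_neg_one hA, cpw_pw hA]; simp

lemma pw_inv (hA : A.PosDef) (s : ℝ) : pw A⁻¹ s = pw A (-s) := by
  rw [← pw_neg_one hA, pw_pw hA]; simp

lemma lg_pw (hA : A.PosDef) (s : ℝ) : lg (pw A s) = (s : ℂ) • lg A := by
  rw [lg, fr, fc_fr, fc_smul]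
  exact fc_congr fun i => by rw [Real.log_rpow (ev_pos hA i), Complex.ofReal_mul]

lemma lg_inv (hA : A.PosDef) : lg A⁻¹ = -lg A := by
  rw [← pw_neg_one hA, lg_pw hA]; simp

lemma fc_inv (hA : A.PosDef) (f : ℝ → ℂ) : fc f A⁻¹ = fc (fun x => f x⁻¹) A := by
  rw [inv_eq_fr hA, fc_fr]

lemma fc_add_smul_one (hA : A.IsHermitian) (f : ℝ → ℂ) (ε : ℝ) :
    fc f (A + ε • (1 : Matrix n n ℂ)) = fc (fun x => f (x + ε)) A := by
  have : A + ε • (1 : Matrix n n ℂ) = fr (fun x => x + ε) A := by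
    conv_lhs => rw [← fc_id hA, ← Complex.coe_smul, ← fc_const, fc_add]
    simp [fr]
  rw [this, fc_fr]

lemma cpw_unitary (A : Matrix n n ℂ) {z : ℂ} (hz : z.re = 0) : (cpw A z)ᴴ * cpw A z = 1 := by
  rw [cpw_conjTranspose, cpw_mul_cpw, add_comm, Complex.add_conj, hz]; simp

lemma cpw_unitary' (A : Matrix n n ℂ) {z : ℂ} (hz : z.re = 0) : cpw A z * (cpw A z)ᴴ = 1 := by
  rw [cpw_conjTranspose, cpw_mul_cpw, Complex.add_conj, hz]; simp

lemma norm_ap_cpw_im (A : Matrix n n ℂ) {z : ℂ} (hz : z.re = 0) (v : Vec n) :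
    ‖ap (cpw A z) v‖ = ‖v‖ := norm_ap_unitary (cpw_unitary A hz) v

lemma norm_cpw_im_le (A : Matrix n n ℂ) {z : ℂ} (hz : z.re = 0) : ‖cpw A z‖ ≤ 1 :=
  norm_of_unitary_le (cpw_unitary A hz)

lemma cpw_split (hA : A.PosDef) (z : ℂ) : cpw A z = cpw A (z.im * Complex.I) * pw A z.re := by
  rw [← cpw_ofReal hA, cpw_mul_cpw, add_comm, Complex.re_add_im]

lemma cpw_split' (hA : A.PosDef) (z : ℂ) : cpw A z = pw A z.re * cpw A (z.im * Complex.I) := by
  rw [← cpw_ofReal hA, cpw_mul_cpw, Complex.re_add_im]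

lemma norm_ap_cpw (hA : A.PosDef) (z : ℂ) (v : Vec n) :
    ‖ap (cpw A z) v‖ = ‖ap (pw A z.re) v‖ := by
  rw [cpw_split hA, ap_mul, norm_ap_cpw_im _ (by simp)]

lemma norm_ap_pw_sq (hA : A.PosDef) (s : ℝ) (v : Vec n) :
    ‖ap (pw A s) v‖ ^ 2 = qf v (pw A (2 * s)) := by
  rw [norm_ap_sq, pw_conjTranspose, pw_mul_pw hA, two_mul]

lemma norm_ap_cpw_sq (hA : A.PosDef) (z : ℂ) (v : Vec n) :
    ‖ap (cpw A z) v‖ ^ 2 = qf v (pw A (2 * z.re)) := by
  rw [norm_ap_cpw hA, norm_ap_pw_sq hA]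

lemma norm_ap_lg_sq (A : Matrix n n ℂ) (v : Vec n) :
    ‖ap (lg A) v‖ ^ 2 = qf v (fr (fun x => Real.log x ^ 2) A) := by
  rw [norm_ap_fc_sq, qf, re_inner_fr]
  simp

lemma norm_ap_cpw_sub_le (A : Matrix n n ℂ) {z : ℂ} (hz : z.re = 0) (v : Vec n) :
    ‖ap (cpw A z) v - v‖ ≤ ‖z‖ * ‖ap (lg A) v‖ := by
  have h1 : ap (cpw A z) v - v = ap (fc (fun x => Complex.exp (z * Real.log x) - 1) A) v := by
    rw [← fc_sub, fc_one, ap_sub, ap_one, cpw]
  rw [h1, ← sq_le_sq₀ (norm_nonneg _) (by positivity), mul_pow, norm_ap_fc_sq, norm_ap_fc_sq,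
    Finset.mul_sum]
  refine Finset.sum_le_sum fun i _ => ?_
  rw [← mul_assoc (‖z‖ ^ 2), ← mul_pow ‖z‖]
  refine mul_le_mul_of_nonneg_right (pow_le_pow_left₀ (norm_nonneg _) ?_ 2) (sq_nonneg _)
  have h2 : z * Real.log (ev A i) = Complex.I * ((z.im * Real.log (ev A i) : ℝ) : ℂ) := by
    apply Complex.ext <;> simp [hz]
  rw [h2]
  refine Real.norm_exp_I_mul_ofReal_sub_one_le.trans ?_
  rw [norm_mul, Complex.norm_real]
  gcongr
  exact Complex.abs_im_le_norm z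

/-! ### commutation -/

lemma commute_fc_fc {f g : ℝ → ℂ} (hA : A.IsHermitian) (hB : B.IsHermitian) (h : Commute A B) :
    Commute (fc f A) (fc g B) :=
  (fc_intertwine g hB hB (V := fc f A) (fc_intertwine f hA hA (V := B) h).symm).symm

lemma commute_fc_left (f : ℝ → ℂ) (hA : A.IsHermitian) {M : Matrix n n ℂ} (h : Commute A M) :
    Commute (fc f A) M := fc_intertwine f hA hA h

lemma commute_cpw_left (hA : A.IsHermitian) {M : Matrix n n ℂ} (h : Commute A M) (z : ℂ) :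
    Commute (cpw A z) M := commute_fc_left _ hA h

lemma commute_cpw_cpw (hA : A.IsHermitian) (hB : B.IsHermitian) (h : Commute A B) (z w : ℂ) :
    Commute (cpw A z) (cpw B w) := commute_fc_fc hA hB h

lemma fc_mul_of_eig (f : ℝ → ℂ) (hA : A.IsHermitian) {V : Matrix n n ℂ} {c : ℝ}
    (h : A * V = (c : ℂ) • V) : fc f A * V = f c • V := by
  have hD : (diagonal fun _ : n => (c : ℂ)).IsHermitian := by
    rw [isHermitian_diagonal_iff]; intro i; simp [IsSelfAdjoint]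
  have := fc_intertwine f hA hD (V := V)
    (by rw [h, ← smul_one_eq_diagonal, Matrix.mul_smul, Matrix.mul_one])
  rw [this, fc_diagonal f fun _ => c, ← smul_one_eq_diagonal, Matrix.mul_smul, Matrix.mul_one]

/-- joint eigenspaces of two commuting Hermitian matrices span -/
lemma ext_two (hA : A.IsHermitian) (hB : B.IsHermitian) (h : Commute A B) {M N : Matrix n n ℂ}
    (H : ∀ i j (V : Matrix n n ℂ), A * V = (ev A i : ℂ) • V → B * V = (ev B j : ℂ) • V →
      M * V = N * V) : M = N := by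
  classical
  let P : Matrix n n ℂ → ℝ → Matrix n n ℂ := fun C a => fc (fun x => if x = a then 1 else 0) C
  have hs : ∀ C : Matrix n n ℂ, ∑ a ∈ univ.image (ev C), P C a = 1 := fun C => by
    rw [fc_sum, ← fc_one C]
    exact fc_congr fun i => by simp
  have he : ∀ C : Matrix n n ℂ, C.IsHermitian → ∀ a, C * P C a = (a : ℂ) • P C a := fun C hC a => by
    conv_lhs => arg 1; rw [← fc_id hC]
    rw [fc_mul, fc_smul]
    exact fc_congr fun i => by split_ifs with h1 <;> simp [h1]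
  have h1 : ∑ a ∈ univ.image (ev A), ∑ b ∈ univ.image (ev B), P A a * P B b = 1 := by
    rw [← Finset.sum_mul_sum, hs, hs, Matrix.mul_one]
  rw [← Matrix.mul_one M, ← Matrix.mul_one N, ← h1, Matrix.mul_sum, Matrix.mul_sum]
  refine Finset.sum_congr rfl fun a ha => ?_
  rw [Matrix.mul_sum, Matrix.mul_sum]
  refine Finset.sum_congr rfl fun b hb => ?_
  obtain ⟨i, -, rfl⟩ := Finset.mem_image.1 ha
  obtain ⟨j, -, rfl⟩ := Finset.mem_image.1 hb
  refine H i j _ ?_ ?_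
  · rw [← Matrix.mul_assoc, he A hA, Matrix.smul_mul]
  · rw [← Matrix.mul_assoc, ← (commute_fc_left _ hA h).eq, Matrix.mul_assoc, he B hB,
      Matrix.mul_smul]

lemma isHermitian_mul (hA : A.IsHermitian) (hB : B.IsHermitian) (h : Commute A B) :
    (A * B).IsHermitian := by
  unfold Matrix.IsHermitian; rw [conjTranspose_mul, hA.eq, hB.eq, h.eq]

lemma posDef_mul (hA : A.PosDef) (hB : B.PosDef) (h : Commute A B) : (A * B).PosDef := by
  have h1 : A * B = (pw A (1 / 2))ᴴ * B * pw A (1 / 2) := by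
    rw [pw_conjTranspose, Matrix.mul_assoc, ← (commute_fc_left _ hA.1 h).eq, ← Matrix.mul_assoc,
      pw_mul_pw hA, add_halves, pw_one hA.1]
  rw [h1]
  exact hB.conjTranspose_mul_mul_same
    (Matrix.mulVec_injective_of_isUnit (pw_posDef hA _).isUnit)

lemma posSemidef_mul (hA : A.PosSemidef) (hB : B.PosSemidef) (h : Commute A B) :
    (A * B).PosSemidef := (Commute.mul_nonneg hA.nonneg hB.nonneg h).posSemidef

lemma fc_mul_comm (hA : A.IsHermitian) (hB : B.IsHermitian) (h : Commute A B) {f g k : ℝ → ℂ}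
    (H : ∀ i j, f (ev A i * ev B j) = g (ev A i) * k (ev B j)) :
    fc f (A * B) = fc g A * fc k B :=
  ext_two hA hB h fun i j V h1 h2 => by
    rw [fc_mul_of_eig f (isHermitian_mul hA hB h) (c := ev A i * ev B j)
      (by rw [Matrix.mul_assoc, h2, Matrix.mul_smul, h1, smul_smul, mul_comm]; norm_cast),
      Matrix.mul_assoc, fc_mul_of_eig k hB h2, Matrix.mul_smul, fc_mul_of_eig g hA h1, smul_smul,
      H, mul_comm]

lemma cpw_mul (hA : A.PosDef) (hB : B.PosDef) (h : Commute A B) (z : ℂ) :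
    cpw (A * B) z = cpw A z * cpw B z :=
  fc_mul_comm hA.1 hB.1 h fun i j => by
    rw [Real.log_mul (ev_pos hA i).ne' (ev_pos hB j).ne', Complex.ofReal_add, mul_add,
      Complex.exp_add]

lemma pw_mul (hA : A.PosDef) (hB : B.PosDef) (h : Commute A B) (s : ℝ) :
    pw (A * B) s = pw A s * pw B s := by
  rw [← cpw_ofReal (posDef_mul hA hB h), ← cpw_ofReal hA, ← cpw_ofReal hB, cpw_mul hA hB h]

lemma lg_mul (hA : A.PosDef) (hB : B.PosDef) (h : Commute A B) : lg (A * B) = lg A + lg B :=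
  ext_two hA.1 hB.1 h fun i j V h1 h2 => by
    rw [fc_mul_of_eig _ (isHermitian_mul hA.1 hB.1 h) (c := ev A i * ev B j)
      (by rw [Matrix.mul_assoc, h2, Matrix.mul_smul, h1, smul_smul, mul_comm]; norm_cast),
      Matrix.add_mul, fc_mul_of_eig _ hB.1 h2, fc_mul_of_eig _ hA.1 h1,
      Real.log_mul (ev_pos hA i).ne' (ev_pos hB j).ne', Complex.ofReal_add, add_smul]

lemma commute_inv (hB : B.PosDef) (h : Commute A B) : Commute A B⁻¹ := by
  rw [← pw_neg_one hB]; exact (commute_fc_left _ hB.1 h.symm).symm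

lemma posDef_mul_inv (hA : A.PosDef) (hB : B.PosDef) (h : Commute A B) : (A * B⁻¹).PosDef :=
  posDef_mul hA hB.inv (commute_inv hB h)

lemma cpw_mul_inv (hA : A.PosDef) (hB : B.PosDef) (h : Commute A B) (z : ℂ) :
    cpw (A * B⁻¹) z = cpw A z * cpw B (-z) := by
  rw [cpw_mul hA hB.inv (commute_inv hB h), cpw_inv hB]

lemma lg_mul_inv (hA : A.PosDef) (hB : B.PosDef) (h : Commute A B) :
    lg (A * B⁻¹) = lg A - lg B := by
  rw [lg_mul hA hB.inv (commute_inv hB h), lg_inv hB, sub_eq_add_neg]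

lemma inv_mul_inv (A : Matrix n n ℂ) (hB : B.PosDef) : (A * B⁻¹)⁻¹ = B * A⁻¹ := by
  rw [Matrix.mul_inv_rev, Matrix.nonsing_inv_nonsing_inv _ ((isUnit_iff_isUnit_det _).1 hB.isUnit)]

/-! ### order -/

lemma posDef_of_le (hA : A.PosDef) (h : A ≤ B) : B.PosDef := by
  have := hA.add_posSemidef (Matrix.le_iff.1 h)
  rwa [add_sub_cancel] at this

lemma lg_mono (hA : A.PosDef) (h : A ≤ B) : lg A ≤ lg B := by
  rw [lg, lg, fr_eq_cfc _ hA.1, fr_eq_cfc _ (posDef_of_le hA h).1]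
  exact CFC.log_le_log h hA.isStrictlyPositive

lemma pw_mono (hA : A.PosSemidef) (h : A ≤ B) {s : ℝ} (h0 : 0 ≤ s) (h1 : s ≤ 1) :
    pw A s ≤ pw B s := by
  have hB : B.PosSemidef := (hA.nonneg.trans h).posSemidef
  rw [pw, pw, fr_eq_cfc _ hA.1, fr_eq_cfc _ hB.1, ← CFC.rpow_eq_cfc_real hA.nonneg,
    ← CFC.rpow_eq_cfc_real hB.nonneg]
  exact CFC.rpow_le_rpow ⟨h0, h1⟩ h

lemma conj_mono (h : A ≤ B) (C : Matrix n n ℂ) : Cᴴ * A * C ≤ Cᴴ * B * C := by
  rw [Matrix.le_iff, ← Matrix.sub_mul, ← Matrix.mul_sub]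
  exact (Matrix.le_iff.1 h).conjTranspose_mul_mul_same C

lemma norm_le_one_of_le {C : Matrix n n ℂ} (h : Cᴴ * C ≤ 1) : ‖C‖ ≤ 1 := by
  rw [← norm_ap]
  refine ContinuousLinearMap.opNorm_le_bound _ zero_le_one fun v => ?_
  have h1 := re_inner_ap_mono h v
  rw [← norm_ap_sq, ap_one, inner_self_eq_norm_sq_to_K] at h1
  have h2 : ‖ap C v‖ ^ 2 ≤ ‖v‖ ^ 2 := by exact_mod_cast h1
  rw [one_mul]
  exact (sq_le_sq₀ (norm_nonneg _) (norm_nonneg _)).1 h2

lemma le_one_of_norm_le {C : Matrix n n ℂ} (h : ‖C‖ ≤ 1) : Cᴴ * C ≤ 1 := by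
  rw [Matrix.le_iff]
  refine posSemidef_of_re_inner (isHermitian_one.sub (isHermitian_conjTranspose_mul_self C))
    fun v => ?_
  rw [ap_sub, inner_sub_right, Complex.sub_re, ← norm_ap_sq, ap_one, inner_self_eq_norm_sq_to_K]
  have h1 : ‖ap C v‖ ≤ ‖v‖ := (norm_ap_le C v).trans (mul_le_of_le_one_left (norm_nonneg _) h)
  have h2 : ‖ap C v‖ ^ 2 ≤ ‖v‖ ^ 2 := by gcongr
  have h3 : (((‖v‖ : ℂ)) ^ 2).re = ‖v‖ ^ 2 := by norm_cast
  simp only [Complex.coe_algebraMap]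
  linarith

/-- `A ≤ B` makes `A^{1/2} B^{-1/2}` a contraction -/
lemma norm_half_le (hA : A.PosDef) (h : A ≤ B) : ‖pw A (1 / 2) * pw B (-(1 / 2))‖ ≤ 1 := by
  have hB := posDef_of_le hA h
  refine norm_le_one_of_le ?_
  have h1 := conj_mono h (pw B (-(1 / 2)))
  rw [conjTranspose_mul, pw_conjTranspose, pw_conjTranspose, Matrix.mul_assoc,
    ← Matrix.mul_assoc (pw A _), pw_mul_pw hA, add_halves, pw_one hA.1, ← Matrix.mul_assoc]
  rw [pw_conjTranspose] at h1
  refine h1.trans (le_of_eq ?_)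
  conv_lhs => arg 1; arg 2; rw [← pw_one hB.1]
  rw [pw_mul_pw hB, pw_mul_pw hB, ← pw_zero B]; norm_num

lemma norm_half_le' (hA : A.PosDef) (h : A ≤ B) : ‖pw B (-(1 / 2)) * pw A (1 / 2)‖ ≤ 1 := by
  have := norm_half_le hA h
  rwa [← l2_opNorm_conjTranspose, conjTranspose_mul, pw_conjTranspose, pw_conjTranspose] at this

lemma inv_anti (hA : A.PosDef) (h : A ≤ B) : B⁻¹ ≤ A⁻¹ := by
  have hB := posDef_of_le hA h
  have h1 := conj_mono (le_one_of_norm_le (norm_half_le' hA h)) (pw A (-(1 / 2)))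
  simp only [conjTranspose_mul, pw_conjTranspose, Matrix.mul_assoc, pw_mul_neg hA,
    Matrix.mul_one] at h1
  rw [← Matrix.mul_assoc, pw_neg_mul hA, Matrix.one_mul, pw_mul_pw hA, pw_mul_pw hB] at h1
  rw [← pw_neg_one hA, ← pw_neg_one hB]
  convert h1 using 2 <;> norm_num

/-- multiplying an inequality by a commuting positive matrix -/
lemma mul_le_mul_comm {C : Matrix n n ℂ} (h : A ≤ B) (hC : C.PosSemidef) (h1 : Commute A C)
    (h2 : Commute B C) : A * C ≤ B * C := by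
  rw [Matrix.le_iff, ← Matrix.sub_mul]
  exact posSemidef_mul (Matrix.le_iff.1 h) hC (h2.sub_left h1)

end alg

section supp

variable {ι : Type} [Fintype ι] [DecidableEq ι] {d : ι → Type} [∀ x, Fintype (d x)]
  [∀ x, DecidableEq (d x)] {X : Finset ι} {M : Q.Op d}

lemma supp_cpw (h : Supp X M) (hM : M.IsHermitian) (z : ℂ) : Supp X (cpw M z) := h.fc _ hM

lemma supp_pw (h : Supp X M) (hM : M.IsHermitian) (s : ℝ) : Supp X (pw M s) := h.fc _ hM

lemma supp_lg (h : Supp X M) (hM : M.IsHermitian) : Supp X (lg M) := h.fc _ hM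

lemma supp_inv (h : Supp X M) (hM : M.PosDef) : Supp X M⁻¹ := by
  rw [← pw_neg_one hM]; exact supp_pw h hM.1 _

end supp

end Crest.Agent.N336.Eng
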