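import Crest.Agent.N336.Q.Cond

/-!
# Row 336, CORE: interface of the operator engine and of the single-letter lemmas (helper88)

* `EngStmt` : weighted geometric means over random histories, energy lemma and gain pigeonhole
* `KStmt`   : the symbol of a crossing term is almost real (H50 item 5, lemma (K))
* `GStmt`   : the gain of a charge move (H50 item 6, single-letter lemma)
-/

set_option autoImplicit false
set_option linter.unusedSectionVars false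

open Matrix Finset
open scoped ComplexOrder MatrixOrder Matrix.Norms.L2Operator InnerProductSpace

namespace Crest.Agent.N336.Eng

open Crest.Agent.N336.Q

section basic

variable {n : Type} [Fintype n] [DecidableEq n]

/-- real power (of a positive definite matrix) -/
noncomputable abbrev pw (A : Matrix n n ℂ) (s : ℝ) : Matrix n n ℂ := fr (fun x => x ^ s) A

/-- logarithm (of a positive definite matrix) -/
noncomputable abbrev lg (A : Matrix n n ℂ) : Matrix n n ℂ := fr Real.log A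

/-- quadratic form -/
noncomputable abbrev qf (v : Vec n) (M : Matrix n n ℂ) : ℝ := (⟪v, ap M v⟫_ℂ).re

/-- one step average of a function of the configuration -/
noncomputable def avg {Cf X : Type} [Fintype X] (mv : Cf → X → Cf) (f : Cf → ℝ) (c : Cf) : ℝ :=
  (∑ x, f (mv c x)) / Fintype.card X

/-- expectation after `o + t` random moves, `o` uniform in `[0, T₀)` -/
noncomputable def ex {Cf X : Type} [Fintype X] (mv : Cf → X → Cf) (c₀ : Cf) (T₀ t : ℕ)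
    (f : Cf → ℝ) : ℝ :=
  (∑ o ∈ range T₀, (avg mv)^[o + t] f c₀) / T₀

end basic

open Classical in
/-- The operator engine. `A c` are the leaf metrics, `H = ∑ (g v)ᴴ g v`, `cr c v` says that the
term `v` crosses the configuration `c`, `B c v` is its defect. -/
def EngStmt : Prop :=
  ∃ C : ℝ, 0 < C ∧ ∀ (n : Type) [Fintype n] [DecidableEq n] (Cf X V : Type) [Fintype X]
    [Nonempty X] [Fintype V] (mv : Cf → X → Cf) (c₀ : Cf) (A : Cf → Matrix n n ℂ)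
    (g : V → Matrix n n ℂ) (At B : Cf → V → Matrix n n ℂ) (cr : Cf → V → Prop) (act : V → Prop)
    (ξ : Cf → ℝ) (p : V → ℝ) (Ω : Vec n) (Alo : Matrix n n ℂ) (E₀ β βc ξb pb τ Bud ζ : ℝ)
    (T₀ T : ℕ),
    (∀ c, (A c).PosDef) → (∀ c x, A (mv c x) ≤ A c) → Alo.PosDef →
    (∀ l : List X, l.length ≤ T₀ + T → Alo ≤ A (l.foldl mv c₀)) →
    ‖Ω‖ = 1 → ap (∑ v, (g v)ᴴ * g v) Ω = (E₀ : ℂ) • Ω →
    (∀ c v, ¬ cr c v → g v * A c = A c * g v) →
    (∀ c v, cr c v → (At c v).PosDef ∧ (B c v).PosSemidef ∧ B c v ≤ βc • (1 : Matrix n n ℂ) ∧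
      (g v * A c - At c v * g v)ᴴ * (At c v)⁻¹ * (g v * A c - At c v * g v) ≤
        pw (A c) (1 / 2) * B c v * pw (A c) (1 / 2)) →
    (∀ c (G : Matrix n n ℂ), G.PosDef → G ≤ A c →
      (∀ w : Vec n, w ≠ 0 →
        Real.log (qf w G) ≤ avg mv (fun c' => Real.log (qf w (A c'))) c) →
      ∑ v ∈ univ.filter (fun v => act v ∧ cr c v), B c v ≤
        ξ c • (1 : Matrix n n ℂ) - β • lg (pw (A c) (-1 / 2) * G * pw (A c) (-1 / 2))) →
    1 ≤ T₀ → 1 ≤ T → 0 < τ → τ ≤ 1 / 4 → 0 ≤ β → 0 ≤ βc → 0 ≤ ξb → 0 ≤ pb → 0 < ζ →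
    (∀ v t, t ≤ T → ex mv c₀ T₀ t (fun c => if cr c v then 1 else 0) ≤ p v) →
    (∀ v, act v → p v ≤ pb) → (∀ t, t < T → ex mv c₀ T₀ t ξ ≤ ξb) →
    Real.log (qf Ω (pw (A c₀) (1 / 2))) - Real.log (qf Ω (pw Alo (1 / 2))) ≤ Bud →
    ∃ M : Matrix n n ℂ, M.PosDef ∧ Alo ≤ M ∧ M ≤ A c₀ ∧
      ∑ v, ‖ap (g v) (ap (pw M (1 / 4)) Ω)‖ ^ 2 ≤
        (4 * E₀ + C * (pb * (ξb + β * Bud / (T * τ)) +
          βc * (τ * ∑ v, p v ^ 2 + ∑ v ∈ univ.filter (fun v => ¬ act v), p v ^ 2)) + ζ) *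
          ‖ap (pw M (1 / 4)) Ω‖ ^ 2

section letter

variable {ι : Type} [Fintype ι] [DecidableEq ι] {d : ι → Type} [∀ x, Fintype (d x)]
  [∀ x, DecidableEq (d x)]

/-- entropy of the marginal of a pure state -/
noncomputable def SV (χ : Vec (Cfg d)) (X : Finset ι) : ℝ :=
  ∑ i, Real.negMulLog (ev (red (sb X) (pj χ)) i)

/-- regularised marginal `ρ_X + ε` -/
noncomputable def rq (χ : Vec (Cfg d)) (X : Finset ι) (ε : ℝ) : Q.Op d :=
  mg X (pj χ) + ε • (1 : Q.Op d)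

/-- activity `H(y|P) + H(y|Y) = I(y : F | P)` -/
noncomputable def eta (χ : Vec (Cfg d)) (P y Y : Finset ι) : ℝ :=
  SV χ (P ∪ y) - SV χ P + SV χ (Y ∪ y) - SV χ Y

/-- symbol of a term conjugated by the leaf metric -/
noncomputable def sym (χ : Vec (Cfg d)) (P Y : Finset ι) (s ε ε' : ℝ) (h : Q.Op d) : ℂ :=
  ⟪χ, ap (pw (rq χ Y ε') s * pw (rq χ P ε) (-s) * h * pw (rq χ P ε) s * pw (rq χ Y ε') (-s)) χ⟫_ℂ

end letter

/-- lemma (K): the term `h` lives on `B ⊆ P ∪ y`; the buffer before the move is `Y ∪ y` -/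
def KStmt : Prop :=
  ∃ (a : ℕ) (C : ℝ), 1 ≤ a ∧ 0 < C ∧ ∀ (ι : Type) [Fintype ι] [DecidableEq ι] (d : ι → Type)
    [∀ x, Fintype (d x)] [∀ x, DecidableEq (d x)] [∀ x, Nonempty (d x)] (P y Y B : Finset ι)
    (h : Q.Op d) (χ : Vec (Cfg d)) (J l s ε ε' : ℝ),
    Disjoint P y → Disjoint P Y → Disjoint y Y → y ⊆ B → B ⊆ P ∪ y → Supp B h → h.PosSemidef →
    ‖h‖ ≤ J → 1 ≤ l → Real.log (dim d B) ≤ l → 0 < s → C * l ^ a * s ≤ 1 → ‖χ‖ = 1 →
    0 < ε' → ε' * dim d univ ≤ ε → ε * dim d univ ≤ 1 →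
    ‖sym χ P (Y ∪ y) s ε ε' h - (qf χ h : ℂ)‖ ^ 2 ≤
      (C * J * s ^ 2 * l ^ a * (eta χ P y Y + 2 * ε * dim d univ) ^ ((1 : ℝ) / a)) *
        (qf χ h + C * J * s ^ 2 * l ^ a * (eta χ P y Y + 2 * ε * dim d univ) ^ ((1 : ℝ) / a))

/-- the single-letter gain lemma -/
def GStmt : Prop :=
  ∃ (a : ℕ) (C : ℝ), 1 ≤ a ∧ 0 < C ∧ ∀ (ι : Type) [Fintype ι] [DecidableEq ι] (d : ι → Type)
    [∀ x, Fintype (d x)] [∀ x, DecidableEq (d x)] [∀ x, Nonempty (d x)] (P y Y : Finset ι)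
    (ω ω' : Q.Op d) (χ : Vec (Cfg d)) (l s ε : ℝ),
    Disjoint P y → Disjoint P Y → Disjoint y Y → ω.PosDef → ω'.PosDef → ω.trace = 1 →
    ω'.trace = 1 → 1 ≤ l → Real.log (dim d y) ≤ l → 0 < s → C * l ^ a * s ≤ 1 → ‖χ‖ = 1 →
    0 < ε → ε * dim d univ ≤ 1 →
    ‖ap (pw (mg (P ∪ y) ω) s * pw (rq χ P ε) (-s) * pw (mg (Y ∪ y) ω') s * pw (rq χ Y ε) (-s))
        χ‖ ^ 2 ≤
      Real.exp (-(2 * s * eta χ P y Y) + C * s ^ (1 + (1 : ℝ) / a) * l ^ a)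

end Crest.Agent.N336.Eng
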