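import Crest.Agent.N336.Eng.Kern

/-!
# Row 336, engine: domination of off-diagonal blocks and Schur multipliers (helper88)
-/

set_option autoImplicit false
set_option linter.unusedSectionVars false

open Matrix Finset MeasureTheory
open scoped ComplexOrder MatrixOrder Matrix.Norms.L2Operator InnerProductSpace

namespace Crest.Agent.N336.Eng.En

open Crest.Agent.N336.Q

variable {n : Type} [Fintype n] [DecidableEq n]

/-- order of quadratic forms -/
def QL (A B : Matrix n n ℂ) : Prop := ∀ v : Vec n, qf v A ≤ qf v B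

/-- the block matrix `[[P, -Y], [-Y*, E]]` is positive -/
def Dom (Y P E : Matrix n n ℂ) : Prop :=
  ∀ u v : Vec n, 2 * (⟪u, ap Y v⟫_ℂ).re ≤ qf u P + qf v E

lemma re_inner_comm (u v : Vec n) : (⟪u, v⟫_ℂ).re = (⟪v, u⟫_ℂ).re := by
  rw [← inner_conj_symm u v, Complex.conj_re]

lemma ap_rsmul (c : ℝ) (M : Matrix n n ℂ) (v : Vec n) : ap (c • M) v = (c : ℂ) • ap M v := by
  rw [← ap_smul]; congr 2

lemma qf_add (v : Vec n) (A B : Matrix n n ℂ) : qf v (A + B) = qf v A + qf v B := by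
  simp only [qf, ap_add, inner_add_right, Complex.add_re]

lemma qf_sub (v : Vec n) (A B : Matrix n n ℂ) : qf v (A - B) = qf v A - qf v B := by
  simp only [qf, ap_sub, inner_sub_right, Complex.sub_re]

lemma qf_neg (v : Vec n) (A : Matrix n n ℂ) : qf v (-A) = - qf v A := by
  simp only [qf, ap_neg, inner_neg_right, Complex.neg_re]

lemma qf_smul (v : Vec n) (c : ℝ) (A : Matrix n n ℂ) : qf v (c • A) = c * qf v A := by
  simp only [qf, ap_rsmul, inner_smul_right, Complex.re_ofReal_mul]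

@[simp] lemma qf_zero (v : Vec n) : qf v (0 : Matrix n n ℂ) = 0 := by simp [qf]

lemma qf_one (v : Vec n) : qf v (1 : Matrix n n ℂ) = ‖v‖ ^ 2 := by
  simp only [qf, map_one, one_apply_eq_self]
  exact inner_self_eq_norm_sq (𝕜 := ℂ) v

lemma qf_sum {κ : Type*} (v : Vec n) (s : Finset κ) (A : κ → Matrix n n ℂ) :
    qf v (∑ k ∈ s, A k) = ∑ k ∈ s, qf v (A k) := by
  simp only [qf, ap_sum, inner_sum, Complex.re_sum]

lemma inner_conj (S Y T : Matrix n n ℂ) (u v : Vec n) :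
    ⟪u, ap (S * Y * Tᴴ) v⟫_ℂ = ⟪ap Sᴴ u, ap Y (ap Tᴴ v)⟫_ℂ := by
  rw [ap_mul, ap_mul, inner_ap_right]

lemma qf_conj (S Y : Matrix n n ℂ) (v : Vec n) : qf v (S * Y * Sᴴ) = qf (ap Sᴴ v) Y := by
  simp only [qf, inner_conj]

lemma qf_nonneg {M : Matrix n n ℂ} (h : M.PosSemidef) (v : Vec n) : 0 ≤ qf v M :=
  re_inner_ap_nonneg h v

lemma qf_pos {M : Matrix n n ℂ} (h : M.PosDef) {v : Vec n} (hv : v ≠ 0) : 0 < qf v M := by
  have h1 := h.dotProduct_mulVec_pos (x := v.ofLp) (by simpa using hv)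
  rw [qf, inner_eq, ofLp_ap]
  exact (Complex.lt_def.1 h1).1

lemma QL.of_le {A B : Matrix n n ℂ} (h : A ≤ B) : QL A B := fun v => re_inner_ap_mono h v

lemma QL.le {A B : Matrix n n ℂ} (h : QL A B) (hA : A.IsHermitian) (hB : B.IsHermitian) :
    A ≤ B := by
  rw [Matrix.le_iff]
  refine posSemidef_of_re_inner (hB.sub hA) fun v => ?_
  have := qf_sub v B A
  have := h v
  simp only [qf] at *
  linarith

lemma QL.refl (A : Matrix n n ℂ) : QL A A := fun _ => le_rfl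

lemma QL.trans {A B C : Matrix n n ℂ} (h : QL A B) (h' : QL B C) : QL A C :=
  fun v => (h v).trans (h' v)

lemma QL.add {A B C D : Matrix n n ℂ} (h : QL A B) (h' : QL C D) : QL (A + C) (B + D) :=
  fun v => by rw [qf_add, qf_add]; exact add_le_add (h v) (h' v)

lemma QL.smul {A B : Matrix n n ℂ} (h : QL A B) {c : ℝ} (hc : 0 ≤ c) : QL (c • A) (c • B) :=
  fun v => by rw [qf_smul, qf_smul]; exact mul_le_mul_of_nonneg_left (h v) hc

lemma QL.sum {κ : Type*} {s : Finset κ} {A B : κ → Matrix n n ℂ} (h : ∀ k ∈ s, QL (A k) (B k)) :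
    QL (∑ k ∈ s, A k) (∑ k ∈ s, B k) :=
  fun v => by rw [qf_sum, qf_sum]; exact Finset.sum_le_sum fun k hk => h k hk v

lemma QL.conj {A B : Matrix n n ℂ} (h : QL A B) (S : Matrix n n ℂ) :
    QL (S * A * Sᴴ) (S * B * Sᴴ) := fun v => by rw [qf_conj, qf_conj]; exact h _

lemma QL.sub_iff {A B : Matrix n n ℂ} : QL 0 (B - A) ↔ QL A B := by
  unfold QL; simp only [qf_sub, qf_zero, sub_nonneg]

lemma QL.smul_smul {A : Matrix n n ℂ} (h : QL 0 A) {a b : ℝ} (hab : a ≤ b) :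
    QL (a • A) (b • A) := fun v => by
  have := h v
  rw [qf_zero] at this
  rw [qf_smul, qf_smul]; exact mul_le_mul_of_nonneg_right hab this

lemma Dom.zero : Dom (0 : Matrix n n ℂ) 0 0 := fun u v => by simp

lemma Dom.add {Y P E Y' P' E' : Matrix n n ℂ} (h : Dom Y P E) (h' : Dom Y' P' E') :
    Dom (Y + Y') (P + P') (E + E') := fun u v => by
  have := h u v; have := h' u v
  rw [ap_add, inner_add_right, Complex.add_re, qf_add, qf_add]; linarith

lemma Dom.mono {Y P E P' E' : Matrix n n ℂ} (h : Dom Y P E) (h1 : QL P P') (h2 : QL E E') :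
    Dom Y P' E' := fun u v => (h u v).trans (add_le_add (h1 u) (h2 v))

lemma Dom.conj {Y P E : Matrix n n ℂ} (h : Dom Y P E) (S T : Matrix n n ℂ) :
    Dom (S * Y * Tᴴ) (S * P * Sᴴ) (T * E * Tᴴ) := fun u v => by
  rw [inner_conj, qf_conj, qf_conj]; exact h _ _

lemma dom_zero_iff {E : Matrix n n ℂ} : Dom 0 0 E ↔ QL 0 E :=
  ⟨fun h v => by simpa using h 0 v, fun h u v => by simpa using h v⟩

lemma Dom.right {Y P E : Matrix n n ℂ} (h : Dom Y P E) : QL 0 E := fun v => by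
  simpa [qf] using h 0 v

lemma dom_of_le {Y P E : Matrix n n ℂ} (hP : P.PosDef) (h : QL (Yᴴ * P⁻¹ * Y) E) : Dom Y P E := by
  intro u v
  have hu : IsUnit P.det := (Matrix.isUnit_iff_isUnit_det P).1 hP.isUnit
  set w := ap P⁻¹ (ap Y v) with hw
  have h1 : ap P w = ap Y v := by rw [hw, ← ap_mul, Matrix.mul_nonsing_inv _ hu]; simp
  have h2 := qf_nonneg hP.posSemidef (u - w)
  have h3 : qf v (Yᴴ * P⁻¹ * Y) = (⟪ap Y v, w⟫_ℂ).re := by
    rw [qf, ap_mul, ap_mul, inner_ap_right, conjTranspose_conjTranspose]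
  have h4 : ⟪w, ap P u⟫_ℂ = ⟪ap Y v, u⟫_ℂ := by rw [inner_ap_right, hP.1.eq, h1]
  have h5 : (⟪ap Y v, u⟫_ℂ).re = (⟪u, ap Y v⟫_ℂ).re := re_inner_comm _ _
  have h6 : (⟪w, ap Y v⟫_ℂ).re = (⟪ap Y v, w⟫_ℂ).re := re_inner_comm _ _
  have h7 := h v
  simp only [qf, map_sub, inner_sub_left, inner_sub_right, Complex.sub_re, h1, h4] at h2 h3 h7 ⊢
  linarith

lemma Dom.norm_sq_le {Y E : Matrix n n ℂ} {a : ℝ} (h : Dom Y (a • 1) E) (ha : 0 ≤ a)
    (v : Vec n) : ‖ap Y v‖ ^ 2 ≤ a * qf v E := by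
  have key : ∀ t : ℝ, 2 * t * ‖ap Y v‖ ^ 2 ≤ a * t ^ 2 * ‖ap Y v‖ ^ 2 + qf v E := by
    intro t
    have := h ((t : ℂ) • ap Y v) v
    rw [qf_smul, qf_one, inner_smul_left, Complex.conj_ofReal, Complex.re_ofReal_mul, norm_smul,
      Complex.norm_real, Real.norm_eq_abs, mul_pow, sq_abs] at this
    have e : (⟪ap Y v, ap Y v⟫_ℂ).re = ‖ap Y v‖ ^ 2 := inner_self_eq_norm_sq (𝕜 := ℂ) _
    rw [e] at this; linarith
  have h0 : 0 ≤ qf v E := by simpa using key 0
  rcases ha.eq_or_lt with rfl | ha'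
  · by_contra hc
    have hp : 0 < ‖ap Y v‖ ^ 2 := by linarith [not_le.1 hc]
    have := key ((qf v E + 1) / ‖ap Y v‖ ^ 2)
    rw [mul_assoc, div_mul_cancel₀ _ hp.ne'] at this
    linarith
  · have := mul_le_mul_of_nonneg_left (key a⁻¹) ha
    have e1 : a * (2 * a⁻¹ * ‖ap Y v‖ ^ 2) = 2 * ‖ap Y v‖ ^ 2 := by field_simp
    have e2 : a * (a * a⁻¹ ^ 2 * ‖ap Y v‖ ^ 2 + qf v E) = ‖ap Y v‖ ^ 2 + a * qf v E := by
      field_simp
    linarith

/-! ### Schur multipliers -/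

/-- Schur multiplier -/
noncomputable def sch (K : n → n → ℝ) : Matrix n n ℂ →ₗ[ℝ] Matrix n n ℂ where
  toFun Y := Matrix.of fun i j => (K i j : ℂ) * Y i j
  map_add' Y Z := by ext i j; simp [mul_add]
  map_smul' c Y := by ext i j; simp [mul_left_comm]

lemma sch_apply (K : n → n → ℝ) (Y : Matrix n n ℂ) (i j : n) :
    sch K Y i j = (K i j : ℂ) * Y i j := rfl

lemma sch_diagonal (K : n → n → ℝ) (y : n → ℝ) :
    sch K (diagonal fun i => (y i : ℂ)) = diagonal fun i => ((K i i * y i : ℝ) : ℂ) := by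
  ext i j
  by_cases h : i = j
  · subst h; simp [sch_apply]
  · simp [sch_apply, h]

/-- diagonal action on a vector -/
noncomputable def dv (a : n → ℝ) (u : Vec n) : Vec n := WithLp.toLp 2 fun i => (a i : ℂ) * u i

lemma re_inner_sch (K : n → n → ℝ) (Y : Matrix n n ℂ) (u v : Vec n) :
    (⟪u, ap (sch K Y) v⟫_ℂ).re = ∑ i, ∑ j, K i j * (star (u i) * (Y i j * v j)).re := by
  simp only [inner_eq_sum, ap_apply, sch_apply, Finset.mul_sum, Complex.re_sum,
    ← Complex.re_ofReal_mul]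
  refine Finset.sum_congr rfl fun i _ => Finset.sum_congr rfl fun j _ => ?_
  congr 1; ring

lemma re_inner_dv (a b : n → ℝ) (Y : Matrix n n ℂ) (u v : Vec n) :
    (⟪dv a u, ap Y (dv b v)⟫_ℂ).re = ∑ i, ∑ j, a i * b j * (star (u i) * (Y i j * v j)).re := by
  simp only [inner_eq_sum, ap_apply, dv, Finset.mul_sum, Complex.re_sum,
    ← Complex.re_ofReal_mul]
  refine Finset.sum_congr rfl fun i _ => Finset.sum_congr rfl fun j _ => ?_
  congr 1
  simp only [star_mul', Complex.star_def, Complex.conj_ofReal]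
  push_cast; ring

lemma sch_int {w : ℝ → ℝ} {a b : n → ℝ → ℝ}
    (hi : ∀ i j, IntegrableOn (fun t => w t * (a i t * b j t)) (Set.Ioi 0))
    (Y : Matrix n n ℂ) (u v : Vec n) :
    IntegrableOn (fun t => w t * (⟪dv (a · t) u, ap Y (dv (b · t) v)⟫_ℂ).re) (Set.Ioi 0) ∧
    (⟪u, ap (sch (fun i j => ∫ t in Set.Ioi 0, w t * (a i t * b j t)) Y) v⟫_ℂ).re =
      ∫ t in Set.Ioi 0, w t * (⟪dv (a · t) u, ap Y (dv (b · t) v)⟫_ℂ).re := by
  have e : (fun t => w t * (⟪dv (a · t) u, ap Y (dv (b · t) v)⟫_ℂ).re) =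
      fun t => ∑ i, ∑ j, w t * (a i t * b j t) * (star (u i) * (Y i j * v j)).re := by
    funext t
    simp only [re_inner_dv, Finset.mul_sum, mul_assoc]
  rw [e]
  refine ⟨integrable_finsetSum _ fun i _ => integrable_finsetSum _ fun j _ =>
    (hi i j).mul_const _, ?_⟩
  rw [re_inner_sch, integral_finsetSum _ fun i _ => integrable_finsetSum _ fun j _ =>
    (hi i j).mul_const _]
  refine Finset.sum_congr rfl fun i _ => ?_
  rw [integral_finsetSum _ fun j _ => (hi i j).mul_const _]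
  simp only [integral_mul_const]

lemma Dom.sch {w : ℝ → ℝ} {a b : n → ℝ → ℝ} (hw : ∀ t, 0 < t → 0 ≤ w t)
    (hab : ∀ i j, IntegrableOn (fun t => w t * (a i t * b j t)) (Set.Ioi 0))
    (haa : ∀ i j, IntegrableOn (fun t => w t * (a i t * a j t)) (Set.Ioi 0))
    (hbb : ∀ i j, IntegrableOn (fun t => w t * (b i t * b j t)) (Set.Ioi 0))
    {Y P E : Matrix n n ℂ} (h : Dom Y P E) :
    Dom (sch (fun i j => ∫ t in Set.Ioi 0, w t * (a i t * b j t)) Y)
      (sch (fun i j => ∫ t in Set.Ioi 0, w t * (a i t * a j t)) P)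
      (sch (fun i j => ∫ t in Set.Ioi 0, w t * (b i t * b j t)) E) := by
  intro u v
  obtain ⟨i1, e1⟩ := sch_int hab Y u v
  obtain ⟨i2, e2⟩ := sch_int haa P u u
  obtain ⟨i3, e3⟩ := sch_int hbb E v v
  simp only [qf]
  rw [e1, e2, e3, ← integral_const_mul, ← integral_add i2 i3]
  refine setIntegral_mono_on (i1.const_mul 2) (i2.add i3) measurableSet_Ioi fun t ht => ?_
  have := mul_le_mul_of_nonneg_left (h (dv (a · t) u) (dv (b · t) v)) (hw t ht)
  simp only [qf] at this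
  linarith

end Crest.Agent.N336.Eng.En
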