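import Crest.Agent.N336.Eng.Strip
import Crest.Agent.N336.Q.Ent

/-!
# Row 336, CORE, gain lemma, part 1: pure states and the Rényi estimate (helper96)

* `flip` : functions of complementary marginals act in the same way on the state
* `half` : the bound on the line `Re z = 1/2`
* `rl` : `‖σ^z r^{-z} ξ‖ ≤ exp (-Re z · H(y|P) + C (Re z)² l²)`
-/

set_option autoImplicit false
set_option linter.unusedSectionVars false

open Matrix Finset
open scoped ComplexOrder MatrixOrder Matrix.Norms.L2Operator InnerProductSpace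

namespace Crest.Agent.N336.Eng.G

open Crest.Agent.N336.Q

variable {ι κ : Type} [Fintype ι] [DecidableEq ι] [Fintype κ] [DecidableEq κ] {d : ι → Type}
  [∀ x, Fintype (d x)] [∀ x, DecidableEq (d x)] [∀ x, Nonempty (d x)]

lemma vm_ap_emb (e : κ ↪ ι) (m : Q.Op (sub e d)) (ψ : Vec (Cfg d)) :
    vm e (ap (emb e m) ψ) = m * vm e ψ := by
  ext a c
  simp only [vm, of_apply, ap_apply, mul_apply]
  rw [← Equiv.sum_comp (eqv e d).symm, Fintype.sum_prod_type]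
  simp [emb_def, one_apply]

lemma vm_ap_cs (e : κ ↪ ι) (m : Matrix (Rest (rg e) d) (Rest (rg e) d) ℂ) (ψ : Vec (Cfg d)) :
    vm e (ap (emb (cs e) m) ψ) = vm e ψ * mᵀ := by
  have h := emb_cs e m
  ext a c
  simp only [vm, of_apply, ap_apply, mul_apply]
  rw [← Equiv.sum_comp (eqv e d).symm, Fintype.sum_prod_type, Finset.sum_comm, h]
  simp [one_apply, mul_comm]

lemma vm_inj (e : κ ↪ ι) {ψ φ : Vec (Cfg d)} (h : vm e ψ = vm e φ) : ψ = φ := by
  ext σ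
  have := congrFun (congrFun h (eqv e d σ).1) (eqv e d σ).2
  simpa only [vm, of_apply, Prod.mk.eta, Equiv.symm_apply_apply] using this

lemma ap_mg_compl (X : Finset ι) (χ : Vec (Cfg d)) :
    ap (mg X (pj χ)) χ = ap (mg Xᶜ (pj χ)) χ := by
  have h1 := emb_red_eq_mg (cs (sb X)) (pj χ)
  have h0 : rg (cs (sb X)) = Xᶜ := by rw [rg_cs, rg_sb]
  rw [h0] at h1
  refine vm_inj (sb X) ?_
  rw [← h1, mg, vm_ap_emb, red_kb]
  refine Eq.trans ?_ (vm_ap_cs (sb X) (red (cs (sb X)) (pj χ)) χ).symm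
  have h2 := red_cs_kb (sb X) χ χ
  refine Eq.trans ?_ (congrArg (fun M => vm (sb X) χ * Mᵀ) h2.symm)
  rw [transpose_transpose, Matrix.mul_assoc]

theorem flip (f : ℝ → ℂ) (X : Finset ι) (χ : Vec (Cfg d)) :
    ap (fc f (mg X (pj χ))) χ = ap (fc f (mg Xᶜ (pj χ))) χ := by
  obtain ⟨p, h1, h2⟩ := exists_poly₂ f (mg_isHermitian X (pj_isHermitian χ))
    (mg_isHermitian Xᶜ (pj_isHermitian χ))
  rw [h1, h2]
  clear h1 h2
  have hc : Commute (mg X (pj χ)) (mg Xᶜ (pj χ)) :=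
    (supp_mg _ _).commute (supp_mg _ _) disjoint_compl_right
  have hk : ∀ k : ℕ, ap (mg X (pj χ) ^ k) χ = ap (mg Xᶜ (pj χ) ^ k) χ := by
    intro k
    induction k with
    | zero => simp
    | succ k ih =>
      rw [pow_succ, ap_mul, ap_mg_compl, ← ap_mul, (hc.pow_left k).eq, ap_mul, ih, ← ap_mul,
        ← pow_succ']
  induction p using Polynomial.induction_on' with
  | add p q hp hq => simp only [map_add, _root_.add_apply, hp, hq]
  | monomial k a =>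
    simp only [Polynomial.aeval_monomial, Algebra.algebraMap_eq_smul_one, smul_mul_assoc, one_mul,
      ap_smul, hk]

lemma fc_rq (f : ℝ → ℂ) (χ : Vec (Cfg d)) (X : Finset ι) (ε : ℝ) :
    fc f (rq χ X ε) = fc (fun x => f (x + ε)) (mg X (pj χ)) :=
  fc_add_smul_one (mg_isHermitian X (pj_isHermitian χ)) f ε

lemma flip_cpw (χ : Vec (Cfg d)) (X : Finset ι) (ε : ℝ) (z : ℂ) :
    ap (cpw (rq χ X ε) z) χ = ap (cpw (rq χ Xᶜ ε) z) χ := by
  rw [cpw, cpw, fc_rq, fc_rq, flip]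

lemma smul_one_posDef {n : Type} [Fintype n] [DecidableEq n] {ε : ℝ} (h : 0 < ε) :
    (ε • (1 : Matrix n n ℂ)).PosDef := PosDef.one.smul h

lemma rq_posDef (χ : Vec (Cfg d)) (X : Finset ι) {ε : ℝ} (h : 0 < ε) : (rq χ X ε).PosDef :=
  PosDef.posSemidef_add (mg_posSemidef X (pj_posSemidef χ)) (smul_one_posDef h)

lemma mg_le_rq (χ : Vec (Cfg d)) (X : Finset ι) {ε : ℝ} (h : 0 < ε) :
    mg X (pj χ) ≤ rq χ X ε := by
  rw [Matrix.le_iff, rq, add_sub_cancel_left]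
  exact (smul_one_posDef h).posSemidef

lemma supp_rq (χ : Vec (Cfg d)) (X : Finset ι) (ε : ℝ) : Supp X (rq χ X ε) := by
  rw [rq, ← Complex.coe_smul]
  exact (supp_mg _ _).add ((Supp.one X).smul _)

lemma trace_rq {χ : Vec (Cfg d)} (h : ‖χ‖ = 1) (X : Finset ι) (ε : ℝ) :
    (trace (rq χ X ε)).re = dim d Xᶜ + ε * dim d univ := by
  rw [rq, trace_add, trace_mg, trace_pj, h, trace_smul, trace_one, card_cfg]
  simp

lemma mg_posDef (X : Finset ι) {ω : Q.Op d} (h : ω.PosDef) : (mg X ω).PosDef := by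
  obtain ⟨i, hi⟩ := Finite.exists_min (ev ω)
  have h1 : ((ev ω i : ℝ) : ℂ) • (1 : Q.Op d) ≤ ω := by
    conv_rhs => rw [← fr_id h.1]
    rw [← fc_const]
    exact fr_le_fr (g := fun _ => ev ω i) hi
  have h2 := mg_mono X h1
  rw [mg_smul, (Supp.one X).mg_eq, smul_smul, ← Complex.ofReal_natCast, ← Complex.ofReal_mul,
    Complex.coe_smul] at h2
  exact posDef_of_le (smul_one_posDef (mul_pos (ev_pos h i) (dim_pos_real _))) h2

lemma qf_lg_rq (χ : Vec (Cfg d)) (X : Finset ι) (ε : ℝ) : qf χ (lg (rq χ X ε)) =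
    ∑ i, ev (red (sb X) (pj χ)) i * Real.log (ev (red (sb X) (pj χ)) i + ε) := by
  have hρ := red_isHermitian (sb X) (pj_isHermitian χ)
  rw [qf, ← trace_mul_kb, lg, fr, fc_rq, mg, ← emb_fc _ _ hρ, trace_emb_mul]
  conv_lhs => arg 1; arg 1; arg 2; rw [← fc_id hρ]
  rw [fc_mul, trace_fc, Complex.re_sum]
  refine Finset.sum_congr rfl fun i _ => ?_
  rw [← Complex.ofReal_mul, Complex.ofReal_re, mul_comm]

lemma neg_SV_le (χ : Vec (Cfg d)) (X : Finset ι) {ε : ℝ} (h : 0 < ε) :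
    -SV χ X ≤ qf χ (lg (rq χ X ε)) := by
  rw [qf_lg_rq, SV, ← Finset.sum_neg_distrib]
  refine Finset.sum_le_sum fun i _ => ?_
  have h0 := ev_nonneg (red_posSemidef (sb X) (pj_posSemidef χ)) i
  rw [Real.negMulLog, neg_mul, neg_neg]
  rcases h0.eq_or_lt with h1 | h1
  · rw [← h1]; simp
  · exact mul_le_mul_of_nonneg_left (Real.log_le_log h1 (by linarith)) h0

lemma qf_lg_le (χ : Vec (Cfg d)) (X : Finset ι) {ε : ℝ} (h : 0 < ε) :
    qf χ (lg (rq χ X ε)) ≤ -SV χ X + ε * dim d X := by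
  rw [qf_lg_rq, SV, ← Finset.sum_neg_distrib, ← card_sub_sb, ← card_univ, mul_comm ε,
    ← nsmul_eq_mul, ← Finset.sum_const, ← Finset.sum_add_distrib]
  refine Finset.sum_le_sum fun i _ => ?_
  have h0 := ev_nonneg (red_posSemidef (sb X) (pj_posSemidef χ)) i
  set x := ev (red (sb X) (pj χ)) i
  rw [Real.negMulLog, neg_mul, neg_neg]
  rcases h0.eq_or_lt with h1 | h1
  · rw [← h1]; simp [h.le]
  · have h2 := Real.log_le_sub_one_of_pos (div_pos (by linarith : 0 < x + ε) h1)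
    rw [Real.log_div (by linarith) h1.ne'] at h2
    have h3 : x * ((x + ε) / x - 1) = ε := by field_simp; ring
    nlinarith

/-- the bound on the line `Re z = 1/2` -/
theorem half {X : Finset ι} {A U : Q.Op d} (hA : A.PosSemidef) (sA : Supp Xᶜ A) (sU : Supp Xᶜ U)
    (hU : U * Uᴴ = 1) (ξ : Vec (Cfg d)) {ε : ℝ} (hε : 0 < ε) {z : ℂ} (hz : z.re = -(1 / 2)) :
    dim d X * qf (ap U (ap (cpw (rq ξ X ε) z) ξ)) A ≤ (trace A).re := by
  have hr := rq_posDef ξ Xᶜ hε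
  have sW : Supp Xᶜ (U * cpw (rq ξ Xᶜ ε) z) := sU.mul (supp_cpw (supp_rq _ _ _) hr.1 _)
  have h1 : U * cpw (rq ξ Xᶜ ε) z * mg Xᶜ (pj ξ) * (U * cpw (rq ξ Xᶜ ε) z)ᴴ ≤ 1 := by
    have h2 := conj_mono (mg_le_rq ξ Xᶜ hε) (U * cpw (rq ξ Xᶜ ε) z)ᴴ
    rw [conjTranspose_conjTranspose] at h2
    refine h2.trans (le_of_eq ?_)
    conv_lhs => arg 1; arg 2; rw [← cpw_one hr]
    rw [conjTranspose_mul, cpw_conjTranspose, Matrix.mul_assoc U, cpw_mul_cpw, Matrix.mul_assoc,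
      ← Matrix.mul_assoc (cpw _ _), cpw_mul_cpw, add_right_comm, Complex.add_conj, hz]
    norm_num [hU]
  have h3 := re_trace_mul_mono h1 hA
  rw [← sW.mg_mul, ← sW.conjTranspose.mg_mul', ← pj_ap, trace_mul_comm, sA.trace_mul_mg,
    compl_compl, Matrix.one_mul, trace_mul_kb, ap_mul, ← flip_cpw, ← Complex.ofReal_natCast,
    Complex.re_ofReal_mul] at h3
  exact h3

lemma qf_mul_inv {n : Type} [Fintype n] [DecidableEq n] {A B : Matrix n n ℂ} (hB : B.PosDef)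
    (h : Commute A B) (v : Vec n) : qf v (A * B⁻¹) = qf (ap (cpw B (-(1 / 2))) v) A := by
  rw [qf, qf, inner_ap_left, ← ap_mul, ← ap_mul, cpw_conjTranspose,
    (commute_cpw_left hB.1 h.symm _).eq, Matrix.mul_assoc, cpw_mul_cpw, ← cpw_neg_one hB]
  congr 6
  simp only [map_neg, map_div₀, map_one, map_ofNat]
  norm_num

lemma qf_rq_le {A B y : Finset ι} (hd : Disjoint A B) (hy : dim d Aᶜ = dim d B * dim d y)
    {ξ : Vec (Cfg d)} (hξ : ‖ξ‖ = 1) {l a b : ℝ} (hl : Real.log (dim d y) ≤ l) (ha : 0 < a)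
    (hb : 0 < b) (ha1 : a * dim d univ ≤ 1) :
    qf ξ (rq ξ A a * (rq ξ B b)⁻¹) ≤ Real.exp (l + 1) := by
  have hc : Commute (rq ξ A a) (rq ξ B b) := (supp_rq _ _ _).commute (supp_rq _ _ _) hd
  have h1 := half (X := B) (U := 1) (rq_posDef ξ A ha).posSemidef
    ((supp_rq _ _ _).mono (le_compl_iff_disjoint_right.2 hd)) (Supp.one _) (by simp) ξ hb
    (z := -(1 / 2)) (by simp)
  rw [ap_one, ← qf_mul_inv (rq_posDef ξ B hb) hc, trace_rq hξ, hy, Nat.cast_mul] at h1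
  have h2 : (1 : ℝ) ≤ dim d B := by exact_mod_cast dim_pos B
  have h3 : (1 : ℝ) ≤ dim d y := by exact_mod_cast dim_pos y
  have h4 : (dim d y : ℝ) ≤ Real.exp l := by
    rw [← Real.log_le_iff_le_exp (by linarith)]; exact hl
  have h5 := Real.add_one_le_exp 1
  have h6 := Real.exp_pos l
  rw [Real.exp_add]
  refine le_of_mul_le_mul_left (h1.trans ?_) (by linarith : (0 : ℝ) < dim d B)
  have h7 : (dim d y : ℝ) * 2 ≤ Real.exp l * Real.exp 1 := by gcongr; linarith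
  have h8 : (dim d B : ℝ) * (dim d y * 2) ≤ dim d B * (Real.exp l * Real.exp 1) := by gcongr
  nlinarith

lemma mom_rq {P y : Finset ι} (hd : Disjoint P y) {ξ : Vec (Cfg d)} (hξ : ‖ξ‖ = 1) {l a b : ℝ}
    (h1 : 1 ≤ l) (hl : Real.log (dim d y) ≤ l) (ha : 0 < a) (hb : 0 < b)
    (ha1 : a * dim d univ ≤ 1) (hb1 : b * dim d univ ≤ 1) :
    Mom (rq ξ P a * (rq ξ (P ∪ y)ᶜ b)⁻¹) ξ (l + 1) := by
  have hd' : Disjoint P (P ∪ y)ᶜ := disjoint_compl_right.mono_left subset_union_left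
  have hc : Commute (rq ξ P a) (rq ξ (P ∪ y)ᶜ b) := (supp_rq _ _ _).commute (supp_rq _ _ _) hd'
  refine ⟨posDef_mul_inv (rq_posDef _ _ ha) (rq_posDef _ _ hb) hc, hξ, by linarith, ?_, ?_⟩
  · refine qf_rq_le hd' ?_ hξ hl ha hb ha1
    rw [← dim_union (disjoint_compl_left.mono_right subset_union_right)]
    congr 1
    ext x
    have : x ∈ y → x ∉ P := fun h => Finset.disjoint_right.1 hd h
    simp; tauto
  · rw [inv_mul_inv _ (rq_posDef _ _ hb)]
    exact qf_rq_le hd'.symm (by rw [compl_compl, dim_union hd]) hξ hl hb ha hb1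

lemma norm_half_le {X : Finset ι} {ω U : Q.Op d} (hω : ω.PosDef) (htr : ω.trace = 1)
    (sU : Supp X U) (hU : U * Uᴴ = 1) (ξ : Vec (Cfg d)) {ε : ℝ} (hε : 0 < ε) {w z : ℂ}
    (hw : w.re = 1 / 2) (hz : z.re = -(1 / 2)) :
    ‖ap (cpw (mg X ω) w) (ap U (ap (cpw (rq ξ Xᶜ ε) z) ξ))‖ ≤ 1 := by
  have hσ := mg_posDef X hω
  have h1 := half (X := Xᶜ) (U := U) hσ.posSemidef (by rw [compl_compl]; exact supp_mg _ _)
    (by rwa [compl_compl]) hU ξ hε hz
  rw [trace_mg, htr, mul_one, Complex.natCast_re] at h1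
  rw [← sq_le_one_iff₀ (norm_nonneg _), norm_ap_cpw_sq hσ, hw, show 2 * (1 / 2 : ℝ) = 1 by norm_num,
    pw_one hσ.1]
  exact (mul_le_iff_le_one_right (dim_pos_real _)).1 h1

/-- the Rényi estimate -/
theorem rl {P y : Finset ι} (hd : Disjoint P y) {ω : Q.Op d} (hω : ω.PosDef) (htr : ω.trace = 1)
    {ξ : Vec (Cfg d)} (hξ : ‖ξ‖ = 1) {l ε : ℝ} (h1 : 1 ≤ l) (hl : Real.log (dim d y) ≤ l)
    (hε : 0 < ε) (hε1 : ε * dim d univ ≤ 1) {z : ℂ} (h0 : 0 < z.re)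
    (hz : 16 * z.re * (l + 1) ≤ 1) :
    ‖ap (cpw (mg (P ∪ y) ω) z * cpw (rq ξ P ε) (-z)) ξ‖ ≤
      Real.exp (-(z.re * (SV ξ (P ∪ y) - SV ξ P)) + 60 * z.re ^ 2 * (l + 1) ^ 2) := by
  set g := z.re with hg
  have hD := dim_pos_real (d := d) univ
  have hg1 : g ≤ 1 / 32 := by nlinarith
  set b := g / dim d univ with hb
  have hb0 : 0 < b := div_pos h0 hD
  have hb1 : b * dim d univ = g := div_mul_cancel₀ _ hD.ne'
  have hM := mom_rq hd hξ h1 hl hε hb0 hε1 (by linarith)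
  set r := rq ξ P ε with hr
  set k := rq ξ (P ∪ y)ᶜ b with hk
  set σ := mg (P ∪ y) ω with hσ
  have pr : r.PosDef := rq_posDef _ _ hε
  have pk : k.PosDef := rq_posDef _ _ hb0
  have hc : Commute r k := (supp_rq _ _ _).commute (supp_rq _ _ _)
    (disjoint_compl_right.mono_left subset_union_left)
  set c := g / (1 - 2 * g) with hcd
  have hc1 : c * (1 - 2 * g) = g := div_mul_cancel₀ _ (by linarith)
  have hc0 : 0 < c := div_pos h0 (by linarith)
  have hc2 : c ≤ 16 / 15 * g := by nlinarith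
  let a : ℂ → ℂ := fun w => (2 * c : ℝ) * w + (-z - (2 * c : ℝ) * z)
  have ha : ∀ w, (a w).re = 2 * c * w.re - c := fun w => by
    simp only [a, Complex.add_re, Complex.sub_re, Complex.neg_re, Complex.re_ofReal_mul, ← hg]
    linarith
  have hF : SB fun w => ap (cpw σ w * cpw k (-w) * cpw (r * k⁻¹) (a w)) ξ :=
    (((SB.cpw σ).mul (SB.cpw_neg k)).mul (SB.cpw_affine _ _ _)).ap_const ξ
  have he : ∀ w, cpw σ w * cpw k (-w) * cpw (r * k⁻¹) (a w) =
      cpw σ w * cpw r (a w) * cpw k (-w + -a w) := fun w => by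
    rw [cpw_mul_inv pr pk hc, cpw_add k, Matrix.mul_assoc, Matrix.mul_assoc,
      ← Matrix.mul_assoc (cpw k _), ← (commute_cpw_cpw pr.1 pk.1 hc _ _).eq, Matrix.mul_assoc]
  have h3 := three_exp hF (a := 0) (b := 1 / 2) (z := z)
    (m₀ := -(c * qf ξ (lg (r * k⁻¹))) + 48 * c ^ 2 * (l + 1) ^ 2) (m₁ := 0) (by norm_num) h0.le
    (by linarith) (fun w hw => ?_) fun w hw => ?_
  · have h4 : a z = -z := by simp only [a]; ring
    rw [he, h4, neg_neg, neg_add_cancel, cpw_zero, Matrix.mul_one] at h3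
    refine h3.trans (Real.exp_le_exp.2 ?_)
    have h5 := neg_SV_le ξ P hε
    have h6 := qf_lg_le ξ (P ∪ y)ᶜ hb0
    have h7 : SV ξ (P ∪ y)ᶜ = SV ξ (P ∪ y) := SX_compl _ _
    have h8 : b * dim d (P ∪ y)ᶜ ≤ g := by
      rw [← hb1, ← dim_mul_compl (P ∪ y), Nat.cast_mul]
      have : (1 : ℝ) ≤ dim d (P ∪ y) := by exact_mod_cast dim_pos _
      exact mul_le_mul_of_nonneg_left (le_mul_of_one_le_left (Nat.cast_nonneg _) this) hb0.le
    rw [lg_mul_inv pr pk hc, qf_sub, ← hg]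
    rw [← hr] at h5
    rw [← hk, h7] at h6
    have e1 : (-(c * (qf ξ (lg r) - qf ξ (lg k))) + 48 * c ^ 2 * (l + 1) ^ 2) *
        (1 - (g - 0) / (1 / 2 - 0)) + 0 * ((g - 0) / (1 / 2 - 0)) =
        -(c * (1 - 2 * g) * (qf ξ (lg r) - qf ξ (lg k))) +
          48 * c * (c * (1 - 2 * g)) * (l + 1) ^ 2 := by ring
    rw [e1, hc1]
    have h9 : 48 * c * g * (l + 1) ^ 2 ≤ 48 * (16 / 15 * g) * g * (l + 1) ^ 2 := by gcongr
    have h10 : g ^ 2 * 1 ≤ g ^ 2 * (l + 1) ^ 2 := by gcongr; nlinarith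
    have h11 : g * (-(qf ξ (lg r) - qf ξ (lg k))) ≤ g * (-(SV ξ (P ∪ y) - SV ξ P) + g) :=
      mul_le_mul_of_nonneg_left (by linarith) h0.le
    nlinarith
  · rw [ap_mul, ap_mul, norm_ap_cpw_im _ hw, norm_ap_cpw_im _ (by simp [hw]),
      ← sq_le_sq₀ (norm_nonneg _) (Real.exp_pos _).le, norm_ap_cpw_sq hM.pd, ha, hw,
      ← Real.exp_nat_mul]
    refine (hM.pw_le_exp ?_).trans (le_of_eq ?_)
    · rw [abs_of_nonpos (by linarith)]; nlinarith
    · congr 1; push_cast; ring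
  · rw [he, ap_mul, ap_mul, Real.exp_zero]
    have h4 : (a w).re = 0 := by rw [ha, hw]; ring
    exact norm_half_le hω htr ((supp_cpw (supp_rq _ _ _) pr.1 _).mono subset_union_left)
      (cpw_unitary' _ h4) ξ hb0 hw (by simp [h4, hw])

end Crest.Agent.N336.Eng.G
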