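import Crest.Agent.N336.Eng.G1

/-!
# Row 336, CORE, gain lemma, part 2: the dichotomy for the buffer factor (helper96)
-/

set_option autoImplicit false
set_option linter.unusedSectionVars false

open Matrix Finset
open scoped ComplexOrder MatrixOrder Matrix.Norms.L2Operator InnerProductSpace Topology

namespace Crest.Agent.N336.Eng.G

open Crest.Agent.N336.Q

section an

variable {E : Type} [NormedAddCommGroup E] [NormedSpace ℂ E]

/-- division by `z` -/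
lemma div_bound [CompleteSpace E] {u : ℂ → E} (hu : SB u) (h0 : u 0 = 0) {b M : ℝ} (hb : 0 < b)
    (h1 : ∀ w : ℂ, w.re = 0 → ‖u w‖ ≤ M * ‖w‖) (h2 : ∀ w : ℂ, w.re = b → ‖u w‖ ≤ M * b) {z : ℂ}
    (hz0 : 0 ≤ z.re) (hz1 : z.re ≤ b) : ‖u z‖ ≤ M * ‖z‖ := by
  have hD := hu.dslope 0
  have hM : 0 ≤ M := by
    have := (norm_nonneg _).trans (h2 b (by simp))
    exact nonneg_of_mul_nonneg_left this hb
  have key : ∀ w, ‖u w‖ = ‖dslope u 0 w‖ * ‖w‖ := fun w => by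
    have := sub_smul_dslope u 0 w
    rw [sub_zero, h0, sub_zero] at this
    rw [← this, norm_smul, mul_comm]
  have k2 : ∀ w : ℂ, w ≠ 0 → ‖u w‖ ≤ M * ‖w‖ → ‖dslope u 0 w‖ ≤ M := fun w hw h => by
    rw [key] at h
    exact le_of_mul_le_mul_right h (norm_pos_iff.2 hw)
  rw [key]
  refine mul_le_mul_of_nonneg_right (three_max hD hb hz0 hz1 (fun w hw => ?_) fun w hw => ?_)
    (norm_nonneg _)
  · by_cases hw0 : w = 0
    · have hc : Continuous fun t : ℝ => ‖dslope u 0 (t * Complex.I)‖ :=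
        (hD.diff.continuous.comp (by fun_prop)).norm
      have h3 := (hc.tendsto 0).mono_left (nhdsWithin_le_nhds (s := {0}ᶜ))
      simp only [Complex.ofReal_zero, zero_mul] at h3
      rw [hw0]
      refine le_of_tendsto h3 (Filter.eventually_of_mem self_mem_nhdsWithin fun t ht => ?_)
      exact k2 _ (mul_ne_zero (Complex.ofReal_ne_zero.2 ht) Complex.I_ne_zero) (h1 _ (by simp))
    · exact k2 w hw0 (h1 w hw)
  · refine k2 w (by rintro rfl; simp at hw; linarith) ((h2 w hw).trans ?_)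
    exact mul_le_mul_of_nonneg_left (hw ▸ Complex.re_le_norm w) hM

lemma fin_damp {F : ℂ → E} (hF : SB F) {A B lam : ℝ} (hl : 0 ≤ lam)
    (h0 : ∀ w : ℂ, w.re = 0 → ‖F w‖ ≤ Real.exp (A + lam * w.im ^ 2))
    (h1 : ∀ w : ℂ, w.re = 1 → ‖F w‖ ≤ Real.exp (B + lam * w.im ^ 2)) :
    ‖F ((1 / 2 : ℝ) : ℂ)‖ ^ 2 ≤ Real.exp (A + B + lam / 2) := by
  have key : ∀ (C : ℝ) (w : ℂ), ‖F w‖ ≤ Real.exp (C + lam * w.im ^ 2) →
      ‖F w‖ * Real.exp (-(lam * (w.im - ((1 / 2 : ℝ) : ℂ).im) ^ 2)) ≤ Real.exp C := by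
    intro C w h
    refine (mul_le_mul_of_nonneg_right h (Real.exp_pos _).le).trans (le_of_eq ?_)
    rw [← Real.exp_add, Complex.ofReal_im, sub_zero, add_neg_cancel_right]
  have h := three_damp hF (a := 0) (b := 1) (z := ((1 / 2 : ℝ) : ℂ)) zero_lt_one hl
    (by norm_num) (by norm_num) (fun w hw => key A w (h0 w hw)) fun w hw => key B w (h1 w hw)
  rw [← Real.exp_mul, ← Real.exp_mul, ← Real.exp_add, ← Real.exp_add, Complex.ofReal_re] at h
  refine (pow_le_pow_left₀ (norm_nonneg _) h 2).trans (le_of_eq ?_)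
  rw [← Real.exp_nat_mul]
  congr 1; push_cast; ring

lemma pt_bound {x θ T : ℝ} (hx : 0 < x) (h0 : 0 ≤ θ) (h1 : θ ≤ 1) (hT : 0 ≤ T) {z : ℂ}
    (hz : z.re = 0) (hi : 2 * |z.im| ≤ θ * T) :
    ‖Complex.exp (z * Real.log x) - 1‖ ^ 2 ≤
      (4 + T) + -(4 + T) * x ^ θ + ((4 + T) * θ + θ * T) * x := by
  have h2 : z * Real.log x = Complex.I * ((z.im * Real.log x : ℝ) : ℂ) := by
    apply Complex.ext <;> simp [hz]
  have h3 : ‖Complex.exp (z * Real.log x) - 1‖ ≤ |z.im| * |Real.log x| := by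
    rw [h2, ← abs_mul]; exact Real.norm_exp_I_mul_ofReal_sub_one_le
  have h4 : ‖Complex.exp (z * Real.log x) - 1‖ ≤ 2 := by
    refine (norm_sub_le _ _).trans ?_
    rw [h2, Complex.norm_exp_I_mul_ofReal, norm_one]; norm_num
  have h5 := norm_nonneg (Complex.exp (z * Real.log x) - 1)
  set a := ‖Complex.exp (z * Real.log x) - 1‖
  have h6 : a ^ 2 ≤ θ * T * |Real.log x| := by
    have := mul_le_mul_of_nonneg_right hi (abs_nonneg (Real.log x))
    nlinarith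
  have h7 : a ^ 2 ≤ 4 := by nlinarith
  have h8 : 0 ≤ ((4 + T) * θ + θ * T) * x := by positivity
  rcases le_total (Real.log x) 0 with h | h
  · rw [abs_of_nonpos h] at h6
    set u := -(Real.log x * θ) with hu
    have hu0 : 0 ≤ u := by nlinarith
    have h9 : x ^ θ * (1 + u) ≤ 1 := by
      have := Real.add_one_le_exp u
      rw [Real.rpow_def_of_pos hx]
      calc _ ≤ Real.exp (Real.log x * θ) * Real.exp u := by gcongr; linarith
        _ = 1 := by rw [← Real.exp_add, hu, add_neg_cancel, Real.exp_zero]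
    have h10 : a ^ 2 * (1 + u) ≤ (4 + T) * (1 - x ^ θ) * (1 + u) := by
      have : θ * T * -Real.log x = T * u := by rw [hu]; ring
      nlinarith
    have := le_of_mul_le_mul_right h10 (by linarith)
    linarith
  · rw [abs_of_nonneg h] at h6
    have h9 := rpow_one_add_le_one_add_mul_self (s := x - 1) (by linarith) h0 h1
    rw [add_sub_cancel] at h9
    have h10 := Real.log_le_sub_one_of_pos hx
    have h11 : θ * T * Real.log x ≤ θ * T * x := by gcongr; linarith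
    nlinarith

end an

lemma cbound {n : Type} [Fintype n] [DecidableEq n] {D : Matrix n n ℂ} (hD : D.PosDef)
    {v : Vec n} (hv : ‖v‖ = 1) (h : qf v D ≤ 1) {θ T : ℝ} (h0 : 0 ≤ θ) (h1 : θ ≤ 1) (hT : 0 ≤ T)
    {z : ℂ} (hz : z.re = 0) (hi : 2 * |z.im| ≤ θ * T) :
    ‖ap (cpw D z) v - v‖ ^ 2 ≤ (4 + T) * (1 - qf v (pw D θ) + 2 * θ) := by
  have e1 : ap (cpw D z) v - v = ap (fc (fun x => Complex.exp (z * Real.log x) - 1) D) v := by
    rw [← fc_sub, fc_one, ap_sub, ap_one, cpw]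
  have h2 := qf_fr_le_lin (A := D) (g := fun x => ‖Complex.exp (z * Real.log x) - 1‖ ^ 2)
    (k₁ := fun x => x ^ θ) (k₂ := fun x => x) (k₃ := fun x => x) (a := 4 + T) (b₁ := -(4 + T))
    (b₂ := (4 + T) * θ + θ * T) (b₃ := 0) hv fun i => by
      simpa using pt_bound (ev_pos hD i) h0 h1 hT hz hi
  rw [qf_fr, fr_id hD.1] at h2
  rw [e1, norm_ap_fc_sq]
  have h3 : ((4 + T) * θ + θ * T) * qf v D ≤ ((4 + T) * θ + θ * T) * 1 := by gcongr
  have h4 : 0 ≤ θ * 4 := by positivity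
  refine h2.trans ?_
  simp only [pw]
  nlinarith

variable {ι : Type} [Fintype ι] [DecidableEq ι] {d : ι → Type}
  [∀ x, Fintype (d x)] [∀ x, DecidableEq (d x)] [∀ x, Nonempty (d x)]

lemma abs_H_le {P y : Finset ι} (hd : Disjoint P y) {χ : Vec (Cfg d)} (hχ : ‖χ‖ = 1) {l : ℝ}
    (hl : Real.log (dim d y) ≤ l) : |SV χ (P ∪ y) - SV χ P| ≤ l := by
  rw [union_comm]
  exact (abs_cond_le_dim hd.symm (dens_pj hχ)).trans hl

lemma afw_vec {P y : Finset ι} (hd : Disjoint P y) {χ ξ : Vec (Cfg d)} (hχ : ‖χ‖ = 1)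
    (hξ : ‖ξ‖ = 1) {l e : ℝ} (h1 : 1 ≤ l) (hl : Real.log (dim d y) ≤ l) (h0 : 0 ≤ e)
    (he : ‖χ - ξ‖ ≤ e ^ 2) :
    (SV χ (P ∪ y) - SV χ P) - (SV ξ (P ∪ y) - SV ξ P) ≤ 6 * l * e := by
  rcases le_total e 1 with h | h
  · have h2 := afw_dim hd.symm (dens_pj hχ) (dens_pj hξ) (ε := e ^ 2) fun O _ _ hO =>
      (re_inner_sub_le hχ.le hξ.le hO).trans (by linarith)
    have h3 := bin_le (sq_nonneg e) (by nlinarith)
    rw [Real.sqrt_sq h0] at h3
    rw [union_comm] at h2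
    have h4 : 2 * e ^ 2 * Real.log (dim d y) ≤ 2 * e ^ 2 * l := by gcongr
    have h5 : e ^ 2 * l ≤ e * l := by gcongr; nlinarith
    refine le_trans h2 ?_
    nlinarith
  · have h2 := abs_le.1 (abs_H_le hd hχ hl)
    have h3 := abs_le.1 (abs_H_le hd hξ hl)
    nlinarith

theorem ulem {Y y : Finset ι} (hd : Disjoint Y y) {ω : Q.Op d} (hω : ω.PosDef)
    (htr : ω.trace = 1) {χ : Vec (Cfg d)} (hχ : ‖χ‖ = 1) {l ε : ℝ} (h1 : 1 ≤ l)
    (hl : Real.log (dim d y) ≤ l) (hε : 0 < ε) (hε1 : ε * dim d univ ≤ 1) :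
    ∃ D : Q.Op d, D.PosDef ∧ qf χ D ≤ 1 ∧ ∀ z : ℂ, 0 ≤ z.re → 16 * z.re * (l + 1) ≤ 1 →
      ‖ap (cpw (mg (Y ∪ y) ω) z * cpw (rq χ Y ε) (-z)) χ - ap (cpw D z) χ‖ ≤
        64 * (l + 1) * ‖z‖ := by
  have hM := mom_rq hd hχ h1 hl hε hε hε1 hε1
  set r := rq χ Y ε with hr
  set k := rq χ (Y ∪ y)ᶜ ε with hk
  set σ := mg (Y ∪ y) ω with hσ
  have pr : r.PosDef := rq_posDef _ _ hε
  have pk : k.PosDef := rq_posDef _ _ hε
  have pσ : σ.PosDef := mg_posDef _ hω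
  have hc : Commute r k := (supp_rq _ _ _).commute (supp_rq _ _ _)
    (disjoint_compl_right.mono_left subset_union_left)
  have hc' : Commute σ k := (supp_mg _ _).commute (supp_rq _ _ _) disjoint_compl_right
  have pD := posDef_mul_inv pσ pk hc'
  have hq : qf χ (σ * k⁻¹) ≤ 1 := by
    have h2 := norm_half_le (X := Y ∪ y) (U := 1) hω htr (Supp.one _) (by simp) χ hε
      (w := ((1 / 2 : ℝ) : ℂ)) (z := -(1 / 2)) (by simp) (by simp)
    rw [← sq_le_one_iff₀ (norm_nonneg _), norm_ap_cpw_sq pσ, ap_one, Complex.ofReal_re,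
      show 2 * (1 / 2 : ℝ) = 1 by norm_num, pw_one pσ.1] at h2
    rwa [qf_mul_inv pk hc']
  refine ⟨σ * k⁻¹, pD, hq, fun z hz0 hz1 => ?_⟩
  have hm : 0 < l + 1 := by linarith
  refine div_bound (u := fun z => ap (cpw σ z * cpw r (-z)) χ - ap (cpw (σ * k⁻¹) z) χ)
    ((((SB.cpw σ).mul (SB.cpw_neg r)).ap_const χ).sub ((SB.cpw _).ap_const χ)) (by simp)
    (b := 1 / (16 * (l + 1))) (by positivity) (fun w hw => ?_) (fun w hw => ?_) hz0 ?_
  · have h2 := hM.norm_cpw_sub_le (z := -w) (by simp [hw])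
    have e : ap (cpw σ w * cpw r (-w)) χ - ap (cpw (σ * k⁻¹) w) χ =
        ap (cpw σ w) (ap (cpw k (-w)) (ap (cpw (r * k⁻¹) (-w)) χ - χ)) := by
      rw [map_sub, map_sub, cpw_mul_inv pσ pk hc', cpw_mul_inv pr pk hc, ← ap_mul (cpw k _),
        (commute_cpw_cpw pr.1 pk.1 hc _ _).eq, ← Matrix.mul_assoc, cpw_mul_neg, Matrix.one_mul,
        ap_mul, ap_mul]
    rw [e, norm_ap_cpw_im _ hw, norm_ap_cpw_im _ (by simp [hw])]
    rw [norm_neg] at h2
    refine h2.trans ?_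
    gcongr; norm_num
  · have hb : 16 * w.re * (l + 1) = 1 := by rw [hw]; field_simp
    have hw0 : 0 < w.re := by rw [hw]; positivity
    have h2 := rl hd hω htr hχ h1 hl hε hε1 hw0 hb.le
    have h3 := abs_le.1 (abs_H_le hd hχ hl)
    have h4 : -(w.re * (SV χ (Y ∪ y) - SV χ Y)) + 60 * w.re ^ 2 * (l + 1) ^ 2 ≤ 1 := by
      have e : 60 * w.re ^ 2 * (l + 1) ^ 2 = 60 / 256 * (16 * w.re * (l + 1)) ^ 2 := by ring
      rw [e, hb]
      nlinarith
    have h5 := h2.trans ((Real.exp_le_exp.2 h4).trans Real.exp_one_lt_d9.le)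
    have h6 : ‖ap (cpw (σ * k⁻¹) w) χ‖ ≤ 1 := by
      rw [← sq_le_one_iff₀ (norm_nonneg _), norm_ap_cpw_sq pD]
      have := mom_pw pD hχ one_pos hq (g := 2 * w.re) (by linarith) (by nlinarith)
      rwa [Real.one_rpow] at this
    have e : 64 * (l + 1) * (1 / (16 * (l + 1))) = 4 := by field_simp; norm_num
    rw [e]
    exact (norm_sub_le _ _).trans (by linarith)
  · rw [le_div_iff₀ (by positivity)]; linarith

/-- either the buffer factor loses norm, or its unitary part hardly moves the state -/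
theorem dich {Y y : Finset ι} (hd : Disjoint Y y) {ω : Q.Op d} (hω : ω.PosDef)
    (htr : ω.trace = 1) {χ : Vec (Cfg d)} (hχ : ‖χ‖ = 1) {l ε s κ : ℝ} (h1 : 1 ≤ l)
    (hl : Real.log (dim d y) ≤ l) (hε : 0 < ε) (hε1 : ε * dim d univ ≤ 1) (hs : 0 < s)
    (hs1 : 32 * s * (l + 1) ≤ 1) (hκ1 : κ ^ 2 ≤ 1) (hκ : s * (l + 1) ≤ κ ^ 4) :
    (∀ (z : ℂ) (t : ℝ), z.re = 2 * s → |z.im| ≤ 2 * s * |t| →
      ‖ap (cpw (mg (Y ∪ y) ω) z * cpw (rq χ Y ε) (-z)) χ‖ ≤
        Real.exp (-(116 * s * (l + 1)) + 128 * s * (l + 1) * t ^ 2)) ∨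
    ∀ (z : ℂ) (t : ℝ), z.re = 0 → |z.im| ≤ 2 * s * |t| →
      ‖χ - ap (cpw (mg (Y ∪ y) ω) z * cpw (rq χ Y ε) (-z)) χ‖ ≤ (13 * κ * (1 + |t|)) ^ 2 := by
  obtain ⟨D, pD, hq, hu⟩ := ulem hd hω htr hχ h1 hl hε hε1
  set δ := 1 - qf χ (pw D (4 * s)) with hδ
  set x := s * (l + 1) with hx
  have hx0 : 0 < x := by positivity
  rcases le_total (1000 * x) δ with h | h
  · refine Or.inl fun z t hz hi => ?_
    have h2 := hu z (by linarith) (by rw [hz]; linarith)
    have h3 : ‖z‖ ≤ 2 * s + 2 * s * |t| := by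
      refine (Complex.norm_le_abs_re_add_abs_im z).trans ?_
      rw [hz, abs_of_pos (by positivity : 0 < 2 * s)]; linarith
    have h4 : ‖ap (cpw D z) χ‖ ≤ Real.exp (-(δ / 2)) := by
      rw [← sq_le_sq₀ (norm_nonneg _) (Real.exp_pos _).le, norm_ap_cpw_sq pD, hz,
        ← Real.exp_nat_mul, show 2 * (2 * s) = 4 * s by ring]
      have := Real.add_one_le_exp (((2 : ℕ) : ℝ) * -(δ / 2))
      refine le_trans ?_ this
      push_cast; linarith
    have h5 : δ ≤ 1 := by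
      have := re_inner_ap_nonneg (pw_posDef pD (4 * s)).posSemidef χ
      simp only [hδ, qf]; linarith
    have h6 := Real.add_one_le_exp (-(δ / 2))
    have h7 := Real.add_one_le_exp (256 * x * (1 + |t|))
    have h8 : 0 ≤ x * (1 + |t|) := by positivity
    have h9 : 64 * (l + 1) * ‖z‖ ≤ 128 * x * (1 + |t|) := by
      calc _ ≤ 64 * (l + 1) * (2 * s + 2 * s * |t|) := by gcongr
        _ = _ := by rw [hx]; ring
    have h10 := norm_le_insert' (ap (cpw (mg (Y ∪ y) ω) z * cpw (rq χ Y ε) (-z)) χ)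
      (ap (cpw D z) χ)
    calc _ ≤ Real.exp (-(δ / 2)) * (256 * x * (1 + |t|) + 1) := by nlinarith
      _ ≤ Real.exp (-(δ / 2)) * Real.exp (256 * x * (1 + |t|)) := by gcongr
      _ ≤ _ := by
        rw [← Real.exp_add, Real.exp_le_exp, mul_assoc 116, mul_assoc 128, ← hx, ← sq_abs t]
        nlinarith [mul_nonneg hx0.le (sq_nonneg (|t| - 1))]
  · refine Or.inr fun z t hz hi => ?_
    have ht := abs_nonneg t
    have h2 := hu z hz.ge (by rw [hz]; norm_num)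
    have h3 : ‖z‖ ≤ 2 * s * |t| := by
      refine (Complex.norm_le_abs_re_add_abs_im z).trans ?_
      rw [hz, abs_zero, zero_add]; exact hi
    have h4 := cbound pD hχ hq (θ := 4 * s) (by positivity) (by nlinarith) ht hz (by linarith)
    have hk := sq_nonneg κ
    have h5 : ‖ap (cpw D z) χ - χ‖ ≤ 32 * κ ^ 2 * (2 + |t|) := by
      rw [← sq_le_sq₀ (norm_nonneg _) (by positivity)]
      refine h4.trans ?_
      have h6 : δ + 2 * (4 * s) ≤ 1024 * κ ^ 4 := by nlinarith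
      calc _ ≤ (2 + |t|) ^ 2 * (1024 * κ ^ 4) := by
            refine (mul_le_mul_of_nonneg_left h6 (by positivity)).trans ?_
            gcongr; nlinarith
        _ = _ := by ring
    have h6 : 64 * (l + 1) * ‖z‖ ≤ 128 * κ ^ 2 * |t| := by
      have h7 : x ≤ κ ^ 2 := hκ.trans (by nlinarith)
      calc _ ≤ 64 * (l + 1) * (2 * s * |t|) := by gcongr
        _ = 128 * x * |t| := by rw [hx]; ring
        _ ≤ _ := by gcongr
    have h8 := norm_sub_le_norm_sub_add_norm_sub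
      (ap (cpw (mg (Y ∪ y) ω) z * cpw (rq χ Y ε) (-z)) χ) (ap (cpw D z) χ) χ
    rw [norm_sub_rev]
    have h9 : 0 ≤ κ ^ 2 * |t| := by positivity
    have h10 : 0 ≤ κ ^ 2 * |t| ^ 2 := by positivity
    nlinarith

end Crest.Agent.N336.Eng.G
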