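import Crest.Agent.N336.Eng.Root

/-!
# Row 336, engine: the interpolating path and the gain pigeonhole (helper88)
-/

set_option autoImplicit false
set_option linter.unusedSectionVars false

open Matrix Finset
open scoped ComplexOrder MatrixOrder Matrix.Norms.L2Operator InnerProductSpace

namespace Crest.Agent.N336.Eng.En

open Crest.Agent.N336.Q

lemma pigeon (a γ : ℕ → ℝ → ℝ) {T : ℕ} {τ Z Bud η : ℝ} (hT : 1 ≤ T) (hτ : 0 < τ) (hZ : 0 ≤ Z)
    (hη : 0 < η)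
    (h1 : ∀ t < T, ∀ σ ε, τ ≤ σ → 0 < ε → σ + ε ≤ 2 * τ →
      a t (σ + ε) ≤ a t σ - ε * γ t σ + ε ^ 2 * Z)
    (h2 : ∀ t, a (t + 1) τ ≤ a t (2 * τ)) (h3 : a 0 τ - a (T - 1) (2 * τ) ≤ Bud) :
    ∃ t < T, ∃ σ, τ ≤ σ ∧ σ ≤ 2 * τ ∧ γ t σ ≤ Bud / (T * τ) + η := by
  by_contra hc
  push Not at hc
  obtain ⟨I, hI⟩ := exists_nat_gt (2 * τ * Z / η)
  have hI0 : (0 : ℝ) < I := lt_of_le_of_lt (by positivity) hI
  set ε := τ / I with hε
  have hε0 : 0 < ε := div_pos hτ hI0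
  have hεZ : ε * Z ≤ η / 2 := by
    rw [div_lt_iff₀ hη] at hI
    rw [hε, div_mul_eq_mul_div, div_le_div_iff₀ hI0 two_pos]; nlinarith
  set b := Bud / (T * τ) + η / 2 with hb
  have s1 : ∀ t < T, ∀ i : ℕ, i ≤ I → a t (τ + i * ε) ≤ a t τ - i * ε * b := by
    intro t ht i
    induction i with
    | zero => intro _; simp
    | succ i ih =>
      intro hi
      have hi' : (i + 1 : ℝ) ≤ I := by exact_mod_cast hi
      have e1 : (i + 1 : ℝ) * ε ≤ τ := by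
        rw [hε, mul_div_assoc', div_le_iff₀ hI0]; nlinarith
      have e0 : 0 ≤ (i : ℝ) * ε := by positivity
      have k1 := h1 t ht (τ + i * ε) ε (by linarith) hε0 (by linarith)
      have k2 := hc t ht (τ + i * ε) (by linarith) (by linarith)
      have k3 := ih (by omega)
      have k4 := mul_le_mul_of_nonneg_left k2.le hε0.le
      have k5 := mul_le_mul_of_nonneg_left hεZ hε0.le
      push_cast
      rw [show τ + (i + 1 : ℝ) * ε = τ + i * ε + ε by ring]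
      rw [hb] at k3 ⊢; nlinarith
  have s2 : ∀ t < T, a t (2 * τ) ≤ a t τ - τ * b := by
    intro t ht
    have := s1 t ht I le_rfl
    have e : (I : ℝ) * ε = τ := by rw [hε]; field_simp
    rwa [e, ← two_mul] at this
  have s3 : ∀ t < T, a t (2 * τ) ≤ a 0 τ - (t + 1) * (τ * b) := by
    intro t
    induction t with
    | zero => intro h; simpa using s2 0 h
    | succ t ih =>
      intro ht
      have := ih (by omega); have := s2 _ ht; have := h2 t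
      push_cast; linarith
  have s4 := s3 (T - 1) (by omega)
  have hT' : (0 : ℝ) < T := by exact_mod_cast hT
  have e : ((T - 1 : ℕ) : ℝ) + 1 = T := by exact_mod_cast Nat.sub_add_cancel hT
  have e2 : (T : ℝ) * (τ * b) = Bud + T * τ * (η / 2) := by rw [hb]; field_simp
  rw [e, e2] at s4
  have : 0 < T * τ * (η / 2) := by positivity
  linarith

lemma rpow_step {x σ ε : ℝ} (hx : 0 < x) (hx1 : x ≤ 1) (hε : 0 < ε) :
    x ^ (σ + ε) ≤ x ^ σ + (-ε) * (x ^ σ * -Real.log x) + ε ^ 2 * Real.log x ^ 2 * x ^ σ := by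
  have hl : ε * Real.log x ≤ 0 := mul_nonpos_of_nonneg_of_nonpos hε.le (Real.log_nonpos hx.le hx1)
  have h1 : Real.exp (ε * Real.log x) ≤ 1 + ε * Real.log x + (ε * Real.log x) ^ 2 := by
    set y := ε * Real.log x
    have h2 := Real.add_one_le_exp (-y)
    have h3 : Real.exp y * Real.exp (-y) = 1 := by rw [← Real.exp_add]; simp
    have h4 := Real.exp_pos y
    have h5 : Real.exp y * (1 - y) ≤ 1 := by nlinarith
    have h6 : 1 ≤ (1 + y + y ^ 2) * (1 - y) := by nlinarith [mul_nonneg (sq_nonneg y) (neg_nonneg.2 hl)]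
    by_contra hc
    have := mul_lt_mul_of_pos_right (not_le.1 hc) (show 0 < 1 - y by linarith)
    linarith
  rw [Real.rpow_add hx, Real.rpow_def_of_pos hx ε, mul_comm (Real.log x) ε]
  have := mul_le_mul_of_nonneg_left h1 (Real.rpow_pos_of_pos hx σ).le
  nlinarith

variable {n : Type} [Fintype n] [DecidableEq n] {Cf X : Type} [Fintype X] [Nonempty X]
  (mv : Cf → X → Cf) (A : Cf → Matrix n n ℂ)

/-- mean of the children -/
noncomputable def ch (c : Cf) : Matrix n n ℂ := mn fun x => A (mv c x)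

/-- frame of a node -/
noncomputable def nf (c : Cf) : Fr n := fr0 (A c) (ch mv A c)

/-- node `A c #_σ mean of the children` -/
noncomputable def nd (σ : ℝ) (c : Cf) : Matrix n n ℂ := (nf mv A c).m σ

/-- gain operator of a node -/
noncomputable def gn (σ : ℝ) (c : Cf) : Matrix n n ℂ :=
  (nf mv A c).D fun i => (nf mv A c).x i ^ σ * -Real.log ((nf mv A c).x i)

lemma nd_posDef (σ : ℝ) (c : Cf) : (nd mv A σ c).PosDef := Fr.m_posDef _ _

variable {mv A}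

lemma ch_posDef (hA : ∀ c, (A c).PosDef) (c : Cf) : (ch mv A c).PosDef := mn_posDef fun _ => hA _

lemma nf_a (hA : ∀ c, (A c).PosDef) (c : Cf) : (nf mv A c).a = A c :=
  fr0_a (hA c) (ch_posDef hA c)

lemma nf_b (hA : ∀ c, (A c).PosDef) (c : Cf) : (nf mv A c).b = ch mv A c :=
  fr0_b (hA c) (ch_posDef hA c)

lemma ch_le (hA : ∀ c, (A c).PosDef) (hm : ∀ c x, QL (A (mv c x)) (A c)) (c : Cf) :
    QL (ch mv A c) (A c) := mn_le (fun _ => hA _) (hA c) (hm c)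

lemma nf_x_le (hA : ∀ c, (A c).PosDef) (hm : ∀ c x, QL (A (mv c x)) (A c)) (c : Cf) (i : n) :
    (nf mv A c).x i ≤ 1 :=
  Fr.x_le_one _ (by rw [nf_a hA, nf_b hA]; exact ch_le hA hm c) i

lemma nd_le (hA : ∀ c, (A c).PosDef) (hm : ∀ c x, QL (A (mv c x)) (A c)) {σ : ℝ} (hσ : 0 ≤ σ)
    (c : Cf) : QL (nd mv A σ c) (A c) := by
  rw [← nf_a (mv := mv) hA c]
  exact Fr.D_mono _ fun i => Real.rpow_le_one ((nf mv A c).hx i).le (nf_x_le hA hm c i) hσ

lemma le_nd (hA : ∀ c, (A c).PosDef) (hm : ∀ c x, QL (A (mv c x)) (A c)) {σ : ℝ} (hσ : σ ≤ 1)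
    (c : Cf) : QL (ch mv A c) (nd mv A σ c) := by
  rw [← nf_b (mv := mv) hA c]
  refine Fr.D_mono _ fun i => ?_
  have := Real.rpow_le_rpow_of_exponent_ge ((nf mv A c).hx i) (nf_x_le hA hm c i) hσ
  rwa [Real.rpow_one] at this

lemma gn_nonneg (hA : ∀ c, (A c).PosDef) (hm : ∀ c x, QL (A (mv c x)) (A c)) (σ : ℝ) (c : Cf) :
    QL 0 (gn mv A σ c) := fun v => by
  rw [qf_zero, gn, Fr.qf_D]
  refine Finset.sum_nonneg fun i _ => mul_nonneg (mul_nonneg ?_ ?_) (sq_nonneg _)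
  · exact (Real.rpow_pos_of_pos ((nf mv A c).hx i) σ).le
  · exact neg_nonneg.2 (Real.log_nonpos ((nf mv A c).hx i).le (nf_x_le hA hm c i))

/-- second order remainder -/
noncomputable def rm (mv : Cf → X → Cf) (A : Cf → Matrix n n ℂ) (c : Cf) : ℝ :=
  ∑ i, Real.log ((nf mv A c).x i) ^ 2

lemma nd_step (hA : ∀ c, (A c).PosDef) (hm : ∀ c x, QL (A (mv c x)) (A c)) (σ : ℝ) {ε : ℝ}
    (hε : 0 < ε) (c : Cf) :
    QL (nd mv A (σ + ε) c) ((1 + ε ^ 2 * rm mv A c) • nd mv A σ c + (-ε) • gn mv A σ c) := by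
  rw [nd, nd, gn, Fr.m, Fr.m, ← Fr.D_smul, ← Fr.D_smul, ← Fr.D_add]
  refine Fr.D_mono _ fun i => (rpow_step ((nf mv A c).hx i) (nf_x_le hA hm c i) hε).trans ?_
  have h1 : Real.log ((nf mv A c).x i) ^ 2 ≤ rm mv A c :=
    Finset.single_le_sum (f := fun i => Real.log ((nf mv A c).x i) ^ 2) (fun _ _ => sq_nonneg _)
      (Finset.mem_univ i)
  have h2 := mul_le_mul_of_nonneg_right (mul_le_mul_of_nonneg_left h1 (sq_nonneg ε))
    (Real.rpow_pos_of_pos ((nf mv A c).hx i) σ).le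
  linarith

variable (mv A) (c₀ : Cf) (T : ℕ) (Ω : Vec n)

/-- the metric at time `(t, σ)` -/
noncomputable def MM (t : ℕ) (σ : ℝ) : Matrix n n ℂ := Tp mv c₀ T (nd mv A σ) t

lemma MM_posDef (t : ℕ) (σ : ℝ) : (MM mv A c₀ T t σ).PosDef :=
  Tp_posDef mv c₀ T (nd_posDef mv A σ) t

/-- squared norm of the tilted vector -/
noncomputable def ff (t : ℕ) (σ : ℝ) : ℝ := qf Ω (pw (MM mv A c₀ T t σ) (1 / 2))

/-- the transported functional -/
noncomputable def ll (t : ℕ) (σ : ℝ) (E : Cf → Matrix n n ℂ) : ℝ :=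
  qf Ω (LR (MM_posDef mv A c₀ T t σ) (TP mv c₀ T (nd mv A σ) t E))

lemma ll_add (t : ℕ) (σ : ℝ) (E E' : Cf → Matrix n n ℂ) :
    ll mv A c₀ T Ω t σ (fun c => E c + E' c) = ll mv A c₀ T Ω t σ E + ll mv A c₀ T Ω t σ E' := by
  rw [ll, ll, ll, ← qf_add, ← map_add, ← map_add]; rfl

lemma ll_smul (t : ℕ) (σ a : ℝ) (E : Cf → Matrix n n ℂ) :
    ll mv A c₀ T Ω t σ (fun c => a • E c) = a * ll mv A c₀ T Ω t σ E := by
  rw [ll, ll, ← qf_smul, ← map_smul, ← map_smul]; rfl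

lemma ll_sum {κ : Type*} (t : ℕ) (σ : ℝ) (s : Finset κ) (E : κ → Cf → Matrix n n ℂ) :
    ll mv A c₀ T Ω t σ (fun c => ∑ k ∈ s, E k c) = ∑ k ∈ s, ll mv A c₀ T Ω t σ (E k) := by
  simp only [ll]
  rw [← qf_sum, ← map_sum, ← map_sum]
  congr 3
  funext c; simp only [Finset.sum_apply]

lemma ll_mono (t : ℕ) (σ : ℝ) {E E' : Cf → Matrix n n ℂ} (h : ∀ c, QL (E c) (E' c)) :
    ll mv A c₀ T Ω t σ E ≤ ll mv A c₀ T Ω t σ E' := LR_mono _ (TP_mono mv c₀ T _ h t) Ω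

lemma ll_norm (t : ℕ) (σ : ℝ) (ξ : Cf → ℝ) :
    ll mv A c₀ T Ω t σ (fun c => ξ c • nd mv A σ c) =
      ex mv c₀ (T + 1) t ξ * (ff mv A c₀ T Ω t σ / 2) := by
  rw [ll, TP_norm mv c₀ T (nd_posDef mv A σ), map_smul, qf_smul]
  change _ * qf Ω (LR _ (MM mv A c₀ T t σ)) = _
  rw [LR_self, qf_smul, ff]; ring

lemma ll_nonneg (t : ℕ) (σ : ℝ) {E : Cf → Matrix n n ℂ} (h : ∀ c, QL 0 (E c)) :
    0 ≤ ll mv A c₀ T Ω t σ E := by
  have h1 := ll_mono mv A c₀ T Ω t σ (E := fun c => (0 : ℝ) • E c) (E' := E)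
    (fun c => by rw [zero_smul]; exact h c)
  rwa [ll_smul, zero_mul] at h1

lemma ex_one (t : ℕ) : ex mv c₀ (T + 1) t (fun _ => 1) = 1 := by
  have h : ∀ t c, (avg mv)^[t] (fun _ => (1 : ℝ)) c = 1 := by
    intro t
    induction t with
    | zero => intro c; rfl
    | succ t ih =>
      intro c
      simp only [avg_iter_succ, ih, Finset.sum_const, Finset.card_univ, nsmul_eq_mul, mul_one]
      exact div_self (by exact_mod_cast Fintype.card_pos.ne')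
  simp only [ex, h, Finset.sum_const, Finset.card_range, nsmul_eq_mul, mul_one]
  exact div_self (by positivity)

variable {mv A}

lemma ff_step (hA : ∀ c, (A c).PosDef) (hm : ∀ c x, QL (A (mv c x)) (A c)) (t : ℕ) (σ : ℝ)
    {ε : ℝ} (hε : 0 < ε) :
    ff mv A c₀ T Ω t (σ + ε) ≤ ff mv A c₀ T Ω t σ - ε * ll mv A c₀ T Ω t σ (gn mv A σ) +
      ε ^ 2 * ex mv c₀ (T + 1) t (rm mv A) * (ff mv A c₀ T Ω t σ / 2) := by
  have h1 := root_tan (MM_posDef mv A c₀ T t σ) (MM_posDef mv A c₀ T t (σ + ε)) Ω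
  have h2 := LR_mono (MM_posDef mv A c₀ T t σ)
    (Tp_tan mv c₀ T (nd mv A σ) (nd_posDef mv A (σ + ε)) t) Ω
  have h3 := ll_mono mv A c₀ T Ω t σ (nd_step hA hm σ hε)
  rw [ll_add, ll_smul, ll_norm] at h3
  have h4 := ex_lin mv c₀ (T + 1) t 1 (ε ^ 2) (fun _ => 1) (rm mv A)
  simp only [mul_one, ex_one] at h4
  rw [h4] at h3
  rw [qf_add, qf_smul] at h1
  change ff mv A c₀ T Ω t (σ + ε) ≤ 1 / 2 * ff mv A c₀ T Ω t σ + _ at h1
  change _ ≤ ll mv A c₀ T Ω t σ (nd mv A (σ + ε)) at h2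
  change qf Ω (LR _ (MM mv A c₀ T t (σ + ε))) ≤ _ at h2
  linarith

lemma ff_chain (hA : ∀ c, (A c).PosDef) (hm : ∀ c x, QL (A (mv c x)) (A c)) (t : ℕ) {σ σ' : ℝ}
    (hσ : 0 ≤ σ) (hσ' : σ' ≤ 1) : ff mv A c₀ T Ω (t + 1) σ ≤ ff mv A c₀ T Ω t σ' := by
  refine root_mono (MM_posDef mv A c₀ T t σ') (MM_posDef mv A c₀ T (t + 1) σ) ?_ Ω
  rw [MM, MM, Tp_shift]
  refine Tp_mono mv c₀ T (fun _ => mn_posDef fun _ => nd_posDef mv A σ _) (nd_posDef mv A σ')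
    (fun c => ?_) t
  exact (mn_mono (fun _ => nd_posDef mv A σ _) (fun _ => hA _) fun _ => nd_le hA hm hσ _).trans
    (le_nd hA hm hσ' c)

lemma MM_le (hA : ∀ c, (A c).PosDef) (hm : ∀ c x, QL (A (mv c x)) (A c)) (t : ℕ) {σ : ℝ}
    (hσ : 0 ≤ σ) : QL (MM mv A c₀ T t σ) (A c₀) :=
  Tp_le mv c₀ T hA (nd_posDef mv A σ) hm (nd_le hA hm hσ) t

lemma le_MM (hA : ∀ c, (A c).PosDef) (hm : ∀ c x, QL (A (mv c x)) (A c)) {B : Matrix n n ℂ}
    (hB : B.PosDef) (t : ℕ) {σ : ℝ} (hσ : σ ≤ 1)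
    (hl : ∀ l : List X, l.length ≤ T + t + 1 → QL B (A (l.foldl mv c₀))) :
    QL B (MM mv A c₀ T t σ) := by
  refine le_Tp mv c₀ T hB (nd_posDef mv A σ) t fun l hl' => QL.trans ?_ (le_nd hA hm hσ _)
  refine le_mn (fun _ => hA _) hB fun x => ?_
  have := hl (l ++ [x]) (by simpa using hl')
  rwa [List.foldl_append] at this

end Crest.Agent.N336.Eng.En
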