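import Crest.Agent.N336.Eng.Dom

/-!
# Row 336, engine: frames, the weighted geometric mean of two matrices, tangent maps (helper88)
-/

set_option autoImplicit false
set_option linter.unusedSectionVars false

open Matrix Finset MeasureTheory
open scoped ComplexOrder MatrixOrder Matrix.Norms.L2Operator InnerProductSpace

namespace Crest.Agent.N336.Eng.En

open Crest.Agent.N336.Q

variable {n : Type} [Fintype n] [DecidableEq n]

/-- a frame diagonalising a pair of positive definite matrices -/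
structure Fr (n : Type) [Fintype n] [DecidableEq n] where
  S : Matrix n n ℂ
  Si : Matrix n n ℂ
  x : n → ℝ
  hx : ∀ i, 0 < x i
  h1 : S * Si = 1
  h2 : Si * S = 1

/-- real diagonal matrix -/
noncomputable abbrev dg (y : n → ℝ) : Matrix n n ℂ := diagonal fun i => (y i : ℂ)

lemma qf_dg (y : n → ℝ) (w : Vec n) : qf w (dg y) = ∑ i, y i * ‖w i‖ ^ 2 := by
  simp only [qf, inner_eq_sum, ap_apply, diagonal_apply, ite_mul, zero_mul, Finset.sum_ite_eq,
    Finset.mem_univ, if_true, Complex.re_sum]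
  refine Finset.sum_congr rfl fun i _ => ?_
  rw [mul_left_comm, Complex.re_ofReal_mul, Complex.star_def, Complex.conj_mul', ← Complex.ofReal_pow,
    Complex.ofReal_re]

lemma dg_herm (y : n → ℝ) : (dg y)ᴴ = dg y := by
  simp [dg, diagonal_conjTranspose, Pi.star_def]

namespace Fr

variable (F F' : Fr n)

noncomputable def D (y : n → ℝ) : Matrix n n ℂ := F.S * dg y * F.Sᴴ
noncomputable def a : Matrix n n ℂ := F.D fun _ => 1
noncomputable def b : Matrix n n ℂ := F.D F.x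
noncomputable def m (τ : ℝ) : Matrix n n ℂ := F.D fun i => F.x i ^ τ

/-- mixed tangent map -/
noncomputable def L (K : ℝ → ℝ → ℝ) : Matrix n n ℂ →ₗ[ℝ] Matrix n n ℂ where
  toFun Y := F'.S * sch (fun i j => K (F'.x i) (F.x j)) (F'.Si * Y * F.Siᴴ) * F.Sᴴ
  map_add' Y Z := by simp only [Matrix.mul_add, Matrix.add_mul, map_add]
  map_smul' c Y := by
    simp only [Matrix.mul_smul, Matrix.smul_mul, map_smul, RingHom.id_apply]

lemma L_apply (K : ℝ → ℝ → ℝ) (Y : Matrix n n ℂ) : F.L F' K Y =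
    F'.S * sch (fun i j => K (F'.x i) (F.x j)) (F'.Si * Y * F.Siᴴ) * F.Sᴴ := rfl

lemma h3 : F.Sᴴ * F.Siᴴ = 1 := by rw [← conjTranspose_mul, F.h2, conjTranspose_one]
lemma h4 : F.Siᴴ * F.Sᴴ = 1 := by rw [← conjTranspose_mul, F.h1, conjTranspose_one]

lemma sandwich (Y : Matrix n n ℂ) : F'.S * (F'.Si * Y * F.Siᴴ) * F.Sᴴ = Y := by
  calc _ = (F'.S * F'.Si) * Y * (F.Siᴴ * F.Sᴴ) := by simp only [Matrix.mul_assoc]
    _ = Y := by rw [F'.h1, F.h4, Matrix.one_mul, Matrix.mul_one]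

lemma Si_D (y : n → ℝ) : F.Si * F.D y * F.Siᴴ = dg y := by
  calc _ = (F.Si * F.S) * dg y * (F.Sᴴ * F.Siᴴ) := by simp only [D, Matrix.mul_assoc]
    _ = _ := by rw [F.h2, F.h3, Matrix.one_mul, Matrix.mul_one]

lemma L_D (K : ℝ → ℝ → ℝ) (y : n → ℝ) :
    F.L F K (F.D y) = F.D fun i => K (F.x i) (F.x i) * y i := by
  rw [L_apply, Si_D, sch_diagonal]; rfl

lemma D_herm (y : n → ℝ) : (F.D y).IsHermitian := by
  unfold Matrix.IsHermitian D
  rw [conjTranspose_mul, conjTranspose_mul, conjTranspose_conjTranspose, dg_herm, Matrix.mul_assoc]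

lemma qf_D (y : n → ℝ) (v : Vec n) : qf v (F.D y) = ∑ i, y i * ‖ap F.Sᴴ v i‖ ^ 2 := by
  rw [D, qf_conj, qf_dg]

lemma D_mono {y z : n → ℝ} (h : ∀ i, y i ≤ z i) : QL (F.D y) (F.D z) := fun v => by
  rw [qf_D, qf_D]; exact Finset.sum_le_sum fun i _ => mul_le_mul_of_nonneg_right (h i) (sq_nonneg _)

lemma D_add (y z : n → ℝ) : F.D (fun i => y i + z i) = F.D y + F.D z := by
  simp only [D, dg, ← Matrix.mul_add, ← Matrix.add_mul, diagonal_add, Complex.ofReal_add]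

lemma D_smul (c : ℝ) (y : n → ℝ) : F.D (fun i => c * y i) = c • F.D y := by
  have : dg (fun i => c * y i) = c • dg y := by
    ext i j; by_cases h : i = j <;> simp [h]
  simp only [D, this, Matrix.mul_smul, Matrix.smul_mul]

lemma D_posDef {y : n → ℝ} (h : ∀ i, 0 < y i) : (F.D y).PosDef := by
  have h0 : (dg y).PosDef := by
    rw [posDef_diagonal_iff]; intro i; exact_mod_cast h i
  have hu : IsUnit F.S := ⟨⟨F.S, F.Si, F.h1, F.h2⟩, rfl⟩
  exact h0.mul_mul_conjTranspose_same (Matrix.vecMul_injective_of_isUnit hu)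

lemma a_posDef : F.a.PosDef := F.D_posDef fun _ => one_pos
lemma b_posDef : F.b.PosDef := F.D_posDef F.hx
lemma m_posDef (τ : ℝ) : (F.m τ).PosDef := F.D_posDef fun i => Real.rpow_pos_of_pos (F.hx i) τ

variable {τ : ℝ}

lemma LA_D (h : τ ∈ Set.Ioo (0 : ℝ) 1) (y : n → ℝ) :
    F.L F (KA τ) (F.D y) = (1 - τ) • F.D fun i => F.x i ^ τ * y i := by
  rw [L_D, ← D_smul]; congr 1; funext i; rw [KA_diag h (F.hx i), mul_assoc]

lemma LA_a (h : τ ∈ Set.Ioo (0 : ℝ) 1) : F.L F (KA τ) F.a = (1 - τ) • F.m τ := by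
  rw [a, LA_D F h]; simp only [mul_one, m]

lemma LB_b (h : τ ∈ Set.Ioo (0 : ℝ) 1) : F.L F (KB τ) F.b = τ • F.m τ := by
  rw [b, L_D, m, ← D_smul]; congr 1; funext i; rw [← KB_diag h (F.hx i), mul_comm]

lemma domA (h : τ ∈ Set.Ioo (0 : ℝ) 1) {Y P E : Matrix n n ℂ} (hd : Dom Y P E) :
    Dom (F.L F' (KA τ) Y) (F'.L F' (KA τ) P) (F.L F (KA τ) E) :=
  ((hd.conj F'.Si F.Si).sch (w := wA τ) (a := fun i => pA (F'.x i)) (b := fun i => pA (F.x i))
    (fun _ ht => wA_nonneg h ht) (fun i j => int_A h (F'.hx i) (F.hx j))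
    (fun i j => int_A h (F'.hx i) (F'.hx j)) (fun i j => int_A h (F.hx i) (F.hx j))).conj F'.S F.S

lemma domB (h : τ ∈ Set.Ioo (0 : ℝ) 1) {Y P E : Matrix n n ℂ} (hd : Dom Y P E) :
    Dom (F.L F' (KB τ) Y) (F'.L F' (KB τ) P) (F.L F (KB τ) E) :=
  ((hd.conj F'.Si F.Si).sch (w := wB τ) (a := fun i => pB (F'.x i)) (b := fun i => pB (F.x i))
    (fun _ ht => wB_nonneg h ht) (fun i j => int_B h (F'.hx i) (F.hx j))
    (fun i j => int_B h (F'.hx i) (F'.hx j)) (fun i j => int_B h (F.hx i) (F.hx j))).conj F'.S F.S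

lemma LA_mono (h : τ ∈ Set.Ioo (0 : ℝ) 1) {E E' : Matrix n n ℂ} (hE : QL E E') :
    QL (F.L F (KA τ) E) (F.L F (KA τ) E') := by
  rw [← QL.sub_iff, ← map_sub]
  exact (F.domA F h (dom_zero_iff.2 (QL.sub_iff.2 hE))).right

lemma LB_mono (h : τ ∈ Set.Ioo (0 : ℝ) 1) {E E' : Matrix n n ℂ} (hE : QL E E') :
    QL (F.L F (KB τ) E) (F.L F (KB τ) E') := by
  rw [← QL.sub_iff, ← map_sub]
  exact (F.domB F h (dom_zero_iff.2 (QL.sub_iff.2 hE))).right

lemma Si_comm (g : Matrix n n ℂ) (y y' : n → ℝ) :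
    F'.Si * (g * F.D y - F'.D y' * g) * F.Siᴴ =
      F'.Si * g * F.S * dg y - dg y' * (F'.Sᴴ * g * F.Siᴴ) := by
  have e1 : F'.Si * (g * F.D y) * F.Siᴴ = F'.Si * g * F.S * dg y * (F.Sᴴ * F.Siᴴ) := by
    simp only [D, Matrix.mul_assoc]
  have e2 : F'.Si * (F'.D y' * g) * F.Siᴴ = (F'.Si * F'.S) * dg y' * (F'.Sᴴ * g * F.Siᴴ) := by
    simp only [D, Matrix.mul_assoc]
  rw [Matrix.mul_sub, Matrix.sub_mul, e1, e2, F.h3, F'.h2, Matrix.mul_one, Matrix.one_mul]

/-- the intertwining identity -/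
lemma inter (h : τ ∈ Set.Ioo (0 : ℝ) 1) (g : Matrix n n ℂ) :
    g * F.m τ - F'.m τ * g =
      F.L F' (KA τ) (g * F.a - F'.a * g) + F.L F' (KB τ) (g * F.b - F'.b * g) := by
  rw [← F.sandwich F' (g * F.m τ - F'.m τ * g), L_apply, L_apply, ← Matrix.add_mul,
    ← Matrix.mul_add, m, m, a, a, b, b, Si_comm, Si_comm, Si_comm]
  congr 2
  ext i j
  simp only [Matrix.sub_apply, Matrix.add_apply, sch_apply, mul_diagonal, diagonal_mul]
  rw [← KA_add_right h (F'.hx i) (F.hx j), ← KA_add_left h (F'.hx i) (F.hx j)]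
  push_cast; ring

/-- the tangent inequality -/
lemma tan (h : τ ∈ Set.Ioo (0 : ℝ) 1) :
    QL (F'.m τ) (F.L F (KA τ) F'.a + F.L F (KB τ) F'.b) := by
  intro v
  set R := F.Si * F'.S with hR
  have e0 : ∀ y, F.Si * F'.D y * F.Siᴴ = R * dg y * Rᴴ := fun y => by
    simp only [hR, D, conjTranspose_mul, Matrix.mul_assoc]
  set w := ap F.Sᴴ v with hw
  have e1 : ap F'.Sᴴ v = ap Rᴴ w := by
    rw [hw, ← ap_mul, hR, conjTranspose_mul, Matrix.mul_assoc, F.h4, Matrix.mul_one]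
  rw [qf_add, L_apply, L_apply, qf_conj, qf_conj, ← hw, a, b, e0, e0, m, qf_D, e1]
  obtain ⟨i1, e2⟩ := sch_int (w := wA τ) (a := fun i => pA (F.x i)) (b := fun i => pA (F.x i))
    (fun i j => int_A h (F.hx i) (F.hx j)) (R * dg (fun _ => 1) * Rᴴ) w w
  obtain ⟨i2, e3⟩ := sch_int (w := wB τ) (a := fun i => pB (F.x i)) (b := fun i => pB (F.x i))
    (fun i j => int_B h (F.hx i) (F.hx j)) (R * dg F'.x * Rᴴ) w w
  have i0 : ∀ i, IntegrableOn (fun t => r0 τ t (F'.x i) * ‖ap Rᴴ w i‖ ^ 2) (Set.Ioi 0) :=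
    fun i => (int_r0 h (F'.hx i).le).mul_const _
  have e4 : ∑ i, F'.x i ^ τ * ‖ap Rᴴ w i‖ ^ 2 =
      ∫ t in Set.Ioi 0, ∑ i, r0 τ t (F'.x i) * ‖ap Rᴴ w i‖ ^ 2 := by
    rw [integral_finsetSum _ fun i _ => i0 i]
    simp only [integral_mul_const, integral_r0 h (F'.hx _).le]
  simp only [qf, KA, KB]
  rw [e2, e3, e4, ← integral_add i1 i2]
  refine setIntegral_mono_on (integrable_finsetSum _ fun i _ => i0 i) (i1.add i2)
    measurableSet_Ioi fun t ht => ?_
  have ht' : (0 : ℝ) < t := ht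
  have e5 : w = dv (fun i => pA (F.x i) t) w + (t : ℂ) • dv (fun i => pB (F.x i) t) w := by
    ext i
    have : pA (F.x i) t + t * pB (F.x i) t = 1 := by
      have := F.hx i
      unfold pA pB; field_simp; ring
    have h' : (pA (F.x i) t : ℂ) + (t : ℂ) * (pB (F.x i) t : ℂ) = 1 := by exact_mod_cast this
    simp only [dv, PiLp.add_apply, PiLp.smul_apply, smul_eq_mul]
    linear_combination (-(w i)) * h'
  have q1 := qf_conj R (dg fun _ => 1) (dv (fun i => pA (F.x i) t) w)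
  have q2 := qf_conj R (dg F'.x) (dv (fun i => pB (F.x i) t) w)
  rw [qf_dg] at q1 q2
  simp only [qf] at q1 q2
  rw [q1, q2, Finset.mul_sum, Finset.mul_sum, ← Finset.sum_add_distrib]
  refine Finset.sum_le_sum fun i _ => ?_
  have h1 := par_ineq ht' (F'.hx i) (ap Rᴴ (dv (fun i => pA (F.x i) t) w) i)
    (ap Rᴴ (dv (fun i => pB (F.x i) t) w) i)
  have e6 : ap Rᴴ w i = ap Rᴴ (dv (fun i => pA (F.x i) t) w) i +
      (t : ℂ) * ap Rᴴ (dv (fun i => pB (F.x i) t) w) i := by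
    conv_lhs => rw [e5]
    simp only [map_add, map_smul, PiLp.add_apply, PiLp.smul_apply, smul_eq_mul]
  rw [← e6] at h1
  have h3 := mul_le_mul_of_nonneg_left h1 (wA_nonneg h ht')
  rw [wB_eq ht']
  have : r0 τ t (F'.x i) = wA τ t * (F'.x i / (t + F'.x i)) := by simp [r0, wA]
  rw [this]; nlinarith

/-- the geometric mean bound for quadratic forms -/
lemma geo (h : τ ∈ Set.Ioo (0 : ℝ) 1) {w : Vec n} (hw : w ≠ 0) :
    Real.log (qf w (F.m τ)) ≤ (1 - τ) * Real.log (qf w F.a) + τ * Real.log (qf w F.b) := by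
  have ha := qf_pos F.a_posDef hw
  have hb := qf_pos F.b_posDef hw
  have hm := qf_pos (F.m_posDef τ) hw
  set α := qf w F.a with hα
  set β := qf w F.b with hβ
  have hl : 0 < β / α := div_pos hb ha
  have h1 : QL (F.m τ) (F.D fun i => (β / α) ^ τ * ((1 - τ) * 1 + τ / (β / α) * F.x i)) := by
    refine F.D_mono fun i => ?_
    have h2 := Real.geom_mean_le_arith_mean2_weighted (w₁ := 1 - τ) (w₂ := τ) (p₁ := 1)
      (p₂ := F.x i / (β / α)) (by linarith [h.2]) h.1.le zero_le_one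
      (div_pos (F.hx i) hl).le (by ring)
    rw [Real.one_rpow, one_mul, Real.div_rpow (F.hx i).le hl.le,
      div_le_iff₀ (Real.rpow_pos_of_pos hl τ)] at h2
    refine h2.trans (le_of_eq ?_); ring
  have h2 := h1 w
  rw [D_smul, D_add, D_smul, D_smul, qf_smul, qf_add, qf_smul, qf_smul] at h2
  change qf w (F.m τ) ≤ (β / α) ^ τ * ((1 - τ) * α + τ / (β / α) * β) at h2
  have e : (1 - τ) * α + τ / (β / α) * β = α := by field_simp; ring
  rw [e] at h2
  have h3 := Real.log_le_log hm h2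
  rw [Real.log_mul (Real.rpow_pos_of_pos hl τ).ne' ha.ne', Real.log_rpow hl,
    Real.log_div hb.ne' ha.ne'] at h3
  linarith

lemma m_of_eq (hab : F.a = F.b) (τ : ℝ) : F.m τ = F.a := by
  have h1 : dg (fun _ : n => (1 : ℝ)) = dg F.x := by rw [← F.Si_D, ← F.Si_D]; exact congrArg (fun Z => F.Si * Z * F.Siᴴ) hab
  have h2 : ∀ i, F.x i = 1 := fun i => by
    have := congrFun (congrFun h1 i) i
    simp only [diagonal_apply_eq] at this
    exact_mod_cast this.symm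
  simp only [m, a, h2, Real.one_rpow]

lemma x_le_one (hab : QL F.b F.a) (i : n) : F.x i ≤ 1 := by
  have h1 := (hab.conj F.Si) (EuclideanSpace.single i 1)
  rw [a, b, Si_D, Si_D, qf_dg, qf_dg] at h1
  simpa [Finset.sum_eq_single i, PiLp.single_apply, apply_ite] using h1

end Fr

end Crest.Agent.N336.Eng.En
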