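import Mathlib

/-!
# Row 336, engine, lemma (K): the complex analysis (helper66)

three lines, Harnack, three circles, propagation of smallness from a segment, positivity.
-/

set_option autoImplicit false

open Complex Metric Set Filter Topology

namespace Crest.Agent.N336.Eng.KA

/-- three lines -/
theorem tl {f : ℂ → ℂ} (hf : Differentiable ℂ f) {u a b M : ℝ} (h : 0 < u)
    (hM : ∀ z : ℂ, 0 ≤ z.re → z.re ≤ u → ‖f z‖ ≤ M) (ha : ∀ z : ℂ, z.re = 0 → ‖f z‖ ≤ a)
    (hb : ∀ z : ℂ, z.re = u → ‖f z‖ ≤ b) {z : ℂ} (h1 : 0 ≤ z.re) (h2 : z.re ≤ u) :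
    ‖f z‖ ≤ a ^ (1 - z.re / u) * b ^ (z.re / u) := by
  have := HadamardThreeLines.norm_le_interp_of_mem_verticalClosedStrip' (f := f) (z := z) h
    ⟨h1, h2⟩ hf.diffContOnCl ⟨M, by rintro _ ⟨w, hw, rfl⟩; exact hM w hw.1 hw.2⟩
    (fun w hw => ha w hw) fun w hw => hb w hw
  simpa using this

/-- propagation of smallness into a strip -/
theorem tl' {f : ℂ → ℂ} (hf : Differentiable ℂ f) {u δ M θ : ℝ} (h : 0 < u) (hδ : 0 < δ)
    (hθ : θ ≤ 1) (hM : ∀ z : ℂ, 0 ≤ z.re → z.re ≤ u → ‖f z‖ ≤ M)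
    (ha : ∀ z : ℂ, z.re = 0 → ‖f z‖ ≤ δ) {z : ℂ} (h1 : 0 ≤ z.re) (h2 : z.re ≤ θ * u) :
    ‖f z‖ ≤ δ ^ (1 - θ) * M ^ θ := by
  have h3 : z.re ≤ u := h2.trans (mul_le_of_le_one_left h.le hθ)
  have hM0 : 0 ≤ M := (norm_nonneg _).trans (hM z h1 h3)
  have h4 : z.re / u ≤ θ := (div_le_iff₀ h).2 h2
  rcases le_total δ M with h5 | h5
  · refine (tl hf h hM ha (fun w hw => hM w (hw ▸ h.le) hw.le) h1 h3).trans ?_
    have e1 : δ ^ (1 - z.re / u) = δ ^ (1 - θ) * δ ^ (θ - z.re / u) := by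
      rw [← Real.rpow_add hδ]; congr 1; ring
    have e2 : M ^ θ = M ^ (θ - z.re / u) * M ^ (z.re / u) := by
      rw [← Real.rpow_add (hδ.trans_le h5)]; congr 1; ring
    rw [e1, e2, mul_assoc]
    gcongr
  · calc ‖f z‖ ≤ M := hM z h1 h3
      _ = M ^ (1 - θ) * M ^ θ := by rw [← Real.rpow_add' hM0 (by simp)]; simp
      _ ≤ _ := by gcongr

/-- Harnack's inequality -/
theorem harnack {f : ℂ → ℂ} {c z : ℂ} {R : ℝ} (hd : DifferentiableOn ℂ f (ball c R))
    (hp : ∀ z ∈ ball c R, 0 < (f z).re) (hz : z ∈ ball c R) :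
    ‖f z‖ * (R - ‖z - c‖) ≤ ‖f c‖ * (R + ‖z - c‖) := by
  have hR : 0 < R := pos_of_mem_ball hz
  have hc := hp c (mem_ball_self hR)
  have hne : ∀ w ∈ ball c R, f w + (starRingEnd ℂ) (f c) ≠ 0 := fun w hw h => by
    have h1 := congrArg re h
    simp only [add_re, conj_re, zero_re] at h1
    linarith [hp w hw]
  have h1 := dist_le_div_mul_dist_of_mapsTo_ball
    (f := fun w => (f w - f c) / (f w + (starRingEnd ℂ) (f c))) (R₂ := 1)
    ((hd.sub_const _).div (hd.add_const _) hne) (fun w hw => by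
      simp only [sub_self, zero_div, mem_closedBall_zero_iff, norm_div]
      refine div_le_one_of_le₀ (abs_le_of_sq_le_sq' ?_ (norm_nonneg _)).2 (norm_nonneg _)
      rw [Complex.sq_norm, Complex.sq_norm, normSq_apply, normSq_apply]
      simp only [sub_re, sub_im, add_re, add_im, conj_re, conj_im]
      nlinarith [mul_pos (hp w hw) hc]) hz
  simp only [sub_self, zero_div, dist_eq_norm, sub_zero, norm_div] at h1
  rw [div_le_iff₀ (norm_pos_iff.2 (hne z hz))] at h1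
  have h2 := norm_add_le (f z) ((starRingEnd ℂ) (f c))
  rw [Complex.norm_conj] at h2
  have h3 := norm_sub_norm_le (f z) (f c)
  have h4 : ‖f z - f c‖ * R ≤ ‖z - c‖ * (‖f z‖ + ‖f c‖) := by
    calc ‖f z - f c‖ * R ≤ 1 / R * ‖z - c‖ * ‖f z + (starRingEnd ℂ) (f c)‖ * R := by gcongr
      _ = ‖z - c‖ * ‖f z + (starRingEnd ℂ) (f c)‖ := by field_simp
      _ ≤ _ := by gcongr
  nlinarith

/-- a small derivative at a boundary maximum forces `G` to be close to `1` -/
theorem small {G : ℂ → ℂ} (hG : Differentiable ℂ G) (h0 : G 0 = 1) {e σ : ℝ} (he : 0 < e)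
    (hσ : 0 < σ) (hd : ‖deriv G 0‖ ≤ e) (h1 : ∀ z : ℂ, -(4 * σ) ≤ z.re → z.re ≤ 0 → ‖G z‖ ≤ 1)
    (h2 : ∀ z : ℂ, -(6 * σ) ≤ z.re → z.re ≤ 2 * σ → ‖G z‖ ≤ 2) {t : ℝ} (ht : |t| ≤ 2 * σ) :
    ‖1 - G (t * I)‖ ≤ 3 * (27 * σ * e) ^ (1 / 4 : ℝ) := by
  set g : ℂ → ℂ := fun z => 1 - G z - e * z with hg
  set c : ℂ := ((-(2 * σ) : ℝ) : ℂ) with hc
  have hgd : Differentiable ℂ g := (hG.const_sub 1).sub (differentiable_id.const_mul _)
  have hp : ∀ z ∈ ball c (2 * σ), 0 < (g z).re := fun z hz => by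
    have h3 := abs_lt.1 ((abs_re_le_norm _).trans_lt (mem_ball_iff_norm.1 hz))
    simp only [hc, sub_re, ofReal_re] at h3
    have h4 := (re_le_norm _).trans (h1 z (by linarith) (by linarith))
    simp only [hg, sub_re, one_re, re_ofReal_mul]
    nlinarith
  have hne : ∀ z ∈ ball c (2 * σ), g z ≠ 0 := fun z hz h => by simpa [h] using hp z hz
  have hcm : c ∈ ball c (2 * σ) := mem_ball_self (by linarith)
  have h3 : ‖g c‖ ≤ 8 * σ * e := by
    have hder : HasDerivAt g (-deriv G 0 - e) 0 := by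
      have := ((hG 0).hasDerivAt.const_sub 1).sub ((hasDerivAt_id (0 : ℂ)).const_mul (e : ℂ))
      rwa [mul_one] at this
    have ht : Tendsto (fun x : ℝ => ((-x : ℝ) : ℂ)) (𝓝[>] 0) (𝓝[≠] 0) := by
      refine tendsto_nhdsWithin_iff.2 ⟨?_, eventually_mem_nhdsWithin.mono fun x hx => ?_⟩
      · refine Tendsto.mono_left ?_ nhdsWithin_le_nhds
        exact Continuous.tendsto' (by fun_prop) _ _ (by simp)
      · simpa using ne_of_gt hx
    have h4 := ((hasDerivAt_iff_tendsto_slope_zero.1 hder).comp ht).norm.const_mul (4 * σ)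
    refine (ge_of_tendsto h4 ?_).trans ?_
    · filter_upwards [Ioo_mem_nhdsGT hσ] with x hx
      have e1 : ‖((-x : ℝ) : ℂ) - c‖ = 2 * σ - x := by
        rw [hc, ← ofReal_sub, norm_real, Real.norm_of_nonneg (by linarith [hx.2])]; ring
      have hm : ((-x : ℝ) : ℂ) ∈ ball c (2 * σ) := by
        rw [mem_ball_iff_norm, e1]; linarith [hx.1]
      have h5 := harnack (f := fun z => (g z)⁻¹) (hgd.differentiableOn.inv hne) (fun z hz => by
        rw [inv_re]; exact div_pos (hp z hz) (normSq_pos.2 (hne z hz))) hm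
      have p1 := norm_pos_iff.2 (hne _ hm)
      have p2 := norm_pos_iff.2 (hne _ hcm)
      rw [e1, norm_inv, norm_inv, inv_mul_le_iff₀ p1, mul_left_comm, le_inv_mul_iff₀ p2] at h5
      have g0 : g 0 = 0 := by simp [hg, h0]
      simp only [Function.comp, zero_add, g0, sub_zero, norm_smul, norm_inv, norm_real,
        norm_neg, Real.norm_of_nonneg hx.1.le]
      rw [mul_left_comm, le_inv_mul_iff₀ hx.1]
      nlinarith [hx.1]
    · have := (norm_sub_le (-deriv G 0) (e : ℂ))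
      rw [norm_neg, norm_real, Real.norm_of_nonneg he.le] at this
      nlinarith
  have h4 : ∀ z, ‖z - c‖ = σ → ‖1 - G z‖ ≤ 27 * σ * e := fun z hz => by
    have h5 := harnack hgd.differentiableOn hp (z := z) (by rw [mem_ball_iff_norm, hz]; linarith)
    rw [hz] at h5
    have h6 : ‖z‖ ≤ 3 * σ := by
      have := norm_sub_norm_le z c
      rw [hz, hc, norm_real, norm_neg, Real.norm_of_nonneg (by linarith)] at this
      linarith
    have h7 := norm_add_le (g z) (e * z)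
    rw [norm_mul, norm_real, Real.norm_of_nonneg he.le, hg, sub_add_cancel] at h7
    have h8 : ‖g z‖ ≤ 3 * ‖g c‖ := by
      refine le_of_mul_le_mul_right ?_ hσ
      linarith
    nlinarith
  have hl : 0 < Real.log 2 := Real.log_pos one_lt_two
  have hw : (2 + t / σ * I : ℂ) ≠ 0 := fun h => by simpa using congrArg re h
  have hn : ∀ ζ : ℂ, ‖c + σ * exp ζ - c‖ = σ * Real.exp ζ.re := fun ζ => by
    rw [add_sub_cancel_left, norm_mul, norm_real, Real.norm_of_nonneg hσ.le, norm_exp]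
  have h5 := tl' (f := fun ζ => 1 - G (c + σ * exp ζ)) (by fun_prop) (u := 2 * Real.log 2)
    (δ := 27 * σ * e) (M := 3) (θ := 3 / 4) (by positivity) (by positivity) (by norm_num)
    (fun ζ _ hζ => by
      have h6 := abs_le.1 ((abs_re_le_norm _).trans (hn ζ).le)
      have h7 : Real.exp ζ.re ≤ 4 := by
        refine (Real.exp_le_exp.2 hζ).trans (le_of_eq ?_)
        rw [two_mul, Real.exp_add, Real.exp_log two_pos]; norm_num
      simp only [hc, sub_re, ofReal_re] at h6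
      have h8 := h2 (c + σ * exp ζ) (by nlinarith) (by nlinarith)
      have := norm_sub_le 1 (G (c + σ * exp ζ))
      rw [norm_one] at this
      linarith)
    (fun ζ hζ => h4 _ (by rw [hn, hζ]; simp)) (z := log (2 + t / σ * I))
    (by
      rw [log_re]
      refine Real.log_nonneg (le_trans ?_ (re_le_norm _))
      simp)
    (by
      have h6 : (t / σ) ^ 2 ≤ 4 := by
        rw [div_pow, div_le_iff₀ (by positivity), ← sq_abs]
        nlinarith [abs_nonneg t]
      have h7 : ‖(2 + t / σ * I : ℂ)‖ ^ 2 ≤ 2 ^ 3 := by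
        rw [← ofReal_div, ← ofReal_ofNat, Complex.sq_norm, normSq_add_mul_I]
        linarith
      have h8 := Real.log_le_log (by positivity) h7
      rw [Real.log_pow, Real.log_pow] at h8
      rw [log_re]
      push_cast at h8
      linarith)
  have e2 : c + σ * (2 + t / σ * I) = t * I := by
    have : (σ : ℂ) ≠ 0 := by exact_mod_cast hσ.ne'
    rw [hc]; push_cast; field_simp; ring
  simp only [exp_log hw, e2] at h5
  refine h5.trans ?_
  rw [mul_comm, show (1 - 3 / 4 : ℝ) = 1 / 4 by norm_num]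
  gcongr
  exact (Real.rpow_le_rpow_of_exponent_le (by norm_num) (by norm_num)).trans (Real.rpow_one 3).le

theorem sinh_re_im (ζ : ℂ) : (sinh ζ).re = Real.sinh ζ.re * Real.cos ζ.im ∧
    (sinh ζ).im = Real.cosh ζ.re * Real.sin ζ.im := by
  conv_lhs => rw [← re_add_im ζ]
  conv_rhs => rw [← re_add_im ζ]
  simp only [sinh_add, cosh_mul_I, sinh_mul_I, ← ofReal_sinh, ← ofReal_cosh, ← ofReal_cos,
    ← ofReal_sin]
  simp [-ofReal_sinh, -ofReal_cosh, -ofReal_cos, -ofReal_sin]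

/-- from a segment to a disc -/
theorem seg {f : ℂ → ℂ} (hf : Differentiable ℂ f) {σ δ M : ℝ} (hσ : 0 < σ) (hδ : 0 < δ)
    (h1 : ∀ t : ℝ, |t| ≤ 2 * σ → ‖f (t * I)‖ ≤ δ) (h2 : ∀ z : ℂ, |z.re| ≤ 3 * σ → ‖f z‖ ≤ M)
    {z : ℂ} (hz : ‖z‖ ≤ σ) : ‖f z‖ ≤ δ ^ (1 / 2 : ℝ) * M ^ (1 / 2 : ℝ) := by
  have hσ' : (σ : ℂ) ≠ 0 := by exact_mod_cast hσ.ne'
  obtain ⟨ζ, hζ0, hζ⟩ : ∃ ζ : ℂ, 0 ≤ ζ.re ∧ sinh ζ = z / (2 * σ) := by
    obtain ⟨u, hu⟩ := sin_surjective (z / (2 * σ) * I)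
    have h3 : sinh (-(u * I)) = z / (2 * σ) := by
      refine mul_right_cancel₀ I_ne_zero ?_
      rw [← sin_mul_I, ← hu, neg_mul, mul_assoc, I_mul_I]; simp
    rcases le_total 0 (-(u * I)).re with h | h
    · exact ⟨_, h, h3⟩
    · refine ⟨u * I + Real.pi * I, by simpa using h, ?_⟩
      rw [sinh_add_pi_mul_I, ← sinh_neg, h3]
  have h3 := tl' (f := fun ζ => f (2 * σ * sinh ζ)) (by fun_prop) (u := 1) (δ := δ) (M := M)
    (θ := 1 / 2) one_pos hδ (by norm_num)
    (fun w hw0 hw => h2 _ (by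
      have h4 : Real.sinh w.re ≤ 3 / 2 := by
        refine (Real.sinh_le_sinh.2 hw).trans ?_
        rw [Real.sinh_eq]
        linarith [Real.exp_one_lt_d9, Real.exp_pos (-1)]
      have h5 : 0 ≤ Real.sinh w.re := Real.sinh_nonneg_iff.2 hw0
      rw [← ofReal_ofNat, ← ofReal_mul, re_ofReal_mul, (sinh_re_im w).1, abs_mul, abs_mul,
        abs_of_pos hσ, abs_mul, abs_of_nonneg h5, abs_two]
      have := mul_le_mul h4 (Real.abs_cos_le_one w.im) (abs_nonneg _) (by norm_num)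
      nlinarith))
    (fun w hw => by
      have e : 2 * σ * sinh w = (2 * σ * Real.sin w.im : ℝ) * I := by
        rw [← re_add_im (sinh w), (sinh_re_im w).1, (sinh_re_im w).2, hw]
        simp [mul_assoc]
      simp only [e]
      refine h1 _ ?_
      rw [abs_mul, abs_of_pos (by positivity : 0 < 2 * σ)]
      exact mul_le_of_le_one_right (by positivity) (Real.abs_sin_le_one _)) hζ0
    (by
      have h4 : ‖sinh ζ‖ ≤ 1 / 2 := by
        rw [hζ, norm_div, div_le_iff₀ (by simpa using hσ.ne')]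
        simpa [abs_of_pos hσ] using hz
      have h5 := pow_le_pow_left₀ (norm_nonneg _) h4 2
      rw [Complex.sq_norm, normSq_apply, (sinh_re_im ζ).1, (sinh_re_im ζ).2] at h5
      have h6 := Real.self_le_sinh_iff.2 hζ0
      have h7 := Real.cosh_sq ζ.re
      have h8 := Real.sin_sq_add_cos_sq ζ.im
      have h9 : Real.sinh ζ.re ^ 2 ≤ (1 / 2) ^ 2 := by
        refine le_trans ?_ h5
        calc _ = Real.sinh ζ.re ^ 2 * (Real.sin ζ.im ^ 2 + Real.cos ζ.im ^ 2) := by rw [h8, mul_one]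
          _ ≤ _ := by nlinarith [sq_nonneg (Real.sin ζ.im)]
      have := (abs_le_of_sq_le_sq' h9 (by norm_num)).2
      linarith)
  simp only [hζ] at h3
  rw [mul_div_cancel₀ _ (by simpa using hσ')] at h3
  convert h3 using 3
  norm_num

/-- positivity on the imaginary axis -/
theorem pos {c : ℂ → ℂ} (hc : Differentiable ℂ c) {σ δ : ℝ} (hδ : 0 < δ)
    (h1 : ∀ t : ℝ, (c (t * I)).im = 0 ∧ 0 ≤ (c (t * I)).re)
    (h2 : ∀ z : ℂ, ‖z‖ < σ → ‖c z - c 0‖ ≤ δ) {s : ℝ} (hs : |s| < σ) :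
    ‖c s - c 0‖ ^ 2 ≤ (16 * δ / σ ^ 2 * s ^ 2) * ((c 0).re + 16 * δ / σ ^ 2 * s ^ 2) := by
  have hσ : 0 < σ := (abs_nonneg _).trans_lt hs
  have h3 : ∀ z ∈ ball (0 : ℂ) σ, ‖dslope c 0 z‖ ≤ δ / σ := fun z hz =>
    norm_dslope_le_div_of_mapsTo_ball hc.differentiableOn
      (fun w hw => mem_closedBall_iff_norm.2 (h2 w (mem_ball_zero_iff.1 hw))) hz
  set k := dslope c 0 0 with hk
  set M := 2 * δ / σ ^ 2 with hM
  have hM0 : 0 < M := by positivity
  have hk0 : ‖k‖ ≤ δ / σ := h3 0 (mem_ball_self hσ)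
  have h4 : ∀ z : ℂ, ‖z‖ < σ → ‖c z - c 0 - z * k‖ ≤ M * ‖z‖ ^ 2 := fun z hz => by
    have h5 := dist_le_div_mul_dist_of_mapsTo_ball (f := dslope c 0) (R₂ := 2 * (δ / σ))
      ((differentiableOn_dslope (ball_mem_nhds 0 hσ)).2 hc.differentiableOn)
      (fun w hw => mem_closedBall_iff_norm.2 ((norm_sub_le _ _).trans (by linarith [h3 w hw])))
      (mem_ball_zero_iff.2 hz)
    rw [dist_eq_norm, dist_zero_right] at h5
    have e : c z - c 0 - z * k = z * (dslope c 0 z - k) := by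
      rw [← sub_smul_dslope c 0 z]; simp [mul_sub]
    rw [e, norm_mul]
    calc _ ≤ ‖z‖ * (2 * (δ / σ) / σ * ‖z‖) := by gcongr
      _ = _ := by rw [hM]; field_simp
  have h0 := h1 0
  simp only [ofReal_zero, zero_mul] at h0
  have h5 : ∀ r : ℝ, |r| ≤ ‖k‖ → ‖c ((r / (2 * M) : ℝ) * I) - c 0 - (r / (2 * M) : ℝ) * I * k‖ ≤
      r ^ 2 / (4 * M) := fun r hr => by
    have e : ‖((r / (2 * M) : ℝ) : ℂ) * I‖ = |r| / (2 * M) := by
      rw [norm_mul, norm_I, mul_one, norm_real, Real.norm_eq_abs, abs_div,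
        abs_of_pos (by positivity : 0 < 2 * M)]
    refine (h4 _ ?_).trans (le_of_eq ?_)
    · rw [e, div_lt_iff₀ (by positivity)]
      refine (hr.trans hk0).trans_lt ?_
      rw [hM, div_lt_iff₀ hσ]
      field_simp
      linarith
    · rw [e, div_pow, sq_abs]; field_simp; norm_num
  have h6 : k.re = 0 := by
    have h7 := (abs_im_le_norm _).trans (h5 k.re (abs_re_le_norm k))
    simp only [sub_im, (h1 _).1, h0.1, mul_im, mul_re, ofReal_re, ofReal_im, I_re, I_im, mul_zero,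
      zero_mul, mul_one, sub_zero, add_zero, zero_add, zero_sub, abs_neg] at h7
    have h8 := (le_abs_self _).trans h7
    rw [div_mul_eq_mul_div, div_le_div_iff₀ (by positivity) (by positivity)] at h8
    exact pow_eq_zero_iff two_ne_zero |>.1 (le_antisymm (by nlinarith) (sq_nonneg _))
  have h7 : ‖k‖ ^ 2 ≤ 4 * M * (c 0).re := by
    have h8 := (re_le_norm _).trans (h5 k.im (abs_im_le_norm k))
    simp only [sub_re, mul_im, mul_re, ofReal_re, ofReal_im, I_re, I_im, mul_zero,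
      zero_mul, mul_one, sub_zero, add_zero, zero_sub] at h8
    have h9 := (h1 (k.im / (2 * M))).2
    have h10 : k.im ^ 2 / (4 * M) ≤ (c 0).re := by
      have : k.im / (2 * M) * k.im = 2 * (k.im ^ 2 / (4 * M)) := by field_simp; norm_num
      linarith
    rw [div_le_iff₀ (by positivity)] at h10
    rw [Complex.sq_norm, normSq_apply, h6]
    nlinarith
  have h8 := h4 s (by simpa using hs)
  have h9 : ‖c s - c 0‖ ≤ |s| * ‖k‖ + M * s ^ 2 := by
    have := norm_add_le (c s - c 0 - s * k) (s * k)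
    rw [sub_add_cancel, norm_mul] at this
    simp only [norm_real, Real.norm_eq_abs, sq_abs] at this h8
    linarith
  have e : 16 * δ / σ ^ 2 * s ^ 2 = 8 * (M * s ^ 2) := by rw [hM]; ring
  rw [e]
  have h10 := pow_le_pow_left₀ (norm_nonneg _) h9 2
  have h11 : (|s| * ‖k‖) ^ 2 ≤ 4 * (M * s ^ 2) * (c 0).re := by
    rw [mul_pow, sq_abs]
    nlinarith [sq_nonneg s]
  nlinarith [sq_nonneg (|s| * ‖k‖ - M * s ^ 2), sq_nonneg (M * s ^ 2)]

end Crest.Agent.N336.Eng.KA
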