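import Crest.Agent.N336.Eng.Strip
import Crest.Agent.N336.Eng.KA

/-!
# Row 336, engine, lemma (K): the two abstract steps (helper66)

* `close` : two ordered positive matrices with close logarithms have close modular flows
* `fin`   : from closeness on an imaginary segment and positivity to the real axis
-/

set_option autoImplicit false
set_option linter.unusedSectionVars false

open Matrix Finset Complex
open scoped ComplexOrder MatrixOrder Matrix.Norms.L2Operator InnerProductSpace ComplexConjugate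

namespace Crest.Agent.N336.Eng.K

open Crest.Agent.N336.Q

variable {n : Type} [Fintype n] [DecidableEq n]

/-- perturbation of an expectation value -/
lemma norm_inner_sub_le {h : Matrix n n ℂ} {v w : Vec n} (hv : ‖v‖ = 1) (hw : ‖w‖ = 1) :
    ‖⟪w, ap h w⟫_ℂ - ⟪v, ap h v⟫_ℂ‖ ≤ 2 * ‖h‖ * ‖w - v‖ := by
  have e : ⟪w, ap h w⟫_ℂ - ⟪v, ap h v⟫_ℂ = ⟪w - v, ap h w⟫_ℂ + ⟪v, ap h (w - v)⟫_ℂ := by
    rw [map_sub, inner_sub_left, inner_sub_right]; ring
  have h1 := norm_inner_ap_le h (w - v) w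
  have h2 := norm_inner_ap_le h v (w - v)
  rw [hw] at h1
  rw [hv] at h2
  rw [e]
  linarith [norm_add_le ⟪w - v, ap h w⟫_ℂ ⟪v, ap h (w - v)⟫_ℂ]

lemma norm_sub_sq_le {v w : Vec n} (hv : ‖v‖ = 1) (hw : ‖w‖ = 1) :
    ‖w - v‖ ^ 2 ≤ 2 * ‖1 - ⟪v, w⟫_ℂ‖ := by
  rw [norm_sub_rev, @norm_sub_sq ℂ, hv, hw]
  have := re_le_norm (1 - ⟪v, w⟫_ℂ)
  simp only [sub_re, one_re] at this
  simp only [RCLike.re_to_complex]
  linarith

/-- two ordered positive matrices with close logarithms have close flows -/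
theorem close {A B : Matrix n n ℂ} (hA : A.PosDef) (hle : A ≤ B) {χ : Vec n} (hχ : ‖χ‖ = 1)
    {m e σ : ℝ} (hm : 1 ≤ m) (h1 : qf χ B ≤ m) (h2 : qf χ A⁻¹ ≤ m)
    (h3 : qf χ (lg B) - qf χ (lg A) ≤ e) (he : 0 < e) (hσ : 0 < σ) (hσ' : 27 * σ ≤ 1)
    (hmσ : m ^ (4 * σ) ≤ 2) {t : ℝ} (ht : |t| ≤ 2 * σ) :
    ‖ap (cpw B (t * I) * cpw A (-(t * I))) χ - χ‖ ≤ 5 / 2 * e ^ (1 / 8 : ℝ) := by
  have hB := posDef_of_le hA hle
  have hm0 : 0 < m := by linarith
  set G : ℂ → ℂ := fun z => ⟪χ, ap (cpw B z * cpw A (-z)) χ⟫_ℂ with hG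
  have sG : SB G := (((SB.cpw B).mul (SB.cpw_neg A)).ap_const χ).inner χ
  have hu : ∀ z : ℂ, z.re = 0 → ‖ap (cpw B z * cpw A (-z)) χ‖ = 1 := fun z hz => by
    rw [ap_mul, norm_ap_cpw_im _ hz, norm_ap_cpw_im _ (by simpa using hz), hχ]
  have g1 : ∀ z : ℂ, -(1 / 2) ≤ z.re → z.re ≤ 0 → ‖G z‖ ≤ 1 := fun z ha hb =>
    three_max sG (by norm_num) ha hb (fun w hw => by
      refine (norm_inner_ap_le _ _ _).trans ?_
      rw [hχ, mul_one, mul_one, cpw_split hB, cpw_split' hA, hw, neg_re, hw, neg_neg,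
        Matrix.mul_assoc, ← Matrix.mul_assoc (pw B _)]
      refine (norm_mul_le _ _).trans (mul_le_one₀ (norm_cpw_im_le _ (by simp)) (norm_nonneg _) ?_)
      exact (norm_mul_le _ _).trans (mul_le_one₀ (norm_half_le' hA hle) (norm_nonneg _)
        (norm_cpw_im_le _ (by simp)))) fun w hw =>
      (norm_inner_le_norm (𝕜 := ℂ) _ _).trans (by rw [hu w hw, hχ, mul_one])
  have g2 : ∀ z : ℂ, 0 ≤ z.re → z.re ≤ 2 * σ → ‖G z‖ ≤ 2 := fun z ha hb => by
    have a1 := mom_pw hB hχ hm0 h1 (g := 2 * z.re) (by linarith) (by linarith)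
    have a2 := mom_pw_neg hA hχ hm0 h2 (g := 2 * z.re) (by linarith) (by linarith)
    have a3 : m ^ (2 * z.re) ≤ 2 :=
      (Real.rpow_le_rpow_of_exponent_le hm (by linarith)).trans hmσ
    have a4 := norm_ap_cpw_sq hB (conj z) χ
    have a5 := norm_ap_cpw_sq hA (-z) χ
    rw [conj_re] at a4
    rw [neg_re, mul_neg] at a5
    simp only [hG]
    rw [ap_mul, inner_ap_right, cpw_conjTranspose]
    refine (norm_inner_le_norm (𝕜 := ℂ) _ _).trans ?_
    nlinarith [sq_nonneg (‖ap (cpw B (conj z)) χ‖ - ‖ap (cpw A (-z)) χ‖)]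
  have hd : HasDerivAt G ⟪χ, ap (lg B - lg A) χ⟫_ℂ 0 := by
    have := (hasDerivAt_cpw_zero B).mul (hasDerivAt_cpw_neg_zero A)
    simp only [neg_zero, cpw_zero, Matrix.mul_one, Matrix.one_mul, ← sub_eq_add_neg] at this
    exact HasDerivAt.inner_ap this χ χ
  have hd' : ‖deriv G 0‖ ≤ e := by
    have b1 := im_inner_ap ((fr_isHermitian Real.log B).sub (fr_isHermitian Real.log A)) χ
    have b2 := re_inner_ap_nonneg (Matrix.le_iff.1 (lg_mono hA hle)) χ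
    have b3 := qf_sub (lg B) (lg A) χ
    rw [hd.deriv, ← re_add_im ⟪χ, ap (lg B - lg A) χ⟫_ℂ, b1, ofReal_zero, zero_mul, add_zero,
      norm_real, Real.norm_of_nonneg b2]
    exact b3.le.trans h3
  have h0 : G 0 = 1 := by
    simp only [hG, neg_zero, cpw_zero, Matrix.mul_one, ap_one, inner_self_eq_norm_sq_to_K, hχ]
    simp
  have h4 := KA.small sG.diff h0 he hσ hd' (fun z ha hb => g1 z (by linarith) hb)
    (fun z ha hb => (le_total z.re 0).elim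
      (fun h => (g1 z (by linarith) h).trans one_le_two) fun h => g2 z h hb) ht
  have h5 := norm_sub_sq_le hχ (hu (t * I) (by simp))
  have h6 : (27 * σ * e) ^ (1 / 4 : ℝ) ≤ e ^ (1 / 4 : ℝ) :=
    Real.rpow_le_rpow (by positivity) (mul_le_of_le_one_left he.le hσ') (by norm_num)
  have h7 : (e ^ (1 / 8 : ℝ)) ^ 2 = e ^ (1 / 4 : ℝ) := by
    rw [← Real.rpow_natCast, ← Real.rpow_mul he.le]; norm_num
  refine (abs_le_of_sq_le_sq' ?_ (by positivity)).2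
  rw [mul_pow, h7]
  have : 0 ≤ e ^ (1 / 4 : ℝ) := by positivity
  simp only [hG] at h4
  linarith

/-- from the imaginary segment to the real axis -/
theorem fin {c : ℂ → ℂ} (hc : Differentiable ℂ c) {J e σ : ℝ} (hJ : 0 < J) (he : 0 < e)
    (h0 : ‖c 0‖ ≤ J) (h1 : ∀ t : ℝ, (c (t * I)).im = 0 ∧ 0 ≤ (c (t * I)).re)
    (h2 : ∀ t : ℝ, |t| ≤ 2 * σ → ‖c (t * I) - c 0‖ ≤ 5 * J * e ^ (1 / 8 : ℝ))
    (h3 : ∀ z : ℂ, |z.re| ≤ 3 * σ → ‖c z‖ ≤ 2 * J) {s : ℝ} (hs : |s| < σ) :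
    ‖c s - c 0‖ ^ 2 ≤ (16 * (4 * J * e ^ (1 / 16 : ℝ)) / σ ^ 2 * s ^ 2) *
      ((c 0).re + 16 * (4 * J * e ^ (1 / 16 : ℝ)) / σ ^ 2 * s ^ 2) := by
  refine KA.pos hc (by positivity) h1 (fun z hz => ?_) hs
  refine (KA.seg (f := fun z => c z - c 0) (M := 3 * J) (hc.sub_const _)
    ((abs_nonneg _).trans_lt hs) (by positivity) h2
    (fun z hz => (norm_sub_le _ _).trans (by linarith [h3 z hz])) hz.le).trans ?_
  rw [← Real.mul_rpow (by positivity) (by positivity), ← Real.sqrt_eq_rpow,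
    Real.sqrt_le_left (by positivity)]
  have h7 : (e ^ (1 / 16 : ℝ)) ^ 2 = e ^ (1 / 8 : ℝ) := by
    rw [← Real.rpow_natCast, ← Real.rpow_mul he.le]; norm_num
  rw [mul_pow, h7]
  have : 0 ≤ J ^ 2 * e ^ (1 / 8 : ℝ) := by positivity
  nlinarith

end Crest.Agent.N336.Eng.K
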