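import Crest.Agent.N336.Eng.Strip
import Crest.Agent.N336.Q.Ent

/-!
# Row 336, CORE: purity, regularised marginals, pinching and the LKH inequality (helper21)
-/

set_option autoImplicit false
set_option linter.unusedSectionVars false

open Matrix Finset Polynomial
open scoped Kronecker ComplexOrder MatrixOrder Matrix.Norms.L2Operator InnerProductSpace

namespace Crest.Agent.N336.Eng

open Crest.Agent.N336.Q

section gen

variable {n : Type} [Fintype n] [DecidableEq n]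

lemma ap_fc_eq_of_commute {A B : Matrix n n ℂ} (hA : A.IsHermitian) (hB : B.IsHermitian)
    (h : Commute A B) {v : Vec n} (hv : ap A v = ap B v) (f : ℝ → ℂ) :
    ap (fc f A) v = ap (fc f B) v := by
  obtain ⟨p, h1, h2⟩ := exists_poly₂ f hA hB
  rw [h1, h2]
  have hk : ∀ k : ℕ, ap (A ^ k) v = ap (B ^ k) v := fun k => by
    induction k with
    | zero => simp
    | succ k ih =>
      rw [pow_succ, ap_mul, hv, ← ap_mul, (h.pow_left k).eq, ap_mul, ih, ← ap_mul, ← pow_succ']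
  clear h1 h2
  induction p using Polynomial.induction_on' with
  | add p q hp hq => rw [map_add, map_add (aeval B), ap_add, ap_add, hp, hq]
  | monomial k c =>
    simp only [aeval_monomial, Algebra.algebraMap_eq_smul_one, Matrix.smul_mul, Matrix.one_mul,
      ap_smul, hk]

/-- operator Cauchy-Schwarz -/
lemma norm_sum_le_one {K : Type*} [Fintype K] {a b : K → Matrix n n ℂ}
    (ha : ∑ k, (a k)ᴴ * a k = 1) (hb : ∑ k, (b k)ᴴ * b k = 1) : ‖∑ k, (a k)ᴴ * b k‖ ≤ 1 := by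
  set T := ∑ k, (a k)ᴴ * b k with hT
  refine norm_le_one_of_le ?_
  have h1 := posSemidef_sum univ fun k _ => posSemidef_conjTranspose_mul_self (b k - a k * T)
  have h2 : Tᴴ = ∑ k, (b k)ᴴ * a k := by simp [hT, conjTranspose_sum]
  have h3 : ∑ k, (b k - a k * T)ᴴ * (b k - a k * T) = 1 - Tᴴ * T := by
    have : ∀ k, (b k - a k * T)ᴴ * (b k - a k * T) = (b k)ᴴ * b k - (b k)ᴴ * a k * T -
        Tᴴ * ((a k)ᴴ * b k) + Tᴴ * ((a k)ᴴ * a k) * T := fun k => by
      simp only [conjTranspose_sub, conjTranspose_mul]; noncomm_ring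
    simp only [this, Finset.sum_add_distrib, Finset.sum_sub_distrib, ← Matrix.sum_mul,
      ← Matrix.mul_sum, ha, hb, ← hT, ← h2, Matrix.mul_one]
    abel
  rw [h3] at h1
  exact Matrix.le_iff.2 h1

end gen

variable {ι : Type} [Fintype ι] [DecidableEq ι] {d : ι → Type} [∀ x, Fintype (d x)]
  [∀ x, DecidableEq (d x)] [∀ x, Nonempty (d x)]

/-! ### purity -/

lemma ap_emb_symm {κ : Type} [Fintype κ] [DecidableEq κ] (e : κ ↪ ι) (m : Q.Op (sub e d))
    (χ : Vec (Cfg d)) (p : Cfg (sub e d) × Rest (rg e) d) :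
    ap (emb e m) χ ((eqv e d).symm p) = (m * vm e χ) p.1 p.2 := by
  rw [ap_apply, ← Equiv.sum_comp (eqv e d).symm, emb_def]
  simp [Fintype.sum_prod_type, mul_apply, vm, one_apply, -eqv_apply]

lemma ap_emb_cs_symm {κ : Type} [Fintype κ] [DecidableEq κ] (e : κ ↪ ι)
    (m : Matrix (Rest (rg e) d) (Rest (rg e) d) ℂ) (χ : Vec (Cfg d))
    (p : Cfg (sub e d) × Rest (rg e) d) :
    ap (emb (cs e) m) χ ((eqv e d).symm p) = (vm e χ * mᵀ) p.1 p.2 := by
  rw [ap_apply, ← Equiv.sum_comp (eqv e d).symm, emb_cs]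
  simp [Fintype.sum_prod_type, mul_apply, vm, one_apply, mul_comm, -eqv_apply]

lemma ap_mg_compl (X : Finset ι) (χ : Vec (Cfg d)) :
    ap (mg X (pj χ)) χ = ap (mg Xᶜ (pj χ)) χ := by
  have h2 : rg (cs (sb X)) = Xᶜ := by rw [rg_cs, rg_sb]
  rw [← h2, ← emb_red_eq_mg, mg]
  ext σ
  obtain ⟨p, rfl⟩ := (eqv (sb X) d).symm.surjective σ
  refine (ap_emb_symm _ _ _ _).trans (Eq.trans ?_ (ap_emb_cs_symm _ _ _ _).symm)
  rw [red_cs_kb, red_kb, transpose_transpose, Matrix.mul_assoc]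

/-- (e1) functions of complementary marginals agree on the pure state -/
theorem ap_fc_mg_compl (f : ℝ → ℂ) (X : Finset ι) (χ : Vec (Cfg d)) :
    ap (fc f (mg X (pj χ))) χ = ap (fc f (mg Xᶜ (pj χ))) χ :=
  ap_fc_eq_of_commute (mg_isHermitian _ (pj_isHermitian χ)) (mg_isHermitian _ (pj_isHermitian χ))
    ((supp_mg _ _).commute (supp_mg _ _) disjoint_compl_right) (ap_mg_compl X χ) f

lemma fc_rq (f : ℝ → ℂ) (χ : Vec (Cfg d)) (X : Finset ι) (ε : ℝ) :
    fc f (rq χ X ε) = fc (fun x => f (x + ε)) (mg X (pj χ)) :=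
  fc_add_smul_one (mg_isHermitian _ (pj_isHermitian χ)) f ε

theorem ap_fc_rq_compl (f : ℝ → ℂ) (X : Finset ι) (χ : Vec (Cfg d)) (ε : ℝ) :
    ap (fc f (rq χ X ε)) χ = ap (fc f (rq χ Xᶜ ε)) χ := by
  rw [fc_rq, fc_rq, ap_fc_mg_compl]

theorem ap_cpw_rq_compl (X : Finset ι) (χ : Vec (Cfg d)) (ε : ℝ) (z : ℂ) :
    ap (cpw (rq χ X ε) z) χ = ap (cpw (rq χ Xᶜ ε) z) χ := ap_fc_rq_compl _ X χ ε

lemma supp_rq (χ : Vec (Cfg d)) (X : Finset ι) (ε : ℝ) : Supp X (rq χ X ε) :=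
  (supp_mg _ _).add ((Supp.one X).smul (ε : ℂ))

lemma rq_posDef (χ : Vec (Cfg d)) (X : Finset ι) {ε : ℝ} (hε : 0 < ε) : (rq χ X ε).PosDef :=
  PosDef.posSemidef_add (mg_posSemidef X (pj_posSemidef χ)) (PosDef.one.smul hε)

lemma rq_isHermitian (χ : Vec (Cfg d)) (X : Finset ι) (ε : ℝ) : (rq χ X ε).IsHermitian := by
  refine (mg_isHermitian _ (pj_isHermitian χ)).add ?_
  unfold Matrix.IsHermitian; simp

theorem ap_inv_rq_compl (X : Finset ι) (χ : Vec (Cfg d)) {ε : ℝ} (hε : 0 < ε) :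
    ap (rq χ X ε)⁻¹ χ = ap (rq χ Xᶜ ε)⁻¹ χ := by
  rw [← cpw_neg_one (rq_posDef χ X hε), ← cpw_neg_one (rq_posDef χ Xᶜ hε), ap_cpw_rq_compl]

theorem ap_rq_compl (X : Finset ι) (χ : Vec (Cfg d)) (ε : ℝ) :
    ap (rq χ X ε) χ = ap (rq χ Xᶜ ε) χ := by
  rw [rq, rq, ap_add, ap_add, ap_mg_compl]

lemma mg_le_rq (χ : Vec (Cfg d)) (X : Finset ι) {ε : ℝ} (hε : 0 ≤ ε) :
    mg X (pj χ) ≤ rq χ X ε := by
  rw [Matrix.le_iff, rq, add_sub_cancel_left]; exact PosSemidef.one.smul hε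

lemma rq_mono (χ : Vec (Cfg d)) (X : Finset ι) {ε ε' : ℝ} (h : ε ≤ ε') :
    rq χ X ε ≤ rq χ X ε' := by
  rw [Matrix.le_iff, rq, rq, add_sub_add_left_eq_sub, ← sub_smul]
  exact PosSemidef.one.smul (sub_nonneg.2 h)

lemma commute_mg_rq (χ : Vec (Cfg d)) (X : Finset ι) (ε : ℝ) :
    Commute (mg X (pj χ)) (rq χ X ε) :=
  (Commute.refl _).add_right ((Commute.one_right _).smul_right ε)

lemma commute_rq_rq (χ : Vec (Cfg d)) (X : Finset ι) (ε ε' : ℝ) :
    Commute (rq χ X ε) (rq χ X ε') :=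
  (commute_mg_rq χ X ε').add_left ((Commute.one_left _).smul_left ε)

lemma mg_one (X : Finset ι) : mg X (1 : Q.Op d) = (dim d Xᶜ : ℂ) • 1 := (Supp.one X).mg_eq

lemma rq_eq_mg (χ : Vec (Cfg d)) (X : Finset ι) (c : ℝ) :
    rq χ X (c * dim d Xᶜ) = mg X (pj χ + c • 1) := by
  rw [mg_add, ← Complex.coe_smul, mg_smul, mg_one, smul_smul, rq, ← Complex.coe_smul]
  norm_cast

lemma re_trace_rq (χ : Vec (Cfg d)) (X : Finset ι) (ε : ℝ) :
    (trace (rq χ X ε)).re = dim d Xᶜ * ‖χ‖ ^ 2 + ε * dim d univ := by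
  rw [rq, trace_add, trace_mg, trace_pj, trace_smul, trace_one, card_cfg]
  simp [← Complex.ofReal_pow]

/-- (e3) -/
lemma inner_eq_trace_mg {X : Finset ι} {M : Q.Op d} (h : Supp X M) (χ : Vec (Cfg d)) :
    ⟪χ, ap M χ⟫_ℂ = trace (M * mg X (pj χ)) / dim d Xᶜ := by
  rw [h.trace_mul_mg, trace_mul_kb, mul_div_cancel_left₀ _ (dim_ne_zero _)]

lemma qf_eq_trace_mg {X : Finset ι} {M : Q.Op d} (h : Supp X M) (χ : Vec (Cfg d)) :
    qf χ M = (trace (M * mg X (pj χ))).re / dim d Xᶜ := by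
  rw [qf, inner_eq_trace_mg h, Complex.div_natCast_re]

lemma qf_fr_mg (g : ℝ → ℝ) (X : Finset ι) (χ : Vec (Cfg d)) : qf χ (fr g (mg X (pj χ))) =
    ∑ i, g (ev (red (sb X) (pj χ)) i) * ev (red (sb X) (pj χ)) i := by
  have hr := red_isHermitian (sb X) (pj_isHermitian χ)
  rw [qf, ← trace_mul_kb, mg, ← emb_fr _ _ hr, trace_emb_mul]
  conv_lhs => arg 1; arg 1; arg 2; rw [← fc_id hr]
  rw [fc_mul, trace_fc]
  simp

lemma SV_eq_SX (χ : Vec (Cfg d)) (X : Finset ι) : SV χ X = SX X (pj χ) := rfl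

lemma SV_compl (χ : Vec (Cfg d)) (X : Finset ι) : SV χ Xᶜ = SV χ X := SX_compl X χ

/-- (e2) -/
lemma SV_eq (χ : Vec (Cfg d)) (X : Finset ι) : SV χ X = -qf χ (lg (mg X (pj χ))) := by
  rw [SV_eq_SX, SX_eq _ (pj_isHermitian χ), trace_kb_mul]

lemma qf_lg_rq (χ : Vec (Cfg d)) (X : Finset ι) {ε : ℝ} (hε : 0 < ε) :
    -SV χ X ≤ qf χ (lg (rq χ X ε)) ∧ qf χ (lg (rq χ X ε)) ≤ -SV χ X + ε * dim d X := by
  have h1 : qf χ (lg (rq χ X ε)) = qf χ (fr (fun x => Real.log (x + ε)) (mg X (pj χ))) := by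
    rw [lg, fr, fc_rq]
  have hp := ev_nonneg (red_posSemidef (sb X) (pj_posSemidef χ))
  rw [h1, SV_eq, neg_neg, lg, qf_fr_mg, qf_fr_mg]
  constructor
  · refine Finset.sum_le_sum fun i _ => ?_
    rcases (hp i).eq_or_lt with h0 | h0
    · simp [← h0]
    · gcongr; linarith
  · rw [← card_sub_sb, mul_comm ε, ← nsmul_eq_mul, ← Finset.card_univ, ← Finset.sum_const,
      ← Finset.sum_add_distrib]
    refine Finset.sum_le_sum fun i _ => ?_
    rcases (hp i).eq_or_lt with h0 | h0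
    · simp [← h0, hε.le]
    · set x := ev (red (sb X) (pj χ)) i
      have h2 := Real.log_le_sub_one_of_pos (show 0 < (x + ε) / x by positivity)
      rw [Real.log_div (by positivity) h0.ne'] at h2
      have h3 : ((x + ε) / x - 1) * x = ε := by field_simp; ring
      nlinarith

/-- `r^{conj z} ρ r^{z}`-type sandwiches are contractions on the line `Re z = -1/2` -/
lemma cpw_mg_cpw_le (χ : Vec (Cfg d)) (X : Finset ι) {ε : ℝ} (hε : 0 < ε) {z : ℂ}
    (hz : z.re = -(1 / 2)) :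
    cpw (rq χ X ε) z * mg X (pj χ) * (cpw (rq χ X ε) z)ᴴ ≤ 1 := by
  have hr := rq_posDef χ X hε
  have h1 := conj_mono (mg_le_rq χ X hε.le) (cpw (rq χ X ε) z)ᴴ
  rw [conjTranspose_conjTranspose] at h1
  refine h1.trans (le_of_eq ?_)
  conv_lhs => arg 1; arg 2; rw [← cpw_one hr]
  rw [cpw_conjTranspose, cpw_mul_cpw, cpw_mul_cpw, add_right_comm, Complex.add_conj, hz]
  simp

/-- `‖M r^{-1/2 + it} χ‖² ≤ tr (Mᴴ M) / dim Xᶜ` -/
lemma norm_ap_mul_cpw_rq_sq_le {X : Finset ι} {M : Q.Op d} (h : Supp X M) (χ : Vec (Cfg d))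
    {ε : ℝ} (hε : 0 < ε) {z : ℂ} (hz : z.re = -(1 / 2)) :
    ‖ap (M * cpw (rq χ X ε) z) χ‖ ^ 2 ≤ (trace (Mᴴ * M)).re / dim d Xᶜ := by
  have hs := h.mul (supp_cpw (supp_rq χ X ε) (rq_isHermitian χ X ε) z)
  rw [norm_ap_sq, ← qf, qf_eq_trace_mg (hs.conjTranspose.mul hs)]
  refine div_le_div_of_nonneg_right ?_ (dim_pos_real _).le
  have h1 := re_trace_mul_mono (cpw_mg_cpw_le χ X hε hz) (posSemidef_conjTranspose_mul_self M)
  rw [Matrix.one_mul] at h1
  refine le_trans (le_of_eq ?_) h1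
  rw [conjTranspose_mul]
  simp only [Matrix.mul_assoc]
  rw [trace_mul_comm, trace_mul_comm (cpw _ z)]
  simp only [Matrix.mul_assoc]
  rw [trace_mul_comm Mᴴ, trace_mul_comm (mg X _)]
  simp only [Matrix.mul_assoc]
  rw [trace_mul_comm M]
  simp only [Matrix.mul_assoc]
  rw [trace_mul_comm (cpw _ z)]
  simp only [Matrix.mul_assoc]
  rw [trace_mul_comm (mg X _)]
  simp only [Matrix.mul_assoc]

/-- `⟨χ, N r⁻¹ χ⟩ ≤ tr N / dim Xᶜ` -/
lemma qf_mul_inv_rq_le {X : Finset ι} {N : Q.Op d} (h : Supp X N) (hN : N.PosSemidef)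
    (χ : Vec (Cfg d)) {ε : ℝ} (hε : 0 < ε) :
    qf χ (N * (rq χ X ε)⁻¹) ≤ (trace N).re / dim d Xᶜ := by
  have hr := rq_posDef χ X hε
  rw [qf_eq_trace_mg (h.mul (supp_inv (supp_rq χ X ε) hr))]
  refine div_le_div_of_nonneg_right ?_ (dim_pos_real _).le
  have h1 := mul_le_mul_comm (mg_le_rq χ X hε.le) hr.inv.posSemidef
    (commute_inv hr (commute_mg_rq χ X ε)) (commute_inv hr (Commute.refl _))
  rw [Matrix.mul_nonsing_inv _ ((isUnit_iff_isUnit_det _).1 hr.isUnit)] at h1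
  have h2 := re_trace_mul_mono h1 hN
  rwa [Matrix.one_mul, trace_mul_comm, (commute_inv hr (commute_mg_rq χ X ε)).eq,
    ← Matrix.mul_assoc] at h2

/-! ### matrix units -/

/-- matrix units of the subsystem `B` -/
noncomputable def mu (B : Finset ι) (a b : Cfg (sub (sb B) d)) : Q.Op d :=
  lift B (Matrix.single a b 1)

lemma supp_mu (B : Finset ι) (a b : Cfg (sub (sb B) d)) : Supp B (mu B a b) := supp_lift _ _

lemma mu_mul (B : Finset ι) (a b c e : Cfg (sub (sb B) d)) :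
    mu B a b * mu B c e = if b = c then mu B a e else 0 := by
  rw [mu, mu, ← map_mul]
  split_ifs with h
  · subst h; rw [single_mul_single_same, one_mul, mu]
  · rw [single_mul_single_of_ne _ _ _ _ h, map_zero]

lemma mu_conjTranspose (B : Finset ι) (a b : Cfg (sub (sb B) d)) : (mu B a b)ᴴ = mu B b a := by
  rw [mu, ← emb_conjTranspose, conjTranspose_single, star_one, mu]

lemma sum_mu (B : Finset ι) : ∑ a, mu B a a = (1 : Q.Op d) := by
  simp only [mu, ← map_sum]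
  rw [← map_one (lift (d := d) B)]
  congr 1
  ext i j
  simp [Matrix.sum_apply, single_apply, one_apply, ← ite_and]
  split_ifs with h
  · subst h; simp [Finset.filter_eq']
  · simp [h]

/-- coefficients of an operator with respect to the matrix units -/
noncomputable def co (B : Finset ι) (x : Q.Op d) (i j : Cfg (sub (sb B) d)) : Q.Op d :=
  ∑ k, mu B k i * x * mu B j k

lemma co_mul_mu (B : Finset ι) (x : Q.Op d) (i j a b : Cfg (sub (sb B) d)) :
    co B x i j * mu B a b = mu B a i * x * mu B j b := by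
  simp [co, Matrix.sum_mul, Matrix.mul_assoc, mu_mul]

lemma mu_mul_co (B : Finset ι) (x : Q.Op d) (i j a b : Cfg (sub (sb B) d)) :
    mu B a b * co B x i j = mu B a i * x * mu B j b := by
  simp [co, Matrix.mul_sum, ← Matrix.mul_assoc, mu_mul]

lemma sum_co_mul (B : Finset ι) (x : Q.Op d) : ∑ i, ∑ j, co B x i j * mu B i j = x := by
  simp only [co_mul_mu, ← Matrix.mul_sum, ← Matrix.sum_mul, sum_mu, Matrix.mul_one,
    Matrix.one_mul]

lemma co_mul (B : Finset ι) (x y : Q.Op d) (i j : Cfg (sub (sb B) d)) :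
    co B (x * y) i j = ∑ l, co B x i l * co B y l j := by
  have : ∀ l, co B x i l * co B y l j = ∑ k, mu B k i * x * mu B l l * y * mu B j k := fun l => by
    conv_lhs => arg 2; rw [co]
    rw [Matrix.mul_sum]
    exact Finset.sum_congr rfl fun k _ => by
      rw [← Matrix.mul_assoc, ← Matrix.mul_assoc, co_mul_mu]
  simp only [this]
  rw [Finset.sum_comm, co]
  refine Finset.sum_congr rfl fun k _ => ?_
  rw [← Matrix.sum_mul, ← Matrix.sum_mul, ← Matrix.mul_sum, sum_mu, Matrix.mul_one,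
    Matrix.mul_assoc (mu B k i) x y]

lemma co_conjTranspose (B : Finset ι) (x : Q.Op d) (i j : Cfg (sub (sb B) d)) :
    (co B x i j)ᴴ = co B xᴴ j i := by
  simp [co, conjTranspose_sum, mu_conjTranspose, Matrix.mul_assoc]

lemma supp_co (B : Finset ι) (x : Q.Op d) (i j : Cfg (sub (sb B) d)) : Supp Bᶜ (co B x i j) := by
  refine supp_of_commute fun N hN => ?_
  rw [compl_compl] at hN
  obtain ⟨m, rfl⟩ := hN.exists_lift
  rw [matrix_eq_sum_single m]
  simp only [map_sum]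
  refine Commute.sum_right _ _ _ fun a _ => Commute.sum_right _ _ _ fun b _ => ?_
  have : lift B (Matrix.single a b (m a b)) = m a b • mu B a b := by
    rw [mu, ← map_smul]; simp
  rw [this]
  exact Commute.smul_right ((co_mul_mu B x i j a b).trans (mu_mul_co B x i j a b).symm) _

lemma sum_co (B : Finset ι) (x : Q.Op d) : ∑ i, co B x i i = mg Bᶜ x := by
  refine (Supp.sum fun i _ => supp_co B x i i).ext_trace (supp_mg _ _) fun A hA => ?_
  rw [hA.trace_mul_mg, compl_compl, ← card_sub_sb]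
  have : ∀ i k, trace (A * (mu B k i * x * mu B i k)) = trace (mu B i i * (A * x)) := fun i k => by
    rw [← Matrix.mul_assoc, trace_mul_comm, ← Matrix.mul_assoc A,
      (hA.commute (supp_mu B k i) disjoint_compl_left).eq, ← Matrix.mul_assoc, ← Matrix.mul_assoc,
      mu_mul, if_pos rfl, Matrix.mul_assoc]
  simp only [co, Matrix.mul_sum, trace_sum, this, Finset.sum_const, Finset.card_univ,
    nsmul_eq_mul]
  rw [← Finset.mul_sum, ← trace_sum, ← Matrix.sum_mul, sum_mu, Matrix.one_mul]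

lemma co_eq_mg (B : Finset ι) (x : Q.Op d) (i j : Cfg (sub (sb B) d)) :
    co B x i j = mg Bᶜ (x * mu B j i) := by
  rw [← sum_co]
  simp only [co, Matrix.mul_assoc, mu_mul]
  rw [Finset.sum_comm]
  simp

lemma supp_co_of {A B : Finset ι} {x : Q.Op d} (h : Supp (A ∪ B) x) (i j : Cfg (sub (sb B) d)) :
    Supp A (co B x i j) := by
  rw [co_eq_mg, mg_eq_E]
  refine ((h.mul ((supp_mu B j i).mono subset_union_right)).E_inter.smul _).mono fun y => ?_
  simp only [mem_inter, mem_compl, mem_union]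
  tauto

/-- pinching -/
theorem le_dim_smul_mg (B : Finset ι) {M : Q.Op d} (hM : M.PosSemidef) :
    M ≤ (dim d B : ℂ) • mg Bᶜ M := by
  have hD := dim_ne_zero (d := d) B
  have h1 : ∑ a, mu B a a * M * mu B a a ≤ mg Bᶜ M := by
    rw [← sum_co]
    refine Finset.sum_le_sum fun a _ => ?_
    refine Finset.single_le_sum (f := fun k => mu B k a * M * mu B a k) (fun k _ => ?_) (mem_univ a)
    have := hM.mul_mul_conjTranspose_same (mu B k a)
    rw [mu_conjTranspose] at this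
    exact this.nonneg
  have h2 := posSemidef_sum univ fun a _ =>
    hM.conjTranspose_mul_mul_same (mu B a a - (dim d B : ℂ)⁻¹ • 1)
  have h3 : ∑ a, (mu B a a - (dim d B : ℂ)⁻¹ • 1)ᴴ * M * (mu B a a - (dim d B : ℂ)⁻¹ • 1) =
      ∑ a, mu B a a * M * mu B a a - (dim d B : ℂ)⁻¹ • M := by
    simp only [conjTranspose_sub, conjTranspose_smul, mu_conjTranspose, conjTranspose_one,
      Matrix.sub_mul, Matrix.mul_sub, Matrix.smul_mul, Matrix.mul_smul, Matrix.one_mul,
      Finset.sum_sub_distrib, ← Finset.smul_sum, ← Matrix.sum_mul,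
      ← Matrix.mul_sum, sum_mu, star_inv₀, star_natCast, smul_sub, Finset.sum_const,
      Finset.card_univ, card_sub_sb, ← Nat.cast_smul_eq_nsmul ℂ, smul_smul,
      inv_mul_cancel_right₀ hD, mul_one]
    abel
  rw [h3] at h2
  have h4 := smul_le_smul_of_nonneg_left ((Matrix.le_iff.2 h2).trans h1)
    (show (0 : ℂ) ≤ (dim d B : ℂ) by positivity)
  rwa [smul_smul, mul_inv_cancel₀ hD, one_smul] at h4

lemma mg_compl_mg {X y : Finset ι} (h : Disjoint X y) (w : Q.Op d) :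
    mg yᶜ (mg (X ∪ y) w) = mg X w := by
  have h1 : (yᶜ ∪ (X ∪ y))ᶜ = ∅ := by ext a; simp; tauto
  have h2 : yᶜ ∩ (X ∪ y) = X := by
    ext a
    have : a ∈ X → a ∉ y := fun h' => Finset.disjoint_left.1 h h'
    simp; tauto
  rw [mg_mg, h1, h2]; simp

/-- (e4) -/
theorem mg_union_le {X y : Finset ι} (h : Disjoint X y) {w : Q.Op d} (hw : w.PosSemidef) :
    mg (X ∪ y) w ≤ (dim d y : ℂ) • mg X w := by
  have := le_dim_smul_mg y (mg_posSemidef (X ∪ y) hw)
  rwa [mg_compl_mg h] at this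

lemma mg_posDef (X : Finset ι) {w : Q.Op d} (hw : w.PosDef) : (mg X w).PosDef := by
  have h1 := posDef_of_le hw (le_dim_smul_mg Xᶜ hw.posSemidef)
  rw [compl_compl] at h1
  have h2 := h1.smul (show (0 : ℂ) < (dim d Xᶜ : ℂ)⁻¹ by
    have := dim_pos (d := d) Xᶜ; positivity)
  rwa [smul_smul, inv_mul_cancel₀ (dim_ne_zero _), one_smul] at h2

/-- the swap inequality behind LKH -/
theorem norm_mul_le_one {A B C : Finset ι} (hAC : Disjoint A C) {x Y : Q.Op d}
    (hx : Supp (A ∪ B) x) (hY : Supp (C ∪ B) Y) (h1 : mg Bᶜ (x * xᴴ) = 1)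
    (h2 : mg Bᶜ (Yᴴ * Y) = 1) : ‖Y * x‖ ≤ 1 := by
  obtain ⟨o⟩ : Nonempty (Cfg (sub (sb B) d)) := inferInstance
  have e1 : ∑ i, ∑ j, co B x i j * (co B x i j)ᴴ = 1 := by
    simp only [co_conjTranspose, ← co_mul, sum_co, h1]
  have e2 : ∑ k, ∑ i, (co B Y k i)ᴴ * co B Y k i = 1 := by
    rw [Finset.sum_comm]
    simp only [co_conjTranspose, ← co_mul, sum_co, h2]
  have := norm_sum_le_one (K := Cfg (sub (sb B) d) × Cfg (sub (sb B) d) × Cfg (sub (sb B) d))
    (a := fun t => (co B x t.2.1 t.2.2)ᴴ * mu B o t.1)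
    (b := fun t => co B Y t.1 t.2.1 * mu B o t.2.2) ?_ ?_
  · convert this using 2
    rw [← sum_co_mul B (Y * x)]
    simp only [Fintype.sum_prod_type, co_mul, Matrix.sum_mul]
    refine Finset.sum_congr rfl fun k _ => ?_
    rw [Finset.sum_comm]
    refine Finset.sum_congr rfl fun i _ => Finset.sum_congr rfl fun j _ => ?_
    rw [conjTranspose_mul, conjTranspose_conjTranspose, mu_conjTranspose,
      Matrix.mul_assoc (mu B k o), ← Matrix.mul_assoc (co B x i j),
      ((supp_co_of hx i j).commute (supp_co_of hY k i) hAC).eq, ← Matrix.mul_assoc (mu B k o),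
      ((supp_mu B k o).commute ((supp_co B Y k i).mul (supp_co B x i j))
        disjoint_compl_right).eq, Matrix.mul_assoc _ (mu B k o), mu_mul, if_pos rfl]
  · have : ∀ k i j : Cfg (sub (sb B) d),
        ((co B x i j)ᴴ * mu B o k)ᴴ * ((co B x i j)ᴴ * mu B o k) =
        mu B k o * (co B x i j * (co B x i j)ᴴ) * mu B o k := fun k i j => by
      simp only [conjTranspose_mul, conjTranspose_conjTranspose, mu_conjTranspose,
        Matrix.mul_assoc]
    simp only [Fintype.sum_prod_type, this, ← Matrix.sum_mul, ← Matrix.mul_sum, e1,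
      Matrix.mul_one, mu_mul, if_true, sum_mu]
  · have : ∀ k i j : Cfg (sub (sb B) d),
        (co B Y k i * mu B o j)ᴴ * (co B Y k i * mu B o j) =
        mu B j o * ((co B Y k i)ᴴ * co B Y k i) * mu B o j := fun k i j => by
      simp only [conjTranspose_mul, mu_conjTranspose, Matrix.mul_assoc]
    simp only [Fintype.sum_prod_type, this]
    rw [← sum_mu B, Finset.sum_congr rfl fun k _ => Finset.sum_comm, Finset.sum_comm]
    simp only [← Matrix.sum_mul, ← Matrix.mul_sum, e2, Matrix.mul_one, mu_mul, if_true]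

/-- (e5) the operator extension of strong subadditivity (Lin, Kim, Hsieh) -/
theorem lkh {A B C : Finset ι} (hAB : Disjoint A B) (hAC : Disjoint A C) (hBC : Disjoint B C)
    {w w' : Q.Op d} (hw : w.PosDef) (hw' : w'.PosDef) :
    mg (A ∪ B) w * (mg C w')⁻¹ ≤ mg A w * (mg (B ∪ C) w')⁻¹ := by
  have pA := mg_posDef A hw
  have pAB := mg_posDef (A ∪ B) hw
  have pC := mg_posDef C hw'
  have pBC := mg_posDef (B ∪ C) hw'
  have sA := fun s => supp_pw (supp_mg A w) pA.1 s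
  have sAB := fun s => supp_pw (supp_mg (A ∪ B) w) pAB.1 s
  have sC := fun s => supp_pw (supp_mg C w') pC.1 s
  have sBC := fun s => supp_pw (supp_mg (B ∪ C) w') pBC.1 s
  have hA : A ⊆ Bᶜ := le_compl_iff_disjoint_right.2 hAB
  have hC : C ⊆ Bᶜ := le_compl_iff_disjoint_left.2 hBC
  have half : ∀ {M : Q.Op d}, M.PosDef → pw M (1 / 2) * pw M (1 / 2) = M := fun h => by
    rw [pw_mul_pw h, add_halves, pw_one h.1]
  have sand : ∀ {M : Q.Op d}, M.PosDef → pw M (-(1 / 2)) * M * pw M (-(1 / 2)) = 1 :=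
    fun {M} h => by
      conv_lhs => arg 1; arg 2; rw [← pw_one h.1]
      rw [pw_mul_pw h, pw_mul_pw h, ← pw_zero M]; norm_num
  have nhalf : ∀ {M : Q.Op d}, M.PosDef → pw M (-(1 / 2)) * pw M (-(1 / 2)) = M⁻¹ := fun h => by
    rw [pw_mul_pw h, ← pw_neg_one h]; norm_num
  have key := norm_mul_le_one hAC (x := pw (mg A w) (-(1 / 2)) * pw (mg (A ∪ B) w) (1 / 2))
    (Y := pw (mg (B ∪ C) w') (1 / 2) * pw (mg C w') (-(1 / 2)))
    (((sA _).mono subset_union_left).mul (sAB _))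
    (((sBC _).mono (union_comm B C).subset).mul ((sC _).mono subset_union_left)) ?_ ?_
  · rw [← l2_opNorm_conjTranspose] at key
    have h1 := conj_mono (le_one_of_norm_le key)
      (pw (mg (B ∪ C) w') (-(1 / 2)) * pw (mg A w) (1 / 2))
    have c1 := ((sAB (1 / 2)).commute (sC (-(1 / 2))) (disjoint_union_left.2 ⟨hAC, hBC⟩)).eq
    have c2 := fun s t => ((sA s).commute (sC t) hAC).eq
    have c3 := fun s t => ((sA s).commute (sBC t) (disjoint_union_right.2 ⟨hAB, hAC⟩)).eq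
    have e : (pw (mg (B ∪ C) w') (1 / 2) * pw (mg C w') (-(1 / 2)) *
        (pw (mg A w) (-(1 / 2)) * pw (mg (A ∪ B) w) (1 / 2)))ᴴ *
        (pw (mg (B ∪ C) w') (-(1 / 2)) * pw (mg A w) (1 / 2)) =
        pw (mg (A ∪ B) w) (1 / 2) * pw (mg C w') (-(1 / 2)) := by
      simp only [conjTranspose_mul, pw_conjTranspose, Matrix.mul_assoc]
      rw [← Matrix.mul_assoc (pw (mg (B ∪ C) w') _), pw_mul_neg pBC, Matrix.one_mul, ← c2,
        ← Matrix.mul_assoc (pw (mg A w) _), pw_neg_mul pA, Matrix.one_mul]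
    rw [conjTranspose_conjTranspose, Matrix.mul_assoc, Matrix.mul_assoc, e, ← Matrix.mul_assoc,
      Matrix.mul_one] at h1
    have e' := congrArg conjTranspose e
    rw [conjTranspose_mul, conjTranspose_conjTranspose] at e'
    rw [e'] at h1
    convert h1 using 1
    · rw [conjTranspose_mul, pw_conjTranspose, pw_conjTranspose, ← c1, Matrix.mul_assoc,
        ← Matrix.mul_assoc (pw (mg C w') _), ← c1, Matrix.mul_assoc, nhalf pC, ← Matrix.mul_assoc,
        half pAB]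
    · rw [conjTranspose_mul, pw_conjTranspose, pw_conjTranspose, Matrix.mul_assoc,
        ← Matrix.mul_assoc (pw (mg (B ∪ C) w') _), pw_mul_pw pBC, ← c3, ← Matrix.mul_assoc,
        half pA, ← pw_neg_one pBC]
      norm_num
  · rw [conjTranspose_mul, pw_conjTranspose, pw_conjTranspose, Matrix.mul_assoc,
      ← Matrix.mul_assoc (pw (mg (A ∪ B) w) _), half pAB, ((sA _).mono hA).mg_mul,
      ((sA _).mono hA).mg_mul', mg_compl_mg hAB, ← Matrix.mul_assoc, sand pA]
  · rw [conjTranspose_mul, pw_conjTranspose, pw_conjTranspose, Matrix.mul_assoc,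
      ← Matrix.mul_assoc (pw (mg (B ∪ C) w') _), half pBC, ((sC _).mono hC).mg_mul,
      ((sC _).mono hC).mg_mul', union_comm, mg_compl_mg hBC.symm, ← Matrix.mul_assoc, sand pC]

lemma dim_compl_union {A B : Finset ι} (h : Disjoint A B) :
    (dim d Aᶜ : ℝ) = dim d (A ∪ B)ᶜ * dim d B := by
  have h1 : Aᶜ = (A ∪ B)ᶜ ∪ B := by
    ext a
    have : a ∈ A → a ∉ B := fun h' => Finset.disjoint_left.1 h h'
    simp; tauto
  rw [← Nat.cast_mul, ← dim_union (disjoint_compl_left.mono_right subset_union_right), ← h1]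

/-- LKH for regularised marginals of pure states -/
theorem lkh_rq {A B C : Finset ι} (hAB : Disjoint A B) (hAC : Disjoint A C) (hBC : Disjoint B C)
    (χ χ' : Vec (Cfg d)) {ε ε' : ℝ} (hε : 0 < ε) (hε' : 0 < ε') :
    rq χ (A ∪ B) ε * (rq χ' C (ε' * dim d B))⁻¹ ≤
      rq χ A (ε * dim d B) * (rq χ' (B ∪ C) ε')⁻¹ := by
  have d1 := dim_pos_real (d := d) (A ∪ B)ᶜ
  have d2 := dim_pos_real (d := d) (B ∪ C)ᶜ
  have := lkh hAB hAC hBC (w := pj χ + (ε / dim d (A ∪ B)ᶜ) • 1)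
    (w' := pj χ' + (ε' / dim d (B ∪ C)ᶜ) • 1)
    (PosDef.posSemidef_add (pj_posSemidef _) (PosDef.one.smul (by positivity)))
    (PosDef.posSemidef_add (pj_posSemidef _) (PosDef.one.smul (by positivity)))
  simp only [← rq_eq_mg] at this
  rwa [dim_compl_union hAB, dim_compl_union hBC.symm, union_comm C B, ← mul_assoc, ← mul_assoc,
    div_mul_cancel₀ _ d1.ne', div_mul_cancel₀ _ d2.ne'] at this

/-- (e4) for regularised marginals -/
theorem rq_union_le {X y : Finset ι} (h : Disjoint X y) (χ : Vec (Cfg d)) {ε ε' : ℝ}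
    (hε : ε ≤ dim d y * ε') : rq χ (X ∪ y) ε ≤ (dim d y : ℂ) • rq χ X ε' := by
  rw [rq, rq, smul_add]
  refine add_le_add (mg_union_le h (pj_posSemidef χ)) ?_
  rw [← Complex.coe_smul, ← Complex.coe_smul, smul_smul]
  exact smul_le_smul_of_nonneg_right (by exact_mod_cast hε) zero_le_one

end Crest.Agent.N336.Eng
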