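import Crest.Agent.N336.Eng.KB
import Crest.Agent.N336.Eng.Pure

/-!
# Row 336, engine, lemma (K): regularised marginals (helper66)
-/

set_option autoImplicit false
set_option linter.unusedSectionVars false

open Matrix Finset Complex
open scoped ComplexOrder MatrixOrder Matrix.Norms.L2Operator InnerProductSpace ComplexConjugate

namespace Crest.Agent.N336.Eng.K

open Crest.Agent.N336.Q

variable {ι : Type} [Fintype ι] [DecidableEq ι] {d : ι → Type} [∀ x, Fintype (d x)]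
  [∀ x, DecidableEq (d x)] [∀ x, Nonempty (d x)] {χ : Vec (Cfg d)} {X y P Y : Finset ι}
  {ε ε' : ℝ}

lemma dj (h : Disjoint X Y) (x : ι) : x ∈ X → x ∉ Y := fun hx => disjoint_left.1 h hx

lemma rq_pd (hε : 0 < ε) : (rq χ X ε).PosDef := rq_posDef χ X hε

lemma rq_supp : Supp X (rq χ X ε) := supp_rq χ X ε

lemma trace_rq (hχ : ‖χ‖ = 1) : (trace (rq χ X ε)).re = dim d Xᶜ * (1 + ε * dim d X) := by
  rw [re_trace_rq, hχ, ← dim_mul_compl X]
  push_cast
  ring

/-- conjugation by the regularised marginal on the line `Re = 1/2` -/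
lemma conj_le {a : Q.Op d} (ha : Supp X a) (h1 : ‖a‖ ≤ 1) (hχ : ‖χ‖ = 1) (hε : 0 < ε)
    (hε1 : ε * dim d X ≤ 1) {w : ℂ} (hw : w.re = 1 / 2) :
    ‖ap (cpw (rq χ X ε) w * a * cpw (rq χ X ε) (-w)) χ‖ ^ 2 ≤ 2 := by
  have hr := rq_pd (χ := χ) (X := X) hε
  refine (norm_ap_mul_cpw_rq_sq_le ((supp_cpw rq_supp hr.1 w).mul ha) χ hε
    (by rw [neg_re, hw])).trans ?_
  have h3 := re_trace_mul_mono
    (le_one_of_norm_le (C := aᴴ) (by rwa [l2_opNorm_conjTranspose])) hr.posSemidef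
  rw [conjTranspose_conjTranspose, Matrix.one_mul, trace_rq hχ, Matrix.mul_assoc,
    trace_mul_comm] at h3
  rw [conjTranspose_mul, cpw_conjTranspose, Matrix.mul_assoc, ← Matrix.mul_assoc (cpw _ _),
    cpw_mul_cpw, add_comm, add_conj, hw, mul_one_div_cancel two_ne_zero, ofReal_one, cpw_one hr,
    ← Matrix.mul_assoc, div_le_iff₀' (dim_pos_real _)]
  refine h3.trans ?_
  gcongr
  linarith

/-- first moment of a conditional density -/
lemma mom (hd : Disjoint X y) (hχ : ‖χ‖ = 1) (hε : 0 < ε) (hε' : 0 < ε')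
    (hε1 : ε * dim d X ≤ 1) : qf χ (rq χ X ε * (rq χ (X ∪ y)ᶜ ε')⁻¹) ≤ 2 * dim d y := by
  have hr := rq_pd (χ := χ) (X := X) hε
  have h1 := qf_mul_inv_rq_le (rq_supp.mono (subset_union_left (s₂ := y))) hr.posSemidef χ hε'
  rw [trace_rq hχ, dim_compl_union hd, mul_assoc, mul_div_cancel_left₀ _ (dim_pos_real _).ne', qf,
    ap_mul, ap_inv_rq_compl _ _ hε', ← ap_mul] at h1
  refine h1.trans ?_
  rw [mul_comm 2]
  gcongr
  linarith

lemma eta_nonneg (h1 : Disjoint P y) (h2 : Disjoint P Y) (h3 : Disjoint y Y) :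
    0 ≤ eta χ P y Y := by
  have h4 := SX_submod (P ∪ y) (Y ∪ y)ᶜ (pj_posSemidef χ)
  have e1 : P ∪ y ∪ (Y ∪ y)ᶜ = Yᶜ := by
    ext x
    have := dj h2 x
    have := dj h3 x
    simp only [mem_union, mem_compl]
    tauto
  have e2 : (P ∪ y) ∩ (Y ∪ y)ᶜ = P := by
    ext x
    have := dj h1 x
    have := dj h2 x
    simp only [mem_union, mem_compl, mem_inter]
    tauto
  rw [e1, e2, SX_compl, SX_compl] at h4
  change 0 ≤ SX (P ∪ y) (pj χ) - SX P (pj χ) + SX (Y ∪ y) (pj χ) - SX Y (pj χ)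
  linarith

lemma dim_le (X : Finset ι) : (dim d X : ℝ) ≤ dim d univ := by
  rw [← dim_mul_compl X, Nat.cast_mul]
  exact le_mul_of_one_le_right (Nat.cast_nonneg _) (by exact_mod_cast dim_pos _)

/-- the modular flows before and after the move agree up to a unitary far from the term -/
theorem flow (h1 : Disjoint P y) (h2 : Disjoint P Y) (h3 : Disjoint y Y) (hχ : ‖χ‖ = 1)
    (hε' : 0 < ε') (h4 : ε' * dim d univ ≤ ε) (h5 : ε * dim d univ ≤ 1) {l : ℝ} (hl : 1 ≤ l)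
    (h6 : Real.log (dim d y) ≤ l) {t : ℝ} (ht : |t| ≤ 2 * (1 / (32 * l))) :
    ∃ u : Q.Op d, Supp (P ∪ y)ᶜ u ∧ uᴴ * u = 1 ∧
      ‖ap u (ap (cpw (rq χ P ε) (t * I) * cpw (rq χ (Y ∪ y) ε') (-(t * I))) χ) - χ‖ ≤
        5 / 2 * (eta χ P y Y + 2 * ε * dim d univ) ^ (1 / 8 : ℝ) := by
  have hD := dim_pos_real (d := d) univ
  have hε : 0 < ε := (mul_pos hε' hD).trans_le h4
  have k1 := lkh_rq (A := P) (B := (P ∪ y ∪ Y)ᶜ) (C := Y)
    (disjoint_compl_right.mono_left (subset_union_left.trans subset_union_left)) h2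
    (disjoint_compl_left.mono_right subset_union_right) χ χ hε' hε
  have e1' : P ∪ (P ∪ y ∪ Y)ᶜ = (Y ∪ y)ᶜ := by
    ext x
    have := dj h1 x
    have := dj h2 x
    simp only [mem_union, mem_compl]
    tauto
  have e2' : (P ∪ y ∪ Y)ᶜ ∪ Y = (P ∪ y)ᶜ := by
    ext x
    have := dj h2 x
    have := dj h3 x
    simp only [mem_union, mem_compl]
    tauto
  rw [e1', e2'] at k1
  set δ := ε * dim d (P ∪ y ∪ Y)ᶜ with hδ
  have hδ0 : 0 < δ := mul_pos hε (dim_pos_real _)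
  have hδ1 : δ * dim d Y ≤ ε * dim d univ := by
    rw [hδ, mul_assoc, ← Nat.cast_mul,
      ← dim_union (disjoint_compl_left.mono_right subset_union_right)]
    exact mul_le_mul_of_nonneg_left (dim_le _) hε.le
  have hP1 : ε * dim d P ≤ ε * dim d univ := mul_le_mul_of_nonneg_left (dim_le P) hε.le
  have pP := rq_pd (χ := χ) (X := P) hε
  have pt := rq_pd (χ := χ) (X := (Y ∪ y)ᶜ) hε'
  have pF := rq_pd (χ := χ) (X := (P ∪ y)ᶜ) hε
  have pY := rq_pd (χ := χ) (X := Y) hδ0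
  have dP : Disjoint P (P ∪ y)ᶜ := disjoint_compl_right.mono_left subset_union_left
  have dY : Disjoint (Y ∪ y)ᶜ Y := disjoint_compl_left.mono_right subset_union_left
  have cP : Commute (rq χ P ε) (rq χ (P ∪ y)ᶜ ε) := rq_supp.commute rq_supp dP
  have cY : Commute (rq χ (Y ∪ y)ᶜ ε') (rq χ Y δ) := rq_supp.commute rq_supp dY
  have k2 : rq χ (Y ∪ y)ᶜ ε' * (rq χ Y δ)⁻¹ ≤ rq χ P ε * (rq χ (P ∪ y)ᶜ ε)⁻¹ :=
    k1.trans (mul_le_mul_comm
      (rq_mono _ _ ((mul_le_mul_of_nonneg_left (dim_le _) hε'.le).trans h4))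
      pF.inv.posSemidef (commute_inv pF (rq_supp.commute rq_supp dP)) (commute_inv pF cP))
  have hη := eta_nonneg (χ := χ) h1 h2 h3
  have hy : (dim d y : ℝ) ≤ Real.exp l := (Real.log_le_iff_le_exp (dim_pos_real _)).1 h6
  have k3 := close (posDef_mul_inv pt pY cY) k2 hχ (m := 2 * dim d y)
    (e := eta χ P y Y + 2 * ε * dim d univ) (σ := 1 / (32 * l)) 
    (by linarith [(Nat.one_le_cast (α := ℝ)).2 (dim_pos (d := d) y)])
    (mom h1 hχ hε hε (hP1.trans h5))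
    (by rw [inv_mul_inv _ pY]; exact mom h3.symm hχ hδ0 hε' (hδ1.trans h5))
    (by
      have a1 := (qf_lg_rq χ P hε).2
      have a2 := (qf_lg_rq χ Y hδ0).2
      have a3 := (qf_lg_rq χ (P ∪ y) hε).1
      have a4 := (qf_lg_rq χ (Y ∪ y) hε').1
      rw [qf, lg, fr, ap_fc_rq_compl] at a3 a4
      rw [lg_mul_inv pP pF cP, lg_mul_inv pt pY cY, qf_sub, qf_sub, eta]
      simp only [qf] at a1 a2 ⊢
      linarith)
    (by positivity) (by positivity)
    (by rw [mul_one_div, div_le_one (by positivity)]; linarith)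
    (by
      have a1 : 2 * (dim d y : ℝ) ≤ Real.exp (2 * l) := by
        rw [two_mul l, Real.exp_add]
        exact mul_le_mul (by linarith [Real.add_one_le_exp l]) hy (Nat.cast_nonneg _)
          (Real.exp_pos _).le
      refine (Real.rpow_le_rpow (by positivity) a1 (by positivity)).trans ?_
      rw [← Real.exp_mul, show 2 * l * (4 * (1 / (32 * l))) = 1 / 4 by field_simp; norm_num]
      have := Real.exp_one_lt_d9
      have a2 : Real.exp (1 / 4) ^ 4 = Real.exp 1 := by rw [← Real.exp_nat_mul]; norm_num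
      refine (pow_le_pow_iff_left₀ (Real.exp_pos _).le zero_le_two four_ne_zero).1 ?_
      rw [a2]; linarith) ht
  have hYs : Y ⊆ (P ∪ y)ᶜ := by rw [← e2']; exact subset_union_right
  have su : Supp (P ∪ y)ᶜ (cpw (rq χ (P ∪ y)ᶜ ε) (-(t * I)) * cpw (rq χ Y δ) (t * I)) :=
    (supp_cpw rq_supp pF.1 _).mul ((supp_cpw rq_supp pY.1 _).mono hYs)
  refine ⟨_, su, ?_, le_of_eq_of_le ?_ k3⟩
  · rw [conjTranspose_mul, Matrix.mul_assoc, ← Matrix.mul_assoc _ (cpw _ _),
      cpw_unitary _ (by simp), Matrix.one_mul, cpw_unitary _ (by simp)]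
  · rw [cpw_mul_inv pP pF cP, cpw_mul_inv pt pY cY, neg_neg, (commute_cpw_cpw pt.1 pY.1 cY _ _).eq,
      ap_mul (cpw (rq χ P ε) _), ap_cpw_rq_compl, ← ap_mul, ← ap_mul,
      (su.commute (supp_cpw rq_supp pP.1 _) dP.symm).eq]
    simp only [Matrix.mul_assoc]

end Crest.Agent.N336.Eng.K
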