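import Crest.Agent.N336.Eng.Defs

/-!
# Row 336, engine: scalar kernels of the weighted geometric mean (helper88)
-/

set_option autoImplicit false
set_option linter.unusedSectionVars false

open MeasureTheory Set Real

namespace Crest.Agent.N336.Eng.En

/-- normalising constant -/
noncomputable def cc (τ : ℝ) : ℝ := (∫ t in Ioi 0, rpowIntegrand₀₁ τ t 1)⁻¹

lemma cc_pos {τ : ℝ} (h : τ ∈ Ioo (0 : ℝ) 1) : 0 < cc τ :=
  inv_pos.2 (integral_rpowIntegrand₀₁_one_pos h)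

/-- basic integrand -/
noncomputable def r0 (τ t x : ℝ) : ℝ := cc τ * t ^ (τ - 1) * (x / (t + x))

lemma r0_eq {τ x : ℝ} (h : τ ∈ Ioo (0 : ℝ) 1) (hx : 0 ≤ x) :
    EqOn (fun t => cc τ * rpowIntegrand₀₁ τ t x) (fun t => r0 τ t x) (Ioi 0) := by
  intro t ht
  simp only [r0, rpowIntegrand₀₁_eq_pow_div h (le_of_lt ht) hx]
  ring

lemma int_r0 {τ x : ℝ} (h : τ ∈ Ioo (0 : ℝ) 1) (hx : 0 ≤ x) :
    IntegrableOn (fun t => r0 τ t x) (Ioi 0) :=
  IntegrableOn.congr_fun ((integrableOn_rpowIntegrand₀₁_Ioi h hx).const_mul (cc τ))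
    (r0_eq h hx) measurableSet_Ioi

lemma integral_r0 {τ x : ℝ} (h : τ ∈ Ioo (0 : ℝ) 1) (hx : 0 ≤ x) :
    ∫ t in Ioi 0, r0 τ t x = x ^ τ := by
  rw [← setIntegral_congr_fun measurableSet_Ioi (r0_eq h hx), integral_const_mul,
    rpow_eq_const_mul_integral h hx, cc]

lemma r0_nonneg {τ t x : ℝ} (h : τ ∈ Ioo (0 : ℝ) 1) (ht : 0 < t) (hx : 0 ≤ x) : 0 ≤ r0 τ t x := by
  have := cc_pos h
  unfold r0; positivity

lemma int_of_le {f g : ℝ → ℝ} (hg : IntegrableOn g (Ioi 0)) (hf : Measurable f)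
    (h : ∀ t, 0 < t → 0 ≤ f t ∧ f t ≤ g t) : IntegrableOn f (Ioi 0) := by
  refine Integrable.mono' hg hf.aestronglyMeasurable ?_
  refine ae_restrict_of_forall_mem measurableSet_Ioi fun t ht => ?_
  rw [Real.norm_of_nonneg (h t ht).1]; exact (h t ht).2

/-- weight and profile of the left kernel -/
noncomputable def wA (τ t : ℝ) : ℝ := cc τ * t ^ (τ - 1)
noncomputable def pA (x t : ℝ) : ℝ := x / (t + x)
/-- weight and profile of the right kernel -/
noncomputable def wB (τ t : ℝ) : ℝ := cc τ * t ^ τ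
noncomputable def pB (x t : ℝ) : ℝ := 1 / (t + x)

noncomputable def KA (τ x y : ℝ) : ℝ := ∫ t in Ioi 0, wA τ t * (pA x t * pA y t)
noncomputable def KB (τ x y : ℝ) : ℝ := ∫ t in Ioi 0, wB τ t * (pB x t * pB y t)

lemma wA_nonneg {τ t : ℝ} (h : τ ∈ Ioo (0 : ℝ) 1) (ht : 0 < t) : 0 ≤ wA τ t := by
  have := cc_pos h; unfold wA; positivity

lemma wB_nonneg {τ t : ℝ} (h : τ ∈ Ioo (0 : ℝ) 1) (ht : 0 < t) : 0 ≤ wB τ t := by
  have := cc_pos h; unfold wB; positivity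

lemma wB_eq {τ t : ℝ} (ht : 0 < t) : wB τ t = wA τ t * t := by
  unfold wA wB
  rw [Real.rpow_sub_one ht.ne']; field_simp

lemma int_A {τ x y : ℝ} (h : τ ∈ Ioo (0 : ℝ) 1) (hx : 0 < x) (hy : 0 < y) :
    IntegrableOn (fun t => wA τ t * (pA x t * pA y t)) (Ioi 0) := by
  refine int_of_le (int_r0 h hx.le) (by unfold wA pA; fun_prop) fun t ht => ?_
  have h1 := wA_nonneg h ht
  have h2 : 0 ≤ pA x t := by unfold pA; positivity
  have h3 : 0 ≤ pA y t := by unfold pA; positivity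
  have h4 : pA y t ≤ 1 := by unfold pA; rw [div_le_one (by positivity)]; linarith
  refine ⟨by positivity, ?_⟩
  have : r0 τ t x = wA τ t * (pA x t * 1) := by simp [r0, wA, pA]
  rw [this]; gcongr

lemma int_B {τ x y : ℝ} (h : τ ∈ Ioo (0 : ℝ) 1) (hx : 0 < x) (hy : 0 < y) :
    IntegrableOn (fun t => wB τ t * (pB x t * pB y t)) (Ioi 0) := by
  refine int_of_le ((int_r0 h hx.le).const_mul x⁻¹) (by unfold wB pB; fun_prop) fun t ht => ?_
  have h1 := wA_nonneg h ht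
  have h2 : 0 ≤ pB x t := by unfold pB; positivity
  have h3 : 0 ≤ pB y t := by unfold pB; positivity
  have h4 : t * pB y t ≤ 1 := by
    unfold pB; rw [mul_one_div, div_le_one (by positivity)]; linarith
  refine ⟨mul_nonneg (wB_nonneg h ht) (by positivity), ?_⟩
  have e1 : x⁻¹ * r0 τ t x = wA τ t * pB x t * 1 := by
    simp only [r0, wA, pB]; field_simp
  have e2 : wB τ t * (pB x t * pB y t) = wA τ t * pB x t * (t * pB y t) := by
    rw [wB_eq ht]; ring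
  rw [e1, e2]; gcongr

lemma KA_add_right {τ x y : ℝ} (h : τ ∈ Ioo (0 : ℝ) 1) (hx : 0 < x) (hy : 0 < y) :
    KA τ x y + y * KB τ x y = y ^ τ := by
  rw [KA, KB, ← integral_const_mul, ← integral_add (int_A h hx hy) ((int_B h hx hy).const_mul y),
    ← integral_r0 h hy.le]
  refine setIntegral_congr_fun measurableSet_Ioi fun t ht => ?_
  have ht' : (0 : ℝ) < t := ht
  simp only [wB_eq ht', r0, wA, pA, pB]
  field_simp
  ring

lemma KA_comm (τ x y : ℝ) : KA τ x y = KA τ y x := by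
  unfold KA; simp only [mul_comm (pA x _)]

lemma KB_comm (τ x y : ℝ) : KB τ x y = KB τ y x := by
  unfold KB; simp only [mul_comm (pB x _)]

lemma KA_add_left {τ x y : ℝ} (h : τ ∈ Ioo (0 : ℝ) 1) (hx : 0 < x) (hy : 0 < y) :
    KA τ x y + x * KB τ x y = x ^ τ := by
  rw [KA_comm, KB_comm]; exact KA_add_right h hy hx

/-- the pointwise parallel-sum inequality -/
lemma par_ineq {t y : ℝ} (ht : 0 < t) (hy : 0 < y) (p q : ℂ) :
    y / (t + y) * ‖p + (t : ℂ) * q‖ ^ 2 ≤ ‖p‖ ^ 2 + t * (y * ‖q‖ ^ 2) := by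
  have h1 : ‖p + (t : ℂ) * q‖ ≤ ‖p‖ + t * ‖q‖ := by
    refine (norm_add_le _ _).trans ?_
    rw [norm_mul, Complex.norm_real, Real.norm_of_nonneg ht.le]
  have h2 : ‖p + (t : ℂ) * q‖ ^ 2 ≤ (‖p‖ + t * ‖q‖) ^ 2 := by gcongr
  rw [div_mul_eq_mul_div, div_le_iff₀ (by positivity)]
  have h3 : 0 ≤ t * (‖p‖ - y * ‖q‖) ^ 2 := by positivity
  nlinarith [mul_le_mul_of_nonneg_left h2 hy.le]

lemma scalar_tan {τ x y : ℝ} (h : τ ∈ Ioo (0 : ℝ) 1) (hx : 0 < x) (hy : 0 < y) :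
    y ^ τ ≤ KA τ x x + y * KB τ x x := by
  rw [KA, KB, ← integral_const_mul, ← integral_add (int_A h hx hx) ((int_B h hx hx).const_mul y),
    ← integral_r0 h hy.le]
  refine setIntegral_mono_on (int_r0 h hy.le) ((int_A h hx hx).add ((int_B h hx hx).const_mul y))
    measurableSet_Ioi fun t ht => ?_
  have ht' : (0 : ℝ) < t := ht
  have h1 := par_ineq ht' hy (pA x t : ℂ) (pB x t : ℂ)
  have h2 : (pA x t : ℂ) + (t : ℂ) * (pB x t : ℂ) = 1 := by
    have : pA x t + t * pB x t = 1 := by unfold pA pB; field_simp; ring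
    exact_mod_cast this
  rw [h2, norm_one, Complex.norm_real, Complex.norm_real, Real.norm_eq_abs, Real.norm_eq_abs,
    sq_abs, sq_abs] at h1
  have h3 := mul_le_mul_of_nonneg_left h1 (wA_nonneg h ht')
  rw [wB_eq ht']
  have : r0 τ t y = wA τ t * (y / (t + y) * 1 ^ 2) := by simp [r0, wA]
  rw [this]; nlinarith

lemma KB_diag {τ x : ℝ} (h : τ ∈ Ioo (0 : ℝ) 1) (hx : 0 < x) : x * KB τ x x = τ * x ^ τ := by
  have hmin : IsLocalMin (fun y : ℝ => KA τ x x + y * KB τ x x - y ^ τ) x := by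
    filter_upwards [lt_mem_nhds hx] with y hy
    have := scalar_tan h hx hy
    have := KA_add_left h hx hx
    linarith
  have hd : HasDerivAt (fun y : ℝ => KA τ x x + y * KB τ x x - y ^ τ)
      (1 * KB τ x x - τ * x ^ (τ - 1)) x :=
    (((hasDerivAt_id x).mul_const _).const_add _).sub (Real.hasDerivAt_rpow_const (Or.inl hx.ne'))
  have := hmin.hasDerivAt_eq_zero hd
  have e : x ^ τ = x * x ^ (τ - 1) := by rw [Real.rpow_sub_one hx.ne']; field_simp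
  rw [e]; linear_combination x * this

lemma KA_diag {τ x : ℝ} (h : τ ∈ Ioo (0 : ℝ) 1) (hx : 0 < x) : KA τ x x = (1 - τ) * x ^ τ := by
  have := KA_add_left h hx hx
  have := KB_diag h hx
  linarith

/-! ### the kernel of the fourth root against the kernel of the square root -/

lemma half_mem : (1 / 2 : ℝ) ∈ Ioo (0 : ℝ) 1 := by constructor <;> norm_num
lemma quart_mem : (1 / 4 : ℝ) ∈ Ioo (0 : ℝ) 1 := by constructor <;> norm_num

/-- right profile with a quarter power -/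
noncomputable def pQ (x t : ℝ) : ℝ := t ^ (1 / 4 : ℝ) * pB x t

lemma pBB_le {t x : ℝ} (ht : 0 < t) (hx : 0 < x) :
    x * (pB x t * pB x t) ≤ (cc (1 / 2))⁻¹ * (x ^ (1 / 2 : ℝ))⁻¹ * r0 (1 / 2) t x := by
  have hc := cc_pos half_mem
  obtain ⟨a, ha, rfl⟩ : ∃ a : ℝ, 0 < a ∧ x = a ^ 2 := ⟨√x, Real.sqrt_pos.2 hx, (Real.sq_sqrt hx.le).symm⟩
  obtain ⟨b, hb, rfl⟩ : ∃ b : ℝ, 0 < b ∧ t = b ^ 2 := ⟨√t, Real.sqrt_pos.2 ht, (Real.sq_sqrt ht.le).symm⟩
  have e1 : (a ^ 2) ^ (1 / 2 : ℝ) = a := by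
    rw [← Real.rpow_natCast, ← Real.rpow_mul ha.le]; norm_num
  have e2 : (b ^ 2) ^ ((1 / 2 : ℝ) - 1) = b⁻¹ := by
    rw [← Real.rpow_natCast, ← Real.rpow_mul hb.le]; norm_num [Real.rpow_neg_one]
  simp only [r0, pB, e1, e2]
  have : (cc (1 / 2))⁻¹ * a⁻¹ * (cc (1 / 2) * b⁻¹ * (a ^ 2 / (b ^ 2 + a ^ 2))) =
      a / (b * (b ^ 2 + a ^ 2)) := by field_simp
  rw [this, show a ^ 2 * (1 / (b ^ 2 + a ^ 2) * (1 / (b ^ 2 + a ^ 2))) =
    a ^ 2 / ((b ^ 2 + a ^ 2) * (b ^ 2 + a ^ 2)) by field_simp,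
    div_le_div_iff₀ (by positivity) (by positivity)]
  have : 0 ≤ a * (b ^ 2 + a ^ 2) * ((a - b) ^ 2 + a * b) := by positivity
  nlinarith

lemma int_BB_self {x : ℝ} (hx : 0 < x) :
    IntegrableOn (fun t => x * (pB x t * pB x t)) (Ioi 0) :=
  int_of_le ((int_r0 half_mem hx.le).const_mul _) (by unfold pB; fun_prop) fun t ht =>
    ⟨by unfold pB; positivity, pBB_le ht hx⟩

lemma int_BB {x y : ℝ} (hx : 0 < x) (hy : 0 < y) :
    IntegrableOn (fun t => cc (1 / 4) * (pB x t * pB y t)) (Ioi 0) := by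
  refine Integrable.const_mul ?_ _
  refine int_of_le (((int_BB_self hx).const_mul x⁻¹).add ((int_BB_self hy).const_mul y⁻¹))
    (by unfold pB; fun_prop) fun t ht => ⟨by unfold pB; positivity, ?_⟩
  simp only [Pi.add_apply, ← mul_assoc, inv_mul_cancel₀ hx.ne', inv_mul_cancel₀ hy.ne', one_mul]
  nlinarith [sq_nonneg (pB x t - pB y t), sq_nonneg (pB x t + pB y t)]

lemma BB_diag {x : ℝ} (hx : 0 < x) :
    (∫ t in Ioi 0, cc (1 / 4) * (pB x t * pB x t)) * x ≤ cc (1 / 4) / cc (1 / 2) := by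
  have h1 : ∫ t in Ioi 0, x * (pB x t * pB x t) ≤
      ∫ t in Ioi 0, (cc (1 / 2))⁻¹ * (x ^ (1 / 2 : ℝ))⁻¹ * r0 (1 / 2) t x :=
    setIntegral_mono_on (int_BB_self hx) ((int_r0 half_mem hx.le).const_mul _) measurableSet_Ioi
      fun t ht => pBB_le ht hx
  rw [integral_const_mul, integral_const_mul, integral_r0 half_mem hx.le, mul_assoc,
    inv_mul_cancel₀ (by positivity), mul_one] at h1
  rw [integral_const_mul, mul_assoc, mul_comm _ x, div_eq_mul_inv]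
  exact mul_le_mul_of_nonneg_left h1 (cc_pos quart_mem).le

lemma BQ_eq (x y t : ℝ) : cc (1 / 4) * (pB x t * pQ y t) = wB (1 / 4) t * (pB x t * pB y t) := by
  unfold pQ wB; ring

lemma QQ_eq {t : ℝ} (ht : 0 < t) (x y : ℝ) : cc (1 / 4) * (pQ x t * pQ y t) =
    cc (1 / 4) / cc (1 / 2) * (wB (1 / 2) t * (pB x t * pB y t)) := by
  have hc := cc_pos half_mem
  have e : t ^ (1 / 2 : ℝ) = t ^ (1 / 4 : ℝ) * t ^ (1 / 4 : ℝ) := by
    rw [← Real.rpow_add ht]; norm_num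
  unfold pQ wB; rw [e]; field_simp

end Crest.Agent.N336.Eng.En
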