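import Crest.Agent.N336.Eng.Geo

/-!
# Row 336, engine: canonical frames and the uniform geometric mean of a family (helper88)
-/

set_option autoImplicit false
set_option linter.unusedSectionVars false

open Matrix Finset
open scoped ComplexOrder MatrixOrder Matrix.Norms.L2Operator InnerProductSpace

namespace Crest.Agent.N336.Eng.En

open Crest.Agent.N336.Q

variable {n : Type} [Fintype n] [DecidableEq n]

lemma pw_mul {A : Matrix n n ℂ} (hA : A.PosDef) (s t : ℝ) : pw A s * pw A t = pw A (s + t) := by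
  rw [fc_mul]
  exact fc_congr fun i => by simp only [Real.rpow_add (ev_pos hA i), Complex.ofReal_mul]

lemma pw_zero (A : Matrix n n ℂ) : pw A 0 = 1 := by
  simp only [pw, fr, Real.rpow_zero, Complex.ofReal_one, fc_one]

lemma pw_one {A : Matrix n n ℂ} (hA : A.IsHermitian) : pw A 1 = A := by
  simp only [pw, Real.rpow_one]; exact fr_id hA

lemma pw_herm (A : Matrix n n ℂ) (s : ℝ) : (pw A s)ᴴ = pw A s := fr_isHermitian _ _

lemma pw_mul_neg {A : Matrix n n ℂ} (hA : A.PosDef) {s t : ℝ} (h : s + t = 0) :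
    pw A s * pw A t = 1 := by rw [pw_mul hA, h, pw_zero]

lemma fr_posDef {g : ℝ → ℝ} {A : Matrix n n ℂ} (h : ∀ i, 0 < g (ev A i)) : (fr g A).PosDef :=
  (⟨eU A, (eU A)ᴴ, fun _ => 1, fun _ => one_pos, eU_mul_star A, star_mul_eU A⟩ : Fr n).D_posDef h

lemma pw_posDef {A : Matrix n n ℂ} (hA : A.PosDef) (s : ℝ) : (pw A s).PosDef :=
  fr_posDef fun i => Real.rpow_pos_of_pos (ev_pos hA i) s

/-- relative operator `A^{-1/2} B A^{-1/2}` -/
noncomputable abbrev rel (A B : Matrix n n ℂ) : Matrix n n ℂ := pw A (-1 / 2) * B * pw A (-1 / 2)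

lemma rel_posDef {A B : Matrix n n ℂ} (hA : A.PosDef) (hB : B.PosDef) : (rel A B).PosDef := by
  have hu : IsUnit (pw A (-1 / 2)) := (pw_posDef hA _).isUnit
  have := hB.mul_mul_conjTranspose_same (Matrix.vecMul_injective_of_isUnit hu)
  rwa [pw_herm] at this

/-- the frame of a positive definite pair -/
noncomputable def frP {A B : Matrix n n ℂ} (hA : A.PosDef) (hB : B.PosDef) : Fr n where
  S := pw A (1 / 2) * eU (rel A B)
  Si := (eU (rel A B))ᴴ * pw A (-1 / 2)
  x := ev (rel A B)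
  hx := ev_pos (rel_posDef hA hB)
  h1 := by
    rw [Matrix.mul_assoc, ← Matrix.mul_assoc (eU _), eU_mul_star, Matrix.one_mul,
      pw_mul_neg hA (by norm_num)]
  h2 := by
    rw [Matrix.mul_assoc, ← Matrix.mul_assoc (pw A _), pw_mul_neg hA (by norm_num),
      Matrix.one_mul, star_mul_eU]

open Classical in
/-- the canonical frame -/
noncomputable def fr0 (A B : Matrix n n ℂ) : Fr n :=
  if h : A.PosDef ∧ B.PosDef then frP h.1 h.2
  else ⟨1, 1, fun _ => 1, fun _ => one_pos, one_mul _, one_mul _⟩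

lemma fr0_D {A B : Matrix n n ℂ} (hA : A.PosDef) (hB : B.PosDef) (f : ℝ → ℝ) :
    (fr0 A B).D (fun i => f ((fr0 A B).x i)) = pw A (1 / 2) * fr f (rel A B) * pw A (1 / 2) := by
  rw [fr0, dif_pos ⟨hA, hB⟩]
  simp only [Fr.D, frP]
  rw [conjTranspose_mul, pw_herm]
  change _ = _ * (eU (rel A B) * dg (fun i => f (ev (rel A B) i)) * (eU (rel A B))ᴴ) * _
  simp only [Matrix.mul_assoc]

lemma fr0_a {A B : Matrix n n ℂ} (hA : A.PosDef) (hB : B.PosDef) : (fr0 A B).a = A := by
  have := fr0_D hA hB fun _ => 1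
  simp only [fr, Complex.ofReal_one, fc_one, Matrix.mul_one] at this
  rw [Fr.a, this]
  change pw A (1 / 2) * pw A (1 / 2) = A
  rw [pw_mul hA, add_halves, pw_one hA.1]

lemma fr0_b {A B : Matrix n n ℂ} (hA : A.PosDef) (hB : B.PosDef) : (fr0 A B).b = B := by
  have := fr0_D hA hB fun x => x
  rw [fr_id (rel_posDef hA hB).1] at this
  rw [Fr.b, this]
  calc _ = (pw A (1 / 2) * pw A (-1 / 2)) * B * (pw A (-1 / 2) * pw A (1 / 2)) := by
        simp only [Matrix.mul_assoc]
    _ = B := by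
        rw [pw_mul_neg hA (by norm_num), pw_mul_neg hA (by norm_num), Matrix.one_mul,
          Matrix.mul_one]

/-- one node: domination of the intertwining defect -/
lemma Fr.dom_node (F F' : Fr n) {τ : ℝ} (h : τ ∈ Set.Ioo (0 : ℝ) 1) (g : Matrix n n ℂ)
    {qa qb : ℝ} {Ea Eb : Matrix n n ℂ} (ha : Dom (g * F.a - F'.a * g) (qa • F'.a) Ea)
    (hb : Dom (g * F.b - F'.b * g) (qb • F'.b) Eb) :
    Dom (g * F.m τ - F'.m τ * g) (((1 - τ) * qa + τ * qb) • F'.m τ)
      (F.L F (KA τ) Ea + F.L F (KB τ) Eb) := by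
  have := (F.domA F' h ha).add (F.domB F' h hb)
  rw [map_smul, map_smul, F'.LA_a h, F'.LB_b h, smul_smul, smul_smul, ← add_smul,
    ← F.inter F' h] at this
  rwa [mul_comm (1 - τ), mul_comm τ]

lemma wt_mem (k : ℕ) : ((k + 1 : ℝ) / (k + 2)) ∈ Set.Ioo (0 : ℝ) 1 :=
  ⟨by positivity, by rw [div_lt_one (by positivity)]; linarith⟩

/-- uniform geometric mean of `k + 1` matrices -/
noncomputable def mean : (k : ℕ) → (Fin (k + 1) → Matrix n n ℂ) → Matrix n n ℂ
  | 0, A => A 0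
  | k + 1, A => (fr0 (A 0) (mean k (Fin.tail A))).m ((k + 1 : ℝ) / (k + 2))

/-- its tangent map -/
noncomputable def mP : (k : ℕ) → (Fin (k + 1) → Matrix n n ℂ) →
    (Fin (k + 1) → Matrix n n ℂ) →ₗ[ℝ] Matrix n n ℂ
  | 0, _ => LinearMap.proj 0
  | k + 1, A =>
    ((fr0 (A 0) (mean k (Fin.tail A))).L (fr0 (A 0) (mean k (Fin.tail A)))
        (KA ((k + 1 : ℝ) / (k + 2)))).comp (LinearMap.proj 0) +
      ((fr0 (A 0) (mean k (Fin.tail A))).L (fr0 (A 0) (mean k (Fin.tail A)))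
        (KB ((k + 1 : ℝ) / (k + 2)))).comp
        ((mP k (Fin.tail A)).comp (LinearMap.funLeft ℝ _ Fin.succ))

lemma mP_succ (k : ℕ) (A E : Fin (k + 2) → Matrix n n ℂ) : mP (k + 1) A E =
    (fr0 (A 0) (mean k (Fin.tail A))).L (fr0 (A 0) (mean k (Fin.tail A)))
        (KA ((k + 1 : ℝ) / (k + 2))) (E 0) +
      (fr0 (A 0) (mean k (Fin.tail A))).L (fr0 (A 0) (mean k (Fin.tail A)))
        (KB ((k + 1 : ℝ) / (k + 2))) (mP k (Fin.tail A) (Fin.tail E)) := rfl

lemma mean_posDef : ∀ (k : ℕ) (A : Fin (k + 1) → Matrix n n ℂ), (∀ j, (A j).PosDef) →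
    (mean k A).PosDef
  | 0, _, h => h 0
  | _ + 1, _, _ => Fr.m_posDef _ _

lemma mP_mono : ∀ (k : ℕ) (A E E' : Fin (k + 1) → Matrix n n ℂ), (∀ j, QL (E j) (E' j)) →
    QL (mP k A E) (mP k A E')
  | 0, _, _, _, h => h 0
  | k + 1, A, E, E', h => by
    rw [mP_succ, mP_succ]
    exact (Fr.LA_mono _ (wt_mem k) (h 0)).add
      (Fr.LB_mono _ (wt_mem k) (mP_mono k _ _ _ fun j => h j.succ))

lemma mP_norm : ∀ (k : ℕ) (A : Fin (k + 1) → Matrix n n ℂ) (ξ : Fin (k + 1) → ℝ),
    (∀ j, (A j).PosDef) → mP k A (fun j => ξ j • A j) = ((∑ j, ξ j) / (k + 1)) • mean k A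
  | 0, A, ξ, _ => by simp [mP, mean]
  | k + 1, A, ξ, h => by
    have hm := mean_posDef k (Fin.tail A) fun j => h j.succ
    have ih := mP_norm k (Fin.tail A) (Fin.tail ξ) fun j => h j.succ
    rw [mP_succ, show (Fin.tail fun j => ξ j • A j) = fun j => Fin.tail ξ j • Fin.tail A j from rfl,
      ih, map_smul, map_smul]
    have e1 := (fr0 (A 0) (mean k (Fin.tail A))).LA_a (wt_mem k)
    have e2 := (fr0 (A 0) (mean k (Fin.tail A))).LB_b (wt_mem k)
    rw [fr0_a (h 0) hm] at e1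
    rw [fr0_b (h 0) hm] at e2
    rw [e1, e2, smul_smul, smul_smul, ← add_smul, Fin.sum_univ_succ ξ]
    congr 1
    simp only [Fin.tail]
    push_cast; field_simp; ring

lemma mean_tan : ∀ (k : ℕ) (A A' : Fin (k + 1) → Matrix n n ℂ), (∀ j, (A' j).PosDef) →
    QL (mean k A') (mP k A A')
  | 0, _, _, _ => QL.refl _
  | k + 1, A, A', h => by
    have hm := mean_posDef k (Fin.tail A') fun j => h j.succ
    have h1 := (fr0 (A 0) (mean k (Fin.tail A))).tan (fr0 (A' 0) (mean k (Fin.tail A'))) (wt_mem k)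
    rw [fr0_a (h 0) hm, fr0_b (h 0) hm] at h1
    rw [mP_succ]
    exact h1.trans ((QL.refl _).add
      (Fr.LB_mono _ (wt_mem k) (mean_tan k _ _ fun j => h j.succ)))

lemma mean_dom (g : Matrix n n ℂ) : ∀ (k : ℕ) (A A' E : Fin (k + 1) → Matrix n n ℂ)
    (q : Fin (k + 1) → ℝ), (∀ j, (A j).PosDef) → (∀ j, (A' j).PosDef) →
    (∀ j, Dom (g * A j - A' j * g) (q j • A' j) (E j)) →
    Dom (g * mean k A - mean k A' * g) (((∑ j, q j) / (k + 1)) • mean k A') (mP k A E)
  | 0, A, A', E, q, _, _, h => by simpa [mean, mP] using h 0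
  | k + 1, A, A', E, q, hA, hA', h => by
    have hm := mean_posDef k (Fin.tail A) fun j => hA j.succ
    have hm' := mean_posDef k (Fin.tail A') fun j => hA' j.succ
    have ih := mean_dom g k (Fin.tail A) (Fin.tail A') (Fin.tail E) (Fin.tail q)
      (fun j => hA j.succ) (fun j => hA' j.succ) fun j => h j.succ
    have := (fr0 (A 0) (mean k (Fin.tail A))).dom_node (fr0 (A' 0) (mean k (Fin.tail A')))
      (wt_mem k) g (qa := q 0) (qb := (∑ j, Fin.tail q j) / (k + 1)) (Ea := E 0)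
      (Eb := mP k (Fin.tail A) (Fin.tail E))
      (by rw [fr0_a (hA 0) hm, fr0_a (hA' 0) hm']; exact h 0)
      (by rw [fr0_b (hA 0) hm, fr0_b (hA' 0) hm']; exact ih)
    have e : (∑ j, q j) / (((k + 1 : ℕ) : ℝ) + 1) = (1 - (k + 1 : ℝ) / (k + 2)) * q 0 +
        (k + 1 : ℝ) / (k + 2) * ((∑ j, Fin.tail q j) / (k + 1)) := by
      rw [Fin.sum_univ_succ q]
      simp only [Fin.tail]
      push_cast; field_simp; ring
    rw [mP_succ, e]
    exact this

lemma mean_geo {w : Vec n} (hw : w ≠ 0) : ∀ (k : ℕ) (A : Fin (k + 1) → Matrix n n ℂ),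
    (∀ j, (A j).PosDef) → Real.log (qf w (mean k A)) ≤ (∑ j, Real.log (qf w (A j))) / (k + 1)
  | 0, A, _ => by simp [mean]
  | k + 1, A, h => by
    have hm := mean_posDef k (Fin.tail A) fun j => h j.succ
    have ih := mean_geo hw k (Fin.tail A) fun j => h j.succ
    have h1 := (fr0 (A 0) (mean k (Fin.tail A))).geo (wt_mem k) hw
    rw [fr0_a (h 0) hm, fr0_b (h 0) hm] at h1
    refine h1.trans ?_
    have h2 := mul_le_mul_of_nonneg_left ih (wt_mem k).1.le
    refine (add_le_add_right h2 _).trans (le_of_eq ?_)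
    rw [Fin.sum_univ_succ (fun j => Real.log (qf w (A j)))]
    simp only [Fin.tail]
    push_cast; field_simp; ring

lemma mean_const {A : Matrix n n ℂ} (hA : A.PosDef) : ∀ k : ℕ, mean k (fun _ => A) = A
  | 0 => rfl
  | k + 1 => by
    have e : Fin.tail (fun _ : Fin (k + 2) => A) = fun _ => A := rfl
    simp only [mean, e, mean_const hA k]
    rw [Fr.m_of_eq _ (by rw [fr0_a hA hA, fr0_b hA hA]), fr0_a hA hA]

/-! ### means over a finite type -/

section fam

variable {X : Type} [Fintype X] [Nonempty X]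

/-- enumeration -/
noncomputable def en (X : Type) [Fintype X] [Nonempty X] : Fin (Fintype.card X - 1 + 1) ≃ X :=
  (Fintype.equivFinOfCardEq (Nat.sub_add_cancel Fintype.card_pos).symm).symm

lemma card_cast (X : Type) [Fintype X] [Nonempty X] :
    ((Fintype.card X - 1 : ℕ) : ℝ) + 1 = Fintype.card X := by
  exact_mod_cast Nat.sub_add_cancel (Fintype.card_pos (α := X))

/-- uniform geometric mean -/
noncomputable def mn (A : X → Matrix n n ℂ) : Matrix n n ℂ := mean _ fun j => A (en X j)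

/-- tangent map of the uniform geometric mean -/
noncomputable def mnP (A : X → Matrix n n ℂ) : (X → Matrix n n ℂ) →ₗ[ℝ] Matrix n n ℂ :=
  (mP _ fun j => A (en X j)).comp (LinearMap.funLeft ℝ _ (en X))

lemma mn_posDef {A : X → Matrix n n ℂ} (h : ∀ x, (A x).PosDef) : (mn A).PosDef :=
  mean_posDef _ _ fun _ => h _

lemma mnP_mono (A : X → Matrix n n ℂ) {E E' : X → Matrix n n ℂ} (h : ∀ x, QL (E x) (E' x)) :
    QL (mnP A E) (mnP A E') := mP_mono _ _ _ _ fun _ => h _

lemma mnP_norm {A : X → Matrix n n ℂ} (h : ∀ x, (A x).PosDef) (ξ : X → ℝ) :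
    mnP A (fun x => ξ x • A x) = ((∑ x, ξ x) / Fintype.card X) • mn A := by
  have := mP_norm _ (fun j => A (en X j)) (fun j => ξ (en X j)) fun _ => h _
  rw [Equiv.sum_comp (en X) ξ, card_cast] at this
  exact this

lemma mn_tan (A : X → Matrix n n ℂ) {A' : X → Matrix n n ℂ} (h : ∀ x, (A' x).PosDef) :
    QL (mn A') (mnP A A') := mean_tan _ _ _ fun _ => h _

lemma mn_dom (g : Matrix n n ℂ) {A A' E : X → Matrix n n ℂ} {q : X → ℝ}
    (hA : ∀ x, (A x).PosDef) (hA' : ∀ x, (A' x).PosDef)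
    (h : ∀ x, Dom (g * A x - A' x * g) (q x • A' x) (E x)) :
    Dom (g * mn A - mn A' * g) (((∑ x, q x) / Fintype.card X) • mn A') (mnP A E) := by
  have := mean_dom g _ (fun j => A (en X j)) (fun j => A' (en X j)) (fun j => E (en X j))
    (fun j => q (en X j)) (fun _ => hA _) (fun _ => hA' _) fun _ => h _
  rw [Equiv.sum_comp (en X) q, card_cast] at this
  exact this

lemma mn_geo {A : X → Matrix n n ℂ} (h : ∀ x, (A x).PosDef) {w : Vec n} (hw : w ≠ 0) :
    Real.log (qf w (mn A)) ≤ (∑ x, Real.log (qf w (A x))) / Fintype.card X := by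
  have := mean_geo hw _ (fun j => A (en X j)) fun _ => h _
  rw [Equiv.sum_comp (en X) fun x => Real.log (qf w (A x)), card_cast] at this
  exact this

lemma mn_const {A : Matrix n n ℂ} (hA : A.PosDef) : mn (fun _ : X => A) = A := mean_const hA _

lemma mnP_self {A : X → Matrix n n ℂ} (h : ∀ x, (A x).PosDef) : mnP A A = mn A := by
  have := mnP_norm h fun _ => 1
  simp only [one_smul, Finset.sum_const, Finset.card_univ, nsmul_eq_mul, mul_one] at this
  rwa [div_self (by exact_mod_cast Fintype.card_pos.ne'), one_smul] at this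

lemma mn_mono {A A' : X → Matrix n n ℂ} (h : ∀ x, (A x).PosDef) (h' : ∀ x, (A' x).PosDef)
    (hle : ∀ x, QL (A x) (A' x)) : QL (mn A) (mn A') := by
  rw [← mnP_self h']; exact (mn_tan A' h).trans (mnP_mono _ hle)

lemma mn_le {A : X → Matrix n n ℂ} {B : Matrix n n ℂ} (h : ∀ x, (A x).PosDef) (hB : B.PosDef)
    (hle : ∀ x, QL (A x) B) : QL (mn A) B := by
  rw [← mn_const (X := X) hB]; exact mn_mono h (fun _ => hB) hle

lemma le_mn {A : X → Matrix n n ℂ} {B : Matrix n n ℂ} (h : ∀ x, (A x).PosDef) (hB : B.PosDef)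
    (hle : ∀ x, QL B (A x)) : QL B (mn A) := by
  rw [← mn_const (X := X) hB]; exact mn_mono (fun _ => hB) h hle

end fam

end Crest.Agent.N336.Eng.En
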