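import Crest.Agent.N336.Eng.Tree

/-!
# Row 336, engine: the root node `M ^ (1/2)` and the energy inequality (helper88)
-/

set_option autoImplicit false
set_option linter.unusedSectionVars false

open Matrix Finset MeasureTheory
open scoped ComplexOrder MatrixOrder Matrix.Norms.L2Operator InnerProductSpace

namespace Crest.Agent.N336.Eng.En

open Crest.Agent.N336.Q

variable {n : Type} [Fintype n] [DecidableEq n]

/-- frame of the pair `(1, M)` -/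
noncomputable def frM {M : Matrix n n ℂ} (hM : M.PosDef) : Fr n :=
  ⟨eU M, (eU M)ᴴ, ev M, ev_pos hM, eU_mul_star M, star_mul_eU M⟩

variable {M M' : Matrix n n ℂ}

lemma frM_a (hM : M.PosDef) : (frM hM).a = 1 := by
  have : (frM hM).a = fc (fun _ => ((1 : ℝ) : ℂ)) M := rfl
  rw [this, Complex.ofReal_one, fc_one]

lemma frM_b (hM : M.PosDef) : (frM hM).b = M := fr_id hM.1

lemma frM_m (hM : M.PosDef) (τ : ℝ) : (frM hM).m τ = pw M τ := rfl

/-- tangent map of the square root -/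
noncomputable def LR (hM : M.PosDef) : Matrix n n ℂ →ₗ[ℝ] Matrix n n ℂ :=
  (frM hM).L (frM hM) (KB (1 / 2))

lemma LR_self (hM : M.PosDef) : LR hM M = (1 / 2 : ℝ) • pw M (1 / 2) := by
  have := (frM hM).LB_b half_mem
  rwa [frM_b, frM_m] at this

lemma LR_mono (hM : M.PosDef) {E E' : Matrix n n ℂ} (h : QL E E') : QL (LR hM E) (LR hM E') :=
  (frM hM).LB_mono half_mem h

lemma root_tan (hM : M.PosDef) (hM' : M'.PosDef) :
    QL (pw M' (1 / 2)) ((1 / 2 : ℝ) • pw M (1 / 2) + LR hM M') := by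
  have h1 := (frM hM).tan (frM hM') half_mem
  have h2 := (frM hM).LA_a half_mem
  rw [frM_a, frM_m] at h2
  rw [frM_a, frM_b, frM_m, h2, show (1 - 1 / 2 : ℝ) = 1 / 2 by norm_num] at h1
  exact h1

lemma root_mono (hM : M.PosDef) (hM' : M'.PosDef) (h : QL M' M) :
    QL (pw M' (1 / 2)) (pw M (1 / 2)) := by
  have := (root_tan hM hM').trans ((QL.refl _).add (LR_mono hM h))
  rwa [LR_self, ← add_smul, add_halves, one_smul] at this

lemma dom_zero_smul (g : Matrix n n ℂ) : Dom (g * 1 - 1 * g) ((0 : ℝ) • (1 : Matrix n n ℂ)) 0 := by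
  rw [Matrix.mul_one, Matrix.one_mul, sub_self, zero_smul]; exact Dom.zero

lemma energy_minus (hM : M.PosDef) (hM' : M'.PosDef) {g E : Matrix n n ℂ} {q : ℝ} (hq : 0 ≤ q)
    (hd : Dom (g * M - M' * g) (q • M') E) (Ω : Vec n) :
    ‖ap (pw M' (-1 / 4) * g * pw M (1 / 2)) Ω - ap (pw M' (1 / 4) * g) Ω‖ ^ 2 ≤
      q / 2 * qf Ω (LR hM E) := by
  have h1 := (frM hM).dom_node (frM hM') half_mem g (qa := 0) (qb := q) (Ea := 0) (Eb := E)
    (by rw [frM_a, frM_a]; exact dom_zero_smul g) (by rw [frM_b, frM_b]; exact hd)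
  rw [frM_m, frM_m, map_zero, zero_add] at h1
  have h2 := h1.conj (pw M' (-1 / 4)) 1
  rw [conjTranspose_one, Matrix.mul_one, Matrix.mul_one, Matrix.one_mul, pw_herm, Matrix.mul_smul,
    Matrix.smul_mul, pw_mul hM', pw_mul_neg hM' (by norm_num), Matrix.mul_sub,
    ← Matrix.mul_assoc, ← Matrix.mul_assoc, pw_mul hM'] at h2
  have h3 := h2.norm_sq_le (by linarith) Ω
  rw [ap_sub, show (-1 / 4 + 1 / 2 : ℝ) = 1 / 4 by norm_num,
    show ((1 - 1 / 2) * 0 + 1 / 2 * q : ℝ) = q / 2 by ring] at h3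
  exact h3

/-- constant of the fourth root estimate -/
noncomputable def c14 : ℝ := cc (1 / 4) / cc (1 / 2)

lemma c14_pos : 0 < c14 := div_pos (cc_pos quart_mem) (cc_pos half_mem)

lemma sch_smul (c : ℝ) (K : n → n → ℝ) (Y : Matrix n n ℂ) :
    sch (fun i j => c * K i j) Y = c • sch K Y := by
  ext i j; simp [sch_apply, mul_assoc]

lemma energy_zero (hM : M.PosDef) (hM' : M'.PosDef) {g E : Matrix n n ℂ} {q : ℝ} (hq : 0 ≤ q)
    (hd : Dom (g * M - M' * g) (q • M') E) (Ω : Vec n) :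
    ‖ap g (ap (pw M (1 / 4)) Ω) - ap (pw M' (1 / 4) * g) Ω‖ ^ 2 ≤
      c14 ^ 2 * q * qf Ω (LR hM E) := by
  set F := frM hM with hF
  set F' := frM hM' with hF'
  have h1 := F.inter F' quart_mem g
  rw [hF, hF', frM_a, frM_a, frM_b, frM_b, frM_m, frM_m, Matrix.mul_one, Matrix.one_mul, sub_self,
    map_zero, zero_add, ← hF, ← hF'] at h1
  have iab : ∀ i j, IntegrableOn (fun t => cc (1 / 4) * (pB (F'.x i) t * pQ (F.x j) t))
      (Set.Ioi 0) := fun i j => by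
    simp only [BQ_eq]; exact int_B quart_mem (F'.hx i) (F.hx j)
  have ibb : ∀ i j, IntegrableOn (fun t => cc (1 / 4) * (pQ (F.x i) t * pQ (F.x j) t))
      (Set.Ioi 0) := fun i j =>
    IntegrableOn.congr_fun ((int_B half_mem (F.hx i) (F.hx j)).const_mul c14)
      (fun t ht => (QQ_eq ht _ _).symm) measurableSet_Ioi
  have h2 := ((hd.conj F'.Si F.Si).sch (w := fun _ => cc (1 / 4)) (a := fun i => pB (F'.x i))
    (b := fun i => pQ (F.x i)) (fun _ _ => (cc_pos quart_mem).le) iab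
    (fun i j => int_BB (F'.hx i) (F'.hx j)) ibb).conj F'.S F.S
  have e1 : (fun i j => ∫ t in Set.Ioi 0, cc (1 / 4) * (pB (F'.x i) t * pQ (F.x j) t)) =
      fun i j => KB (1 / 4) (F'.x i) (F.x j) := by simp only [BQ_eq, KB]
  have e2 : (fun i j => ∫ t in Set.Ioi 0, cc (1 / 4) * (pQ (F.x i) t * pQ (F.x j) t)) =
      fun i j => c14 * KB (1 / 2) (F.x i) (F.x j) := by
    funext i j
    rw [KB, ← integral_const_mul]
    exact setIntegral_congr_fun measurableSet_Ioi fun t ht => QQ_eq ht _ _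
  have e3 : F'.Si * (q • M') * F'.Siᴴ = dg fun i => q * F'.x i := by
    rw [← F'.Si_D, F'.D_smul]; congr 3; exact (frM_b hM').symm
  rw [e1, e2, e3, sch_smul, sch_diagonal, Matrix.mul_smul, Matrix.smul_mul, ← F.L_apply,
    ← F.L_apply, ← h1] at h2
  have h3 : QL (F'.D fun i => (∫ t in Set.Ioi 0, cc (1 / 4) * (pB (F'.x i) t * pB (F'.x i) t)) *
      (q * F'.x i)) ((c14 * q) • (1 : Matrix n n ℂ)) := by
    rw [← frM_a hM', ← hF', Fr.a, ← F'.D_smul]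
    refine F'.D_mono fun i => ?_
    have := mul_le_mul_of_nonneg_left (BB_diag (F'.hx i)) hq
    rw [c14]; linarith
  have h4 := (h2.mono h3 (QL.refl _)).norm_sq_le (mul_nonneg c14_pos.le hq) Ω
  rw [qf_smul, ap_sub, ap_mul] at h4
  refine h4.trans (le_of_eq ?_)
  rw [LR, ← hF]; ring

lemma qf_root (hM : M.PosDef) (Ω : Vec n) :
    ‖ap (pw M (1 / 4)) Ω‖ ^ 2 = qf Ω (pw M (1 / 2)) := by
  rw [norm_ap_sq, pw_herm, pw_mul hM]; norm_num

/-- the energy inequality -/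
theorem energy_le {V : Type} [Fintype V] (hM : M.PosDef) {g Mt E : V → Matrix n n ℂ} {q : V → ℝ}
    (hMt : ∀ v, (Mt v).PosDef) (hq : ∀ v, 0 ≤ q v)
    (hd : ∀ v, Dom (g v * M - Mt v * g v) (q v • Mt v) (E v)) {Ω : Vec n} {E₀ : ℝ}
    (hΩ : ap (∑ v, (g v)ᴴ * g v) Ω = (E₀ : ℂ) • Ω) :
    ∑ v, ‖ap (g v) (ap (pw M (1 / 4)) Ω)‖ ^ 2 ≤
      4 * E₀ * qf Ω (pw M (1 / 2)) + (1 + 2 * c14 ^ 2) * ∑ v, q v * qf Ω (LR hM (E v)) := by
  have key : ∀ v, ‖ap (g v) (ap (pw M (1 / 4)) Ω)‖ ^ 2 ≤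
      4 * (⟪ap (pw M (1 / 2)) Ω, ap ((g v)ᴴ * g v) Ω⟫_ℂ).re +
        (1 + 2 * c14 ^ 2) * (q v * qf Ω (LR hM (E v))) := by
    intro v
    have h1 := energy_minus hM (hMt v) (hq v) (hd v) Ω
    have h2 := energy_zero hM (hMt v) (hq v) (hd v) Ω
    set am := ap (pw (Mt v) (-1 / 4) * g v * pw M (1 / 2)) Ω with ham
    set ap' := ap (pw (Mt v) (1 / 4) * g v) Ω with hap
    set a0 := ap (g v) (ap (pw M (1 / 4)) Ω)
    have h3 : ⟪am, ap'⟫_ℂ = ⟪ap (pw M (1 / 2)) Ω, ap ((g v)ᴴ * g v) Ω⟫_ℂ := by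
      rw [ham, hap, ap_mul, inner_ap_left, ← ap_mul, conjTranspose_mul, pw_herm, Matrix.mul_assoc,
        ← Matrix.mul_assoc (pw _ _), pw_mul_neg (hMt v) (by norm_num), Matrix.one_mul]
    have h4 := norm_sub_sq (𝕜 := ℂ) am ap'
    have h5 : ‖a0‖ ≤ ‖a0 - ap'‖ + ‖ap'‖ := by simpa using norm_add_le (a0 - ap') ap'
    have h6 : ‖ap'‖ ^ 2 ≤ 2 * (⟪am, ap'⟫_ℂ).re + ‖am - ap'‖ ^ 2 := by
      have : RCLike.re ⟪am, ap'⟫_ℂ = (⟪am, ap'⟫_ℂ).re := rfl
      nlinarith [sq_nonneg ‖am‖]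
    have h7 : ‖a0‖ ^ 2 ≤ 2 * ‖a0 - ap'‖ ^ 2 + 2 * ‖ap'‖ ^ 2 := by
      have := pow_le_pow_left₀ (norm_nonneg _) h5 2
      nlinarith [sq_nonneg (‖a0 - ap'‖ - ‖ap'‖)]
    rw [← h3]; nlinarith
  refine (Finset.sum_le_sum fun v _ => key v).trans (le_of_eq ?_)
  rw [Finset.sum_add_distrib, ← Finset.mul_sum, ← Finset.mul_sum, ← Complex.re_sum, ← inner_sum,
    ← ap_sum, hΩ, inner_smul_right, Complex.re_ofReal_mul, re_inner_comm, mul_assoc]

end Crest.Agent.N336.Eng.En
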