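import Crest.Agent.N336.Eng.Mean

/-!
# Row 336, engine: means over random histories (helper88)
-/

set_option autoImplicit false
set_option linter.unusedSectionVars false

open Matrix Finset
open scoped ComplexOrder MatrixOrder Matrix.Norms.L2Operator InnerProductSpace

namespace Crest.Agent.N336.Eng.En

open Crest.Agent.N336.Q

variable {n : Type} [Fintype n] [DecidableEq n] {Cf X : Type} [Fintype X] [Nonempty X]
  (mv : Cf → X → Cf)

/-- mean over histories of length `t` -/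
noncomputable def Gt (N : Cf → Matrix n n ℂ) : ℕ → Cf → Matrix n n ℂ
  | 0, c => N c
  | t + 1, c => mn fun x => Gt N t (mv c x)

/-- its tangent map -/
noncomputable def Pt (N : Cf → Matrix n n ℂ) : ℕ → Cf → (Cf → Matrix n n ℂ) →ₗ[ℝ] Matrix n n ℂ
  | 0, c => LinearMap.proj c
  | t + 1, c => (mnP fun x => Gt mv N t (mv c x)).comp (LinearMap.pi fun x => Pt N t (mv c x))

lemma Pt_succ (N E : Cf → Matrix n n ℂ) (t : ℕ) (c : Cf) : Pt mv N (t + 1) c E =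
    mnP (fun x => Gt mv N t (mv c x)) fun x => Pt mv N t (mv c x) E := rfl

lemma avg_iter_succ (f : Cf → ℝ) (t : ℕ) (c : Cf) :
    (avg mv)^[t + 1] f c = (∑ x, (avg mv)^[t] f (mv c x)) / Fintype.card X := by
  rw [Function.iterate_succ_apply']; rfl

variable {N N' E E' : Cf → Matrix n n ℂ}

lemma Gt_posDef (h : ∀ c, (N c).PosDef) : ∀ t c, (Gt mv N t c).PosDef
  | 0, c => h c
  | t + 1, _ => mn_posDef fun _ => Gt_posDef h t _

lemma Pt_mono (N : Cf → Matrix n n ℂ) (h : ∀ c, QL (E c) (E' c)) :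
    ∀ t c, QL (Pt mv N t c E) (Pt mv N t c E')
  | 0, c => h c
  | t + 1, _ => by
    rw [Pt_succ, Pt_succ]; exact mnP_mono _ fun _ => Pt_mono N h t _

lemma Pt_norm (h : ∀ c, (N c).PosDef) (ξ : Cf → ℝ) :
    ∀ t c, Pt mv N t c (fun c' => ξ c' • N c') = (avg mv)^[t] ξ c • Gt mv N t c
  | 0, _ => rfl
  | t + 1, c => by
    rw [Pt_succ, avg_iter_succ]
    simp only [Pt_norm h ξ t]
    exact mnP_norm (fun _ => Gt_posDef mv h t _) _

lemma Gt_tan (N : Cf → Matrix n n ℂ) (h : ∀ c, (N' c).PosDef) :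
    ∀ t c, QL (Gt mv N' t c) (Pt mv N t c N')
  | 0, _ => QL.refl _
  | t + 1, _ => by
    rw [Pt_succ]
    exact (mn_tan _ fun _ => Gt_posDef mv h t _).trans (mnP_mono _ fun _ => Gt_tan N h t _)

lemma Gt_dom (g : Matrix n n ℂ) {q : Cf → ℝ} (h : ∀ c, (N c).PosDef) (h' : ∀ c, (N' c).PosDef)
    (hd : ∀ c, Dom (g * N c - N' c * g) (q c • N' c) (E c)) :
    ∀ t c, Dom (g * Gt mv N t c - Gt mv N' t c * g) ((avg mv)^[t] q c • Gt mv N' t c)
      (Pt mv N t c E)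
  | 0, c => hd c
  | t + 1, c => by
    rw [Pt_succ, avg_iter_succ]
    exact mn_dom g (fun _ => Gt_posDef mv h t _) (fun _ => Gt_posDef mv h' t _)
      fun _ => Gt_dom g h h' hd t _

lemma Gt_mono (h : ∀ c, (N c).PosDef) (h' : ∀ c, (N' c).PosDef) (hle : ∀ c, QL (N c) (N' c)) :
    ∀ t c, QL (Gt mv N t c) (Gt mv N' t c)
  | 0, c => hle c
  | t + 1, _ => mn_mono (fun _ => Gt_posDef mv h t _) (fun _ => Gt_posDef mv h' t _)
      fun _ => Gt_mono h h' hle t _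

lemma Gt_le {A : Cf → Matrix n n ℂ} (hA : ∀ c, (A c).PosDef) (h : ∀ c, (N c).PosDef)
    (hm : ∀ c x, QL (A (mv c x)) (A c)) (hle : ∀ c, QL (N c) (A c)) :
    ∀ t c, QL (Gt mv N t c) (A c)
  | 0, c => hle c
  | t + 1, c => mn_le (fun _ => Gt_posDef mv h t _) (hA c)
      fun x => (Gt_le hA h hm hle t _).trans (hm c x)

lemma le_Gt {B : Matrix n n ℂ} (hB : B.PosDef) (h : ∀ c, (N c).PosDef) :
    ∀ t c, (∀ l : List X, l.length = t → QL B (N (l.foldl mv c))) → QL B (Gt mv N t c)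
  | 0, _, hl => hl [] rfl
  | t + 1, c, hl => le_mn (fun _ => Gt_posDef mv h t _) hB fun x =>
      le_Gt hB h t _ fun l hl' => hl (x :: l) (by simp [hl'])

lemma Gt_shift (N : Cf → Matrix n n ℂ) :
    ∀ t c, Gt mv N (t + 1) c = Gt mv (fun c => mn fun x => N (mv c x)) t c
  | 0, _ => rfl
  | t + 1, c => by
    change mn (fun x => Gt mv N (t + 1) (mv c x)) = _
    simp only [Gt_shift N t]; rfl

/-! ### the top mean over a random time offset -/

variable (c₀ : Cf) (T : ℕ)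

/-- top mean -/
noncomputable def Tp (N : Cf → Matrix n n ℂ) (t : ℕ) : Matrix n n ℂ :=
  mn fun o : Fin (T + 1) => Gt mv N (o + t) c₀

/-- its tangent map -/
noncomputable def TP (N : Cf → Matrix n n ℂ) (t : ℕ) : (Cf → Matrix n n ℂ) →ₗ[ℝ] Matrix n n ℂ :=
  (mnP fun o : Fin (T + 1) => Gt mv N (o + t) c₀).comp
    (LinearMap.pi fun o : Fin (T + 1) => Pt mv N (o + t) c₀)

lemma TP_apply (N E : Cf → Matrix n n ℂ) (t : ℕ) : TP mv c₀ T N t E =
    mnP (fun o : Fin (T + 1) => Gt mv N (o + t) c₀) fun o => Pt mv N (o + t) c₀ E := rfl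

lemma ex_eq (t : ℕ) (f : Cf → ℝ) : ex mv c₀ (T + 1) t f =
    (∑ o : Fin (T + 1), (avg mv)^[o + t] f c₀) / Fintype.card (Fin (T + 1)) := by
  rw [ex, Fintype.card_fin, Finset.sum_range fun o => (avg mv)^[o + t] f c₀]

lemma Tp_posDef (h : ∀ c, (N c).PosDef) (t : ℕ) : (Tp mv c₀ T N t).PosDef :=
  mn_posDef fun _ => Gt_posDef mv h _ _

lemma TP_mono (N : Cf → Matrix n n ℂ) (h : ∀ c, QL (E c) (E' c)) (t : ℕ) :
    QL (TP mv c₀ T N t E) (TP mv c₀ T N t E') := by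
  rw [TP_apply, TP_apply]; exact mnP_mono _ fun _ => Pt_mono mv N h _ _

lemma TP_norm (h : ∀ c, (N c).PosDef) (ξ : Cf → ℝ) (t : ℕ) :
    TP mv c₀ T N t (fun c' => ξ c' • N c') = ex mv c₀ (T + 1) t ξ • Tp mv c₀ T N t := by
  rw [TP_apply, ex_eq]
  simp only [Pt_norm mv h ξ]
  exact mnP_norm (fun _ => Gt_posDef mv h _ _) _

lemma Tp_tan (N : Cf → Matrix n n ℂ) (h : ∀ c, (N' c).PosDef) (t : ℕ) :
    QL (Tp mv c₀ T N' t) (TP mv c₀ T N t N') := by
  rw [TP_apply]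
  exact (mn_tan _ fun _ => Gt_posDef mv h _ _).trans (mnP_mono _ fun _ => Gt_tan mv N h _ _)

lemma Tp_dom (g : Matrix n n ℂ) {q : Cf → ℝ} (h : ∀ c, (N c).PosDef) (h' : ∀ c, (N' c).PosDef)
    (hd : ∀ c, Dom (g * N c - N' c * g) (q c • N' c) (E c)) (t : ℕ) :
    Dom (g * Tp mv c₀ T N t - Tp mv c₀ T N' t * g) (ex mv c₀ (T + 1) t q • Tp mv c₀ T N' t)
      (TP mv c₀ T N t E) := by
  rw [TP_apply, ex_eq]
  exact mn_dom g (fun _ => Gt_posDef mv h _ _) (fun _ => Gt_posDef mv h' _ _)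
    fun _ => Gt_dom mv g h h' hd _ _

lemma Tp_mono (h : ∀ c, (N c).PosDef) (h' : ∀ c, (N' c).PosDef) (hle : ∀ c, QL (N c) (N' c))
    (t : ℕ) : QL (Tp mv c₀ T N t) (Tp mv c₀ T N' t) :=
  mn_mono (fun _ => Gt_posDef mv h _ _) (fun _ => Gt_posDef mv h' _ _)
    fun _ => Gt_mono mv h h' hle _ _

lemma Tp_le {A : Cf → Matrix n n ℂ} (hA : ∀ c, (A c).PosDef) (h : ∀ c, (N c).PosDef)
    (hm : ∀ c x, QL (A (mv c x)) (A c)) (hle : ∀ c, QL (N c) (A c)) (t : ℕ) :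
    QL (Tp mv c₀ T N t) (A c₀) :=
  mn_le (fun _ => Gt_posDef mv h _ _) (hA c₀) fun _ => Gt_le mv hA h hm hle _ _

lemma le_Tp {B : Matrix n n ℂ} (hB : B.PosDef) (h : ∀ c, (N c).PosDef) (t : ℕ)
    (hl : ∀ l : List X, l.length ≤ T + t → QL B (N (l.foldl mv c₀))) : QL B (Tp mv c₀ T N t) :=
  le_mn (fun _ => Gt_posDef mv h _ _) hB fun o => le_Gt mv hB h _ _ fun l hl' =>
    hl l (by have := o.2; omega)

lemma Tp_shift (N : Cf → Matrix n n ℂ) (t : ℕ) :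
    Tp mv c₀ T N (t + 1) = Tp mv c₀ T (fun c => mn fun x => N (mv c x)) t := by
  simp only [Tp, ← add_assoc, Gt_shift]

/-! ### linearity of the expectations -/

lemma avg_iter_lin (a b : ℝ) (f g : Cf → ℝ) : ∀ (t : ℕ) (c : Cf),
    (avg mv)^[t] (fun c => a * f c + b * g c) c = a * (avg mv)^[t] f c + b * (avg mv)^[t] g c
  | 0, _ => rfl
  | t + 1, c => by
    simp only [avg_iter_succ, avg_iter_lin a b f g t, Finset.sum_add_distrib, ← Finset.mul_sum]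
    ring

lemma ex_lin (T t : ℕ) (a b : ℝ) (f g : Cf → ℝ) :
    ex mv c₀ T t (fun c => a * f c + b * g c) = a * ex mv c₀ T t f + b * ex mv c₀ T t g := by
  simp only [ex, avg_iter_lin, Finset.sum_add_distrib, ← Finset.mul_sum]; ring

lemma ex_avg (T t : ℕ) (f : Cf → ℝ) : ex mv c₀ T t (avg mv f) = ex mv c₀ T (t + 1) f := by
  simp only [ex, ← add_assoc, Function.iterate_succ_apply]

lemma avg_iter_nonneg {f : Cf → ℝ} (h : ∀ c, 0 ≤ f c) : ∀ (t : ℕ) (c : Cf), 0 ≤ (avg mv)^[t] f c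
  | 0, c => h c
  | t + 1, c => by
    rw [avg_iter_succ]
    exact div_nonneg (Finset.sum_nonneg fun _ _ => avg_iter_nonneg h t _) (Nat.cast_nonneg _)

lemma ex_nonneg (T t : ℕ) {f : Cf → ℝ} (h : ∀ c, 0 ≤ f c) : 0 ≤ ex mv c₀ T t f :=
  div_nonneg (Finset.sum_nonneg fun _ _ => avg_iter_nonneg mv h _ _) (Nat.cast_nonneg _)

end Crest.Agent.N336.Eng.En
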